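import Vale.Agent.P048.Chord

/-!
A cycle with an arbitrary chord and a nonconstant labelling: cross paths of every length, up to the
bipartite exception.
-/

namespace Vale.Agent.P048

variable {V : Type*} {G : SimpleGraph V} {c : ℕ} {f : ℤ → V}

/-- A cycle with any chord has differently labelled pairs joined by paths of every length below
the cycle length, except for an odd chord, an alternating labelling and an even length. -/
theorem ZCyc.cross_paths_any (hc : ZCyc G c f) (P : V → Prop) (hP : ∃ i j, P (f i) ∧ ¬ P (f j))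
    {u : ℤ} {s : ℕ} (hs2 : 2 ≤ s) (hsc : s + 2 ≤ c) 
    (hchord : G.Adj (f u) (f (u + s))) {l : ℕ} (hl1 : 1 ≤ l) (hlc : l < c) :
    (∃ i j, ¬ (P (f i) ↔ P (f j)) ∧ PathLen G (Set.range f) (f i) (f j) l) ∨
      (Even c ∧ Even l ∧ Odd s ∧ ∀ t, P (f t) ↔ ¬ P (f (t + 1))) := by
  classical
  refine or_iff_not_imp_left.2 fun hno => ?_
  have hno' : ∀ i j, PathLen G (Set.range f) (f i) (f j) l → (P (f i) ↔ P (f j)) := by
    intro i j h
    by_contra hne
    exact hno ⟨i, j, hne, h⟩
  have hperl : ∀ t, P (f t) ↔ P (f (t + (l : ℤ))) := by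
    intro t
    apply hno'
    refine (hc.path_up t l hlc).mono ?_
    rintro v ⟨i, -, -, rfl⟩
    exact Set.mem_range_self i
  have hperc : ∀ t, P (f t) ↔ P (f (t + (c : ℤ))) := fun t => by rw [hc.periodic t]
  have hex : ∃ d : ℕ, 0 < d ∧ ∀ t, P (f t) ↔ P (f (t + (d : ℤ))) := ⟨l, hl1, hperl⟩
  obtain ⟨d, hd0, hdper, hdmin⟩ : ∃ d : ℕ, 0 < d ∧ (∀ t, P (f t) ↔ P (f (t + (d : ℤ)))) ∧
      ∀ d' < d, ¬ (0 < d' ∧ ∀ t, P (f t) ↔ P (f (t + (d' : ℤ)))) :=
    ⟨Nat.find hex, (Nat.find_spec hex).1, (Nat.find_spec hex).2,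
      fun d' h => Nat.find_min hex h⟩
  have hmul : ∀ t q : ℤ, P (f t) ↔ P (f (t + d * q)) := fun t q =>
    periodic_sub (P := fun t => P (f t)) hdper q t
  have key : ∀ t t' q : ℤ, t' = t + d * q → (P (f t) ↔ P (f t')) := fun t t' q h => by
    subst h; exact hmul t q
  have hdvd : ∀ g : ℕ, (∀ t, P (f t) ↔ P (f (t + (g : ℤ)))) → d ∣ g := by
    intro g hg
    by_contra hnd
    have hne : g % d ≠ 0 := fun h => hnd (Nat.dvd_of_mod_eq_zero h)
    refine hdmin (g % d) (Nat.mod_lt _ hd0) ⟨by omega, fun t => ?_⟩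
    rw [hg t, hmul (t + (g % d : ℕ)) (g / d : ℕ)]
    have e : t + ((g % d : ℕ) : ℤ) + (d : ℤ) * ((g / d : ℕ) : ℤ) = t + (g : ℤ) := by
      have : ((g % d + d * (g / d) : ℕ) : ℤ) = (g : ℤ) := by rw [Nat.mod_add_div]
      push_cast at this ⊢
      linarith
    rw [e]
  have hd2 : 2 ≤ d := by
    by_contra h
    have hd1 : d = 1 := by omega
    obtain ⟨i, j, hi, hj⟩ := hP
    have := (hmul i (j - i)).1 hi
    rw [hd1] at this
    simp at this
    exact hj this
  have hdl : d ∣ l := hdvd l hperl
  have hdc : d ∣ c := hdvd c hperc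
  have hdl_le : d ≤ l := Nat.le_of_dvd (by omega) hdl
  obtain ⟨kl, hkl⟩ := hdl
  obtain ⟨kc, hkc⟩ := hdc
  have hkk : kl < kc := by
    by_contra h
    push Not at h
    have := Nat.mul_le_mul_left d h
    omega
  have hld : l + d ≤ c := by
    have := Nat.mul_le_mul_left d (Nat.succ_le_of_lt hkk)
    rw [Nat.mul_succ] at this
    omega
  -- the three kinds of chord paths
  have CA : ∀ (u : ℤ) (s x y : ℕ), G.Adj (f u) (f (u + s)) → y < s → x + s < c → x + 1 + y = l →
      (P (f (u - x)) ↔ P (f (u + s - y))) := by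
    intro u s x y h hy hx hl
    have := hc.path_chord (a := u - x) (a' := u) (b := u + s - y) (b' := u + s) h
      (Or.inr rfl) (Or.inr rfl) (by omega) (by omega) (by omega) (by omega)
    have e : (u - (u - (x:ℤ))).toNat + 1 + (u + s - (u + s - (y:ℤ))).toNat = l := by omega
    rw [e] at this
    have h1 : (if u = u - (x:ℤ) then u else u - x) = u - x := by split_ifs <;> omega
    have h2 : (if u + (s:ℤ) = u + s - y then u + (s:ℤ) else u + s - y) = u + s - y := by
      split_ifs <;> omega
    rw [h1, h2] at this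
    exact hno' _ _ this
  have CB : ∀ (u : ℤ) (s x y : ℕ), G.Adj (f u) (f (u + s)) → x < s → y + s < c → x + 1 + y = l →
      (P (f (u + x)) ↔ P (f (u + s + y))) := by
    intro u s x y h hx hy hl
    have := hc.path_chord (a := u) (a' := u + x) (b := u + s) (b' := u + s + y) h
      (Or.inl rfl) (Or.inl rfl) (by omega) (by omega) (by omega) (by omega)
    have e : (u + (x:ℤ) - u).toNat + 1 + (u + s + (y:ℤ) - (u + s)).toNat = l := by omega
    rw [e] at this
    simp at this
    exact hno' _ _ this
  have CC : ∀ (u : ℤ) (s x y : ℕ), G.Adj (f u) (f (u + s)) → 1 ≤ s → x + 1 + y = l →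
      s + x + y < c → (P (f (u - x)) ↔ P (f (u + s + y))) := by
    intro u s x y h hs hl hc'
    have := hc.path_chord (a := u - x) (a' := u) (b := u + s) (b' := u + s + y) h
      (Or.inr rfl) (Or.inl rfl) (by omega) (by omega) (by omega) (by omega)
    have e : (u - (u - (x:ℤ))).toNat + 1 + (u + s + (y:ℤ) - (u + s)).toNat = l := by omega
    rw [e] at this
    have h1 : (if u = u - (x:ℤ) then u else u - x) = u - x := by split_ifs <;> omega
    rw [h1] at this
    simp at this
    exact hno' _ _ this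
  rcases Nat.lt_or_ge d 3 with hd3 | hd3
  · -- period two
    obtain rfl : d = 2 := by omega
    set y := min (s - 1) (l - 1) with hy
    have := CA u s (l - 1 - y) y hchord (by omega) (by omega) (by omega)
    rcases Nat.even_or_odd s with hseven | hsodd
    swap
    · refine ⟨even_iff_two_dvd.2 ⟨kc, hkc⟩, even_iff_two_dvd.2 ⟨kl, hkl⟩, hsodd, fun t => ?_⟩
      constructor
      · intro h1 h2
        refine hdmin 1 (by norm_num) ⟨by norm_num, fun w => ?_⟩
        obtain ⟨e, he, q', hq'⟩ := exists_congr_Ico (d := 2) (by norm_num) w t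
        interval_cases e
        · rw [← key t w q' (by omega), ← key (t + 1) (w + ((1 : ℕ) : ℤ)) q' (by omega)]
          exact iff_of_true h1 h2
        · rw [← key (t + 1) w q' (by omega), ← key t (w + ((1 : ℕ) : ℤ)) (q' + 1) (by omega)]
          exact iff_of_true h2 h1
      · intro h2
        by_contra h1
        refine hdmin 1 (by norm_num) ⟨by norm_num, fun w => ?_⟩
        obtain ⟨e, he, q', hq'⟩ := exists_congr_Ico (d := 2) (by norm_num) w t
        interval_cases e
        · rw [← key t w q' (by omega), ← key (t + 1) (w + ((1 : ℕ) : ℤ)) q' (by omega)]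
          exact iff_of_false h1 h2
        · rw [← key (t + 1) w q' (by omega), ← key t (w + ((1 : ℕ) : ℤ)) (q' + 1) (by omega)]
          exact iff_of_false h2 h1
    exfalso
    obtain ⟨r, hr⟩ := hseven
    set i0 : ℤ := u - ((l - 1 - y : ℕ) : ℤ) with hi0
    have base : P (f i0) ↔ P (f (i0 + 1)) := by
      rw [this]
      exact key _ _ (-((r : ℤ) + kl - y - 1)) (by push_cast; omega)
    have hP1 : ∀ t, P (f t) ↔ P (f (t + 1)) := by
      intro t
      obtain ⟨e, he, q', hq'⟩ := exists_congr_Ico (d := 2) (by norm_num) t i0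
      interval_cases e
      · rw [← key i0 t q' (by omega), ← key (i0 + 1) (t + 1) q' (by omega)]
        exact base
      · rw [← key (i0 + 1) t q' (by omega), ← key i0 (t + 1) (q' + 1) (by push_cast; omega)]
        exact base.symm
    have := hdmin 1 (by norm_num)
    exact this ⟨by norm_num, fun t => by simpa using hP1 t⟩
  · -- period at least three; make the chord short
    exfalso
    obtain ⟨u, s, hchord, hs2, hsc, hshort⟩ : ∃ (u : ℤ) (s : ℕ), G.Adj (f u) (f (u + s)) ∧
        2 ≤ s ∧ s + 2 ≤ c ∧ 2 * s ≤ c := by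
      rcases Nat.lt_or_ge c (2 * s) with h | h
      · refine ⟨u + s, c - s, ?_, by omega, by omega, by omega⟩
        have e : u + (s:ℤ) + ((c - s : ℕ) : ℤ) = u + c := by omega
        rw [e, hc.periodic]
        exact hchord.symm
      · exact ⟨u, s, hchord, hs2, hsc, h⟩
    rcases Nat.lt_or_ge d s with hds | hds
    · -- two reflections
      set y0 := l - (c - s) with hy0
      have hA : ∀ t, P (f t) ↔ P (f (2 * u + s - l + 1 - t)) := by
        intro t
        obtain ⟨e, he, q, hq⟩ := exists_congr_Ico hd0 t (u - l + 1 + y0)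
        have := CA u s (l - 1 - (y0 + e)) (y0 + e) hchord (by omega) (by omega) (by omega)
        have e1 : u - ((l - 1 - (y0 + e) : ℕ) : ℤ) = u - l + 1 + y0 + e := by omega
        rw [e1] at this
        rw [← key (u - l + 1 + y0 + e) t q hq, this]
        exact key _ _ (-q) (by rw [hq]; push_cast; ring)
      have hB : ∀ t, P (f t) ↔ P (f (2 * u + s + l - 1 - t)) := by
        intro t
        obtain ⟨e, he, q, hq⟩ := exists_congr_Ico hd0 t (u + y0)
        have := CB u s (y0 + e) (l - 1 - (y0 + e)) hchord (by omega) (by omega) (by omega)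
        have e1 : u + ((y0 + e : ℕ) : ℤ) = u + y0 + e := by omega
        rw [e1] at this
        rw [← key (u + y0 + e) t q hq, this]
        have e2 : ((l - 1 - (y0 + e) : ℕ) : ℤ) = l - 1 - (y0 + e) := by omega
        exact key _ _ (-q) (by rw [hq, e2]; ring)
      refine hdmin 2 (by omega) ⟨by norm_num, fun t => ?_⟩
      rw [hA (t + ((2 : ℕ) : ℤ)), hB (2 * u + s - l + 1 - (t + ((2 : ℕ) : ℤ)))]
      have hl' : (l : ℤ) = d * kl := by exact_mod_cast hkl
      exact key _ _ (2 * kl) (by rw [hl']; push_cast; ring)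
    · -- one translation by `s - 1`
      have hper : ∀ t, P (f t) ↔ P (f (t + ((s - 1 : ℕ) : ℤ))) := by
        intro t
        obtain ⟨e, he, q, hq⟩ := exists_congr_Ico hd0 t (u - l + 1)
        have := CC u s (l - 1 - e) e hchord (by omega) (by omega) (by omega)
        have e1 : u - ((l - 1 - e : ℕ) : ℤ) = u - l + 1 + e := by omega
        rw [e1] at this
        rw [← key (u - l + 1 + e) t q hq, this]
        have hl' : (l : ℤ) = d * kl := by exact_mod_cast hkl
        have e2 : ((s - 1 : ℕ) : ℤ) = (s:ℤ) - 1 := by omega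
        exact key _ _ (q - kl) (by rw [hq, e2, hl']; ring)
      exact hdmin (s - 1) (by omega) ⟨by omega, hper⟩

end Vale.Agent.P048
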