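import Vale.Agent.P048.Expand
import Vale.Agent.P048.Layers
import Vale.Agent.P048.Full.ChordAny

/-!
Module interfaces for `R(C_m, K_n) = (m - 1)(n - 1) + 1` in the whole range `n ≤ m`.

Each `...Spec` is proved in its own module; the assembly applies them.
-/

namespace Vale.Agent.P048.Full

open Finset

variable {V : Type*} (G : SimpleGraph V)

/-- Every clique inside `H` has fewer than `m / 2` vertices. -/
def NoBigClique (m : ℕ) (H : Finset V) : Prop :=
  ∀ K : Finset V, K ⊆ H → G.IsClique (K : Set V) → K.card < m / 2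

open scoped Classical in
/-- The vertices of `S` outside `K` with a neighbour in `R`. -/
noncomputable def nbrOut (S K R : Finset V) : Finset V :=
  (S \ K).filter (fun v => ∃ w ∈ R, G.Adj w v)

/-- A dense connected set with a long cycle having a chord. -/
structure Core (m : ℕ) (T : Finset V) (c : ℕ) (f : ℤ → V) : Prop where
  conn : Conn G (T : Set V)
  card : m ≤ T.card + 1
  dense : (m - 2) * aNum G T < 2 * T.card
  deg : MinDeg G T ((m - 2) / 2)
  cyc : ZCyc G c f
  mem : ∀ i, f i ∈ T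
  chord : ∃ (u : ℤ) (s : ℕ), 2 ≤ s ∧ s + 2 ≤ c ∧ G.Adj (f u) (f (u + s))
  long : 2 * ((m - 2) / 2) ≤ c

/-- Dense sets without a dense clique contain a core. -/
def CoreSpec (m : ℕ) : Prop :=
  ∀ (D : ℕ) (Z : Finset V), m - 2 ≤ D → D * aNum G Z < 2 * Z.card →
    (∀ K : Finset V, K ⊆ Z → G.IsClique (K : Set V) → 2 * K.card ≤ D) →
    ∃ T : Finset V, T ⊆ Z ∧ ∃ c f, Core G m T c f

/-- In a core every nonconstant labelling has cross paths of every length below the cycle
length (no parity exception). -/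
def CrossSpec (m : ℕ) : Prop :=
  ∀ (T : Finset V) (c : ℕ) (f : ℤ → V), Core G m T c f →
    ∀ P : V → Prop, (∃ x ∈ T, P x) → (∃ x ∈ T, ¬ P x) → ∀ l : ℕ, 1 ≤ l → l < c →
      ∃ x y, P x ∧ ¬ P y ∧ PathLen G (T : Set V) x y l

/-- A core carries a path on `m - 1` vertices. -/
def LongPathSpec (m : ℕ) : Prop :=
  ∀ (T : Finset V) (c : ℕ) (f : ℤ → V), Core G m T c f →
    ∃ x y, PathLen G (T : Set V) x y (m - 2)

/-- Breadth-first layers are sparse. -/
def LayerSpec (m : ℕ) : Prop :=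
  ¬ HasCyc G m →
  ∀ (H : Finset V) (r : V) (d : V → ℕ) (par : V → V), BFS G H r d par →
    NoBigClique G m H → ∀ h : ℕ, 1 ≤ h → 2 * h + 1 ≤ m →
    ∀ Z : Finset V, Z ⊆ H → (∀ v ∈ Z, d v = h) → 2 * Z.card ≤ (m - 2) * aNum G Z

variable [DecidableEq V]

/-- A critical set without big cliques is impossible. -/
def GrowthSpec (m : ℕ) : Prop :=
  ¬ HasCyc G m →
  ∀ S : Finset V, Crit G S (m - 1) → S.Nonempty → aNum G S + 1 ≤ m →
    NoBigClique G m S → False

/-- A big clique has as many independent exits as it has vertices. -/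
def ExitSpec (m : ℕ) : Prop :=
  ¬ HasCyc G m →
  ∀ S K : Finset V, MinDeg G S (m - 1) → K ⊆ S → G.IsClique (K : Set V) → m / 2 ≤ K.card →
    K.card ≤ aNum G (nbrOut G S K K)

/-- Avoiding one given vertex costs at most one exit. -/
def AvoidSpec (m : ℕ) : Prop :=
  ¬ HasCyc G m →
  ∀ S K : Finset V, MinDeg G S (m - 1) → K ⊆ S → G.IsClique (K : Set V) → m / 2 ≤ K.card →
    ∀ u ∈ K, K.card ≤ aNum G (nbrOut G S K (K.erase u)) + 1

/-- Tails from a set `T` to the clique `K`: every vertex of `T` sees `J` or the single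
vertex of `W`; members of `J` see `K`, the member of `W` is two steps from `J`. -/
structure Tails (S K J W T : Finset V) : Prop where
  subK : K ⊆ S
  subJ : J ⊆ S
  subW : W ⊆ S
  subT : T ⊆ S
  clique : G.IsClique (K : Set V)
  disjKJ : Disjoint K J
  disjT : Disjoint T (K ∪ J ∪ W)
  root : ∀ j ∈ J, ∃ u ∈ K, G.Adj u j
  single : W.card ≤ 1
  far : ∀ w ∈ W, w ∉ K ∪ J ∧ (∀ u ∈ K, ¬ G.Adj u w) ∧
    ∃ y₀ j₀, j₀ ∈ J ∧ y₀ ∈ S ∧ y₀ ∉ K ∪ J ∪ W ∪ T ∧ G.Adj j₀ y₀ ∧ G.Adj y₀ w
  cover : ∀ y ∈ T, (∃ j ∈ J, G.Adj j y) ∨ ∃ w ∈ W, G.Adj w y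

/-- A core with tails to a clique gives a cycle of length `m`. -/
def FlexSpec (m : ℕ) : Prop :=
  ¬ HasCyc G m →
  ∀ (S K J W T : Finset V) (c : ℕ) (f : ℤ → V), Tails G S K J W T → m / 2 ≤ K.card →
    Core G m T c f → False

/-- A maximum clique has no second maximum clique with tails to it. -/
def TwinSpec (m : ℕ) : Prop :=
  ¬ HasCyc G m →
  ∀ (S K J W T : Finset V), Crit G S (m - 1) → aNum G S + 1 ≤ m → Tails G S K J W T →
    m / 2 ≤ K.card → (∀ L : Finset V, L ⊆ S → G.IsClique (L : Set V) → L.card ≤ K.card) →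
    G.IsClique (T : Set V) → K.card ≤ T.card → False

/-- Critical sets contain no big clique. -/
def CliqueSpec (m : ℕ) : Prop :=
  ¬ HasCyc G m →
  ∀ S : Finset V, Crit G S (m - 1) → aNum G S + 1 ≤ m → NoBigClique G m S

end Vale.Agent.P048.Full
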