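import Vale.Agent.P048.Full.GrowthStep
import Vale.Agent.P048.Full.Spec

/-!
The six-cycle: a critical set with independence number at most five does not exist.
-/

namespace Vale.Agent.P048

open Finset

variable {V : Type*} [DecidableEq V] {G : SimpleGraph V} {S : Finset V}

/-- Standing hypotheses for the six-cycle. -/
structure Six (G : SimpleGraph V) (S : Finset V) : Prop where
  crit : Crit G S 5
  small : aNum G S ≤ 5
  free : ¬ HasCyc G 6

omit [DecidableEq V] in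
lemma hasCyc_six {a b c d e f : V} (h1 : G.Adj a b) (h2 : G.Adj b c) (h3 : G.Adj c d)
    (h4 : G.Adj d e) (h5 : G.Adj e f) (h6 : G.Adj f a) (hac : a ≠ c) (had : a ≠ d) (hae : a ≠ e)
    (hbd : b ≠ d) (hbe : b ≠ e) (hbf : b ≠ f) (hce : c ≠ e) (hcf : c ≠ f) (hdf : d ≠ f) :
    HasCyc G 6 := by
  refine ⟨by norm_num, fun i => [a, b, c, d, e, f].getD i a, ?_, ?_, by simpa using h6⟩
  · have := h1.ne; have := h2.ne; have := h3.ne; have := h4.ne; have := h5.ne; have := h6.ne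
    intro i hi j hj hij
    interval_cases i <;> interval_cases j <;> simp_all
  · intro i hi
    have hi' : i < 5 := by omega
    interval_cases i <;> simpa

omit [DecidableEq V] in
lemma hasCyc_six_list {a b c d e f : V} (h1 : G.Adj a b) (h2 : G.Adj b c) (h3 : G.Adj c d)
    (h4 : G.Adj d e) (h5 : G.Adj e f) (h6 : G.Adj f a) (h : [a, b, c, d, e, f].Nodup) :
    HasCyc G 6 := by
  simp at h
  obtain ⟨⟨-, n1, n2, n3, -⟩, ⟨-, n4, n5, n6⟩, ⟨-, n7, n8⟩, ⟨-, n9⟩, -⟩ := h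
  exact hasCyc_six h1 h2 h3 h4 h5 h6 n1 n2 n3 n4 n5 n6 n7 n8 n9

lemma Six.indep (h : Six G S) {L : List V} (hS : ∀ x ∈ L, x ∈ S)
    (hL : L.Pairwise (fun x y => x ≠ y ∧ ¬ G.Adj x y)) (h6 : L.length = 6) : False := by
  have hnd : L.Nodup := hL.imp fun hh => hh.1
  have := card_le_aNum (G := G) (S := S) (I := L.toFinset)
    (fun x hx => hS x (List.mem_toFinset.1 hx)) (by
      intro x hx y hy hne
      simp at hx hy
      have : Std.Symm (fun x y : V => ¬ G.Adj x y) := ⟨fun _ _ h' h'' => h' h''.symm⟩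
      exact (hL.imp (S := fun x y => ¬ G.Adj x y) fun hh => hh.2).forall hx hy hne)
  rw [List.toFinset_card_of_nodup hnd, h6] at this
  have := h.small
  omega

lemma Six.nbr (h : Six G S) {v : V} (hv : v ∈ S) (F : Finset V) (hF : F.card < 5) :
    ∃ w ∈ S, G.Adj v w ∧ w ∉ F := by
  obtain ⟨N, hNS, hNc, hN⟩ := h.crit.minDeg v hv
  obtain ⟨w, hw, hwF⟩ := Finset.exists_mem_notMem_of_card_lt_card (lt_of_lt_of_le hF hNc)
  exact ⟨w, hNS hw, hN w hw, hwF⟩

omit [DecidableEq V] in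
/-- Attachments to two vertices `u, v` of a `K₄` on `u v p q` are far apart. -/
lemma Six.cross (h : Six G S) {u v p q a b : V} (huv : G.Adj u v) (hup : G.Adj u p)
    (huq : G.Adj u q) (hvp : G.Adj v p) (hpq : G.Adj p q) (hua : G.Adj u a) (hvb : G.Adj v b)
    (hav : a ≠ v) (hap : a ≠ p) (haq : a ≠ q) (hbu : b ≠ u) (hbp : b ≠ p) (hbq : b ≠ q)
    (hvq : v ≠ q) (hab : a ≠ b) :
    ¬ G.Adj a b ∧
    (∀ w, G.Adj a w → w ≠ u → w ≠ v → w ≠ p → w ≠ b ∧ ¬ G.Adj w b) ∧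
    (∀ w w', G.Adj a w → w ≠ u → w ≠ v → w ≠ p → G.Adj b w' → w' ≠ u → w' ≠ v →
      w ≠ w' ∧ ¬ G.Adj w w') := by
  have h1 : ¬ G.Adj a b := fun e => h.free (hasCyc_six e hvb.symm hvp hpq huq.symm hua hav hap haq
    hbp hbq hbu hvq huv.ne.symm hup.ne.symm)
  have h2 : ∀ w, G.Adj a w → w ≠ u → w ≠ v → w ≠ p → w ≠ b ∧ ¬ G.Adj w b := by
    intro w haw hwu hwv hwp
    have hwb : w ≠ b := fun e => h1 (e ▸ haw)
    exact ⟨hwb, fun e => h.free (hasCyc_six haw e hvb.symm hvp hup.symm hua hab hav hap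
      hwv hwp hwu hbp hbu huv.ne.symm)⟩
  refine ⟨h1, h2, fun w w' haw hwu hwv hwp hbw hwu' hwv' => ?_⟩
  obtain ⟨hwb, nwb⟩ := h2 w haw hwu hwv hwp
  refine ⟨fun e => nwb (e ▸ hbw.symm), fun e => ?_⟩
  have hwa' : w' ≠ a := fun e' => h1 (e' ▸ hbw).symm
  exact h.free (hasCyc_six haw e hbw.symm hvb.symm huv.symm hua hwa'.symm hab hav hwb hwv hwu
    hwv' hwu' hbu)

lemma Six.exit5 (h : Six G S) {u p q r o : V} (hu : u ∈ S) (hup : G.Adj u p) (huq : G.Adj u q)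
    (hur : G.Adj u r) (huo : G.Adj u o) (hpq : G.Adj p q) (hpr : G.Adj p r) (hpo : G.Adj p o)
    (hqr : G.Adj q r) (hqo : G.Adj q o) (hro : G.Adj r o) :
    ∃ a ∈ S, G.Adj u a ∧ a ≠ p ∧ a ≠ q ∧ a ≠ r ∧ a ≠ o ∧
      ¬ G.Adj a p ∧ ¬ G.Adj a q ∧ ¬ G.Adj a r ∧ ¬ G.Adj a o := by
  obtain ⟨a, ha, hua, hF⟩ :=
    h.nbr hu {p, q, r, o} (lt_of_le_of_lt Finset.card_le_four (by norm_num))
  simp at hF
  obtain ⟨hap, haq, har, hao⟩ := hF
  refine ⟨a, ha, hua, hap, haq, har, hao, fun e => ?_, fun e => ?_, fun e => ?_, fun e => ?_⟩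
  · exact h.free (hasCyc_six hua e hpq hqr hro huo.symm hup.ne huq.ne hur.ne haq har hao
      hpr.ne hpo.ne hqo.ne)
  · exact h.free (hasCyc_six hua e hqr hro hpo.symm hup.symm huq.ne hur.ne huo.ne har hao hap
      hqo.ne hpq.ne.symm hpr.ne.symm)
  · exact h.free (hasCyc_six hua e hro hpo.symm hpq huq.symm hur.ne huo.ne hup.ne hao hap haq
      hpr.ne.symm hqr.ne.symm hqo.ne.symm)
  · exact h.free (hasCyc_six hua e hpo.symm hpq hqr hur.symm huo.ne hup.ne huq.ne hap haq har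
      hqo.ne.symm hro.ne.symm hpr.ne)

lemma Six.k5 (h : Six G S) {x y z t s : V} (hx : x ∈ S) (hy : y ∈ S) (hz : z ∈ S) (ht : t ∈ S)
    (hs : s ∈ S) (hxy : G.Adj x y) (hxz : G.Adj x z) (hxt : G.Adj x t) (hxs : G.Adj x s)
    (hyz : G.Adj y z) (hyt : G.Adj y t) (hys : G.Adj y s) (hzt : G.Adj z t) (hzs : G.Adj z s)
    (hts : G.Adj t s) : False := by
  obtain ⟨a, ha, xa, ay, az, at', as, nay, naz, nat, nas⟩ :=
    h.exit5 hx hxy hxz hxt hxs hyz hyt hys hzt hzs hts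
  obtain ⟨b, hb, yb, bx, bz, bt, bs, nbx, nbz, nbt, nbs⟩ :=
    h.exit5 hy hxy.symm hyz hyt hys hxz hxt hxs hzt hzs hts
  obtain ⟨c, hc, zc, cx, cy, ct, cs, ncx, ncy, nct, ncs⟩ :=
    h.exit5 hz hxz.symm hyz.symm hzt hzs hxy hxt hxs hyt hys hts
  obtain ⟨d, hd, td, dx, dy, dz, ds, ndx, ndy, ndz, nds⟩ :=
    h.exit5 ht hxt.symm hyt.symm hzt.symm hts hxy hxz hxs hyz hys hzs
  obtain ⟨o, ho, so, ox, oy, oz, ot, nox, noy, noz, not'⟩ :=
    h.exit5 hs hxs.symm hys.symm hzs.symm hts.symm hxy hxz hxt hyz hyt hzt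
  have eab : a ≠ b := fun e => nay (e ▸ yb.symm)
  have eac : a ≠ c := fun e => naz (e ▸ zc.symm)
  have ead : a ≠ d := fun e => nat (e ▸ td.symm)
  have eao : a ≠ o := fun e => nas (e ▸ so.symm)
  have ebc : b ≠ c := fun e => nbz (e ▸ zc.symm)
  have ebd : b ≠ d := fun e => nbt (e ▸ td.symm)
  have ebo : b ≠ o := fun e => nbs (e ▸ so.symm)
  have ecd : c ≠ d := fun e => nct (e ▸ td.symm)
  have eco : c ≠ o := fun e => ncs (e ▸ so.symm)
  have edo : d ≠ o := fun e => nds (e ▸ so.symm)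
  have fb := h.cross hxy hxz hxt hyz hzt xa yb ay az at' bx bz bt hyt.ne eab
  have fc := h.cross hxz hxy hxt hyz.symm hyt xa zc az ay at' cx cy ct hzt.ne eac
  have fd := h.cross hxt hxy hxz hyt.symm hyz xa td at' ay az dx dy dz hzt.ne.symm ead
  have fo := h.cross hxs hxy hxz hys.symm hyz xa so as ay az ox oy oz hzs.ne.symm eao
  have nbc := (h.cross hyz hxy.symm hyt hxz.symm hxt yb zc bz bx bt cy cx ct hzt.ne ebc).1
  have nbd := (h.cross hyt hxy.symm hyz hxt.symm hxz yb td bt bx bz dy dx dz hzt.ne.symm ebd).1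
  have nbo := (h.cross hys hxy.symm hyz hxs.symm hxz yb so bs bx bz oy ox oz hzs.ne.symm ebo).1
  have ncd := (h.cross hzt hxz.symm hyz.symm hxt.symm hxy zc td ct cx cy dz dx dy hyt.ne.symm ecd).1
  have nco := (h.cross hzs hxz.symm hyz.symm hxs.symm hxy zc so cs cx cy oz ox oy hys.ne.symm eco).1
  have ndo := (h.cross hts hxt.symm hyt.symm hxs.symm hxy td so ds dx dy ot ox oy hys.ne.symm edo).1
  have key : ∀ w ∈ S, G.Adj a w → w ≠ x → G.Adj x w ∧ w ≠ b ∧ w ≠ c ∧ w ≠ d ∧ w ≠ o ∧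
      ¬ G.Adj w b ∧ ¬ G.Adj w c ∧ ¬ G.Adj w d ∧ ¬ G.Adj w o := by
    intro w hw haw hwx
    have wy : w ≠ y := fun e => nay (e ▸ haw)
    have wz : w ≠ z := fun e => naz (e ▸ haw)
    have wt : w ≠ t := fun e => nat (e ▸ haw)
    have ws : w ≠ s := fun e => nas (e ▸ haw)
    obtain ⟨e1, g1⟩ := fb.2.1 w haw hwx wy wz
    obtain ⟨e2, g2⟩ := fc.2.1 w haw hwx wz wy
    obtain ⟨e3, g3⟩ := fd.2.1 w haw hwx wt wy
    obtain ⟨e4, g4⟩ := fo.2.1 w haw hwx ws wy
    refine ⟨?_, e1, e2, e3, e4, g1, g2, g3, g4⟩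
    by_contra hxw
    exact h.indep (L := [x, w, b, c, d, o]) (by simp [hx, hw, hb, hc, hd, ho])
      (by simp [hwx.symm, bx.symm, cx.symm, dx.symm, ox.symm, e1, e2, e3, e4, g1, g2, g3, g4,
        ebc, ebd, ebo, ecd, eco, edo, nbc, nbd, nbo, ncd, nco, ndo, G.adj_comm x, nbx, ncx, ndx,
        nox, mt G.adj_symm hxw]) rfl
  obtain ⟨w1, hw1, A1, F1⟩ := h.nbr ha {x} (by simp)
  simp at F1
  obtain ⟨w2, hw2, A2, F2⟩ := h.nbr ha {x, w1} (lt_of_le_of_lt Finset.card_le_two (by norm_num))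
  simp at F2
  obtain ⟨w3, hw3, A3, F3⟩ :=
    h.nbr ha {x, w1, w2} (lt_of_le_of_lt Finset.card_le_three (by norm_num))
  simp at F3
  obtain ⟨w4, hw4, A4, F4⟩ :=
    h.nbr ha {x, w1, w2, w3} (lt_of_le_of_lt Finset.card_le_four (by norm_num))
  simp at F4
  obtain ⟨k1, k1'⟩ := key w1 hw1 A1 F1
  obtain ⟨k2, k2'⟩ := key w2 hw2 A2 F2.1
  obtain ⟨k3, k3'⟩ := key w3 hw3 A3 F3.1
  obtain ⟨k4, k4'⟩ := key w4 hw4 A4 F4.1
  by_cases h12 : G.Adj w1 w2
  · by_cases h23 : G.Adj w2 w3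
    · by_cases h34 : G.Adj w3 w4
      · exact h.free (hasCyc_six xa A1 h12 h23 h34 k4.symm k1.ne k2.ne k3.ne A2.ne A3.ne A4.ne
          (Ne.symm F3.2.1) (Ne.symm F4.2.1) (Ne.symm F4.2.2.1))
      · exact h.indep (L := [w3, w4, b, c, d, o]) (by simp [hw3, hw4, hb, hc, hd, ho])
          (by simp [Ne.symm F4.2.2.2, h34, k3', k4', ebc, ebd, ebo, ecd, eco, edo,
            nbc, nbd, nbo, ncd, nco, ndo]) rfl
    · exact h.indep (L := [w2, w3, b, c, d, o]) (by simp [hw2, hw3, hb, hc, hd, ho])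
        (by simp [Ne.symm F3.2.2, h23, k2', k3', ebc, ebd, ebo, ecd, eco, edo,
          nbc, nbd, nbo, ncd, nco, ndo]) rfl
  · exact h.indep (L := [w1, w2, b, c, d, o]) (by simp [hw1, hw2, hb, hc, hd, ho])
      (by simp [Ne.symm F2.2, h12, k1', k2', ebc, ebd, ebo, ecd, eco, edo,
        nbc, nbd, nbo, ncd, nco, ndo]) rfl

/-- An exit of a `K₄` vertex has two independent further neighbours. -/
lemma Six.pair (h : Six G S) {u a : V} (ha : a ∈ S) :
    ∃ p ∈ S, ∃ q ∈ S, G.Adj a p ∧ G.Adj a q ∧ p ≠ u ∧ q ≠ u ∧ p ≠ q ∧ ¬ G.Adj p q := by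
  obtain ⟨w1, hw1, A1, F1⟩ := h.nbr ha {u} (by simp)
  simp at F1
  obtain ⟨w2, hw2, A2, F2⟩ := h.nbr ha {u, w1} (lt_of_le_of_lt Finset.card_le_two (by norm_num))
  simp at F2
  obtain ⟨w3, hw3, A3, F3⟩ :=
    h.nbr ha {u, w1, w2} (lt_of_le_of_lt Finset.card_le_three (by norm_num))
  simp at F3
  obtain ⟨w4, hw4, A4, F4⟩ :=
    h.nbr ha {u, w1, w2, w3} (lt_of_le_of_lt Finset.card_le_four (by norm_num))
  simp at F4
  by_contra hno
  push Not at hno
  exact h.k5 ha hw1 hw2 hw3 hw4 A1 A2 A3 A4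
    (hno w1 hw1 w2 hw2 A1 A2 F1 F2.1 (Ne.symm F2.2))
    (hno w1 hw1 w3 hw3 A1 A3 F1 F3.1 (Ne.symm F3.2.1))
    (hno w1 hw1 w4 hw4 A1 A4 F1 F4.1 (Ne.symm F4.2.1))
    (hno w2 hw2 w3 hw3 A2 A3 F2.1 F3.1 (Ne.symm F3.2.2))
    (hno w2 hw2 w4 hw4 A2 A4 F2.1 F4.1 (Ne.symm F4.2.2.1))
    (hno w3 hw3 w4 hw4 A3 A4 F3.1 F4.1 (Ne.symm F4.2.2.2))

lemma Six.k4_common (h : Six G S) {x y z t e : V} (hx : x ∈ S) (hz : z ∈ S) (ht : t ∈ S)
    (he : e ∈ S) (hxy : G.Adj x y) (hxz : G.Adj x z) (hxt : G.Adj x t) (hyz : G.Adj y z)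
    (hyt : G.Adj y t) (hzt : G.Adj z t) (hxe : G.Adj x e) (hye : G.Adj y e) (hez : e ≠ z)
    (het : e ≠ t) : False := by
  obtain ⟨c, hc, zc, hF⟩ :=
    h.nbr hz {x, y, t, e} (lt_of_le_of_lt Finset.card_le_four (by norm_num))
  obtain ⟨d, hd, td, hF'⟩ :=
    h.nbr ht {x, y, z, e} (lt_of_le_of_lt Finset.card_le_four (by norm_num))
  obtain ⟨w, hw, ew, hF''⟩ :=
    h.nbr he {x, y, z, t} (lt_of_le_of_lt Finset.card_le_four (by norm_num))
  simp at hF hF' hF''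
  obtain ⟨cx, cy, ct, ce⟩ := hF
  obtain ⟨dx, dy, dz, de⟩ := hF'
  obtain ⟨wx, wy, wz, wt⟩ := hF''
  have ncx : ¬ G.Adj c x := fun k => h.free (hasCyc_six zc.symm hzt hyt.symm hye hxe.symm k.symm
    ct cy ce hyz.ne.symm hez.symm hxz.ne.symm het.symm hxt.ne.symm hxy.ne.symm)
  have ncy : ¬ G.Adj c y := fun k => h.free (hasCyc_six zc.symm hzt hxt.symm hxe hye.symm k.symm
    ct cx ce hxz.ne.symm hez.symm hyz.ne.symm het.symm hyt.ne.symm hxy.ne)
  have nct : ¬ G.Adj c t := fun k => h.free (hasCyc_six zc.symm hxz.symm hxe hye.symm hyt k.symm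
    cx ce cy hez.symm hyz.ne.symm hzt.ne hxy.ne hxt.ne het)
  have ndx : ¬ G.Adj d x := fun k => h.free (hasCyc_six td.symm hzt.symm hyz.symm hye hxe.symm
    k.symm dz dy de hyt.ne.symm het.symm hxt.ne.symm hez.symm hxz.ne.symm hxy.ne.symm)
  have ndy : ¬ G.Adj d y := fun k => h.free (hasCyc_six td.symm hzt.symm hxz.symm hxe hye.symm
    k.symm dz dx de hxt.ne.symm het.symm hyt.ne.symm hez.symm hyz.ne.symm hxy.ne)
  have ndz : ¬ G.Adj d z := fun k => h.free (hasCyc_six td.symm hxt.symm hxe hye.symm hyz k.symm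
    dx de dy het.symm hyt.ne.symm hzt.ne.symm hxy.ne hxz.ne hez)
  have ecd : c ≠ d := fun k => nct (k ▸ td.symm)
  have fcd := h.cross hzt hxz.symm hyz.symm hxt.symm hxy zc td ct cx cy dz dx dy hyt.ne.symm ecd
  have fec := h.cross hxz hxy hxt hyz.symm hyt hxe zc hez hye.ne.symm het cx cy ct hzt.ne
    (Ne.symm ce)
  have fed := h.cross hxt hxy hxz hyt.symm hyz hxe td het hye.ne.symm hez dx dy dz hzt.ne.symm
    (Ne.symm de)
  obtain ⟨p, hp, q, hq, cp, cq, pz, qz, epq, npq⟩ := h.pair (u := z) hc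
  obtain ⟨p', hp', q', hq', dp, dq, pt, qt, epq', npq'⟩ := h.pair (u := t) hd
  have cnbr : ∀ r, G.Adj c r → r ≠ x ∧ r ≠ y ∧ r ≠ t := fun r k =>
    ⟨fun e' => ncx (e' ▸ k), fun e' => ncy (e' ▸ k), fun e' => nct (e' ▸ k)⟩
  have dnbr : ∀ r, G.Adj d r → r ≠ x ∧ r ≠ y ∧ r ≠ z := fun r k =>
    ⟨fun e' => ndx (e' ▸ k), fun e' => ndy (e' ▸ k), fun e' => ndz (e' ▸ k)⟩
  have nxw : ¬ G.Adj x w := fun k => h.free (hasCyc_six k ew.symm hye.symm hyz hzt hxt.symm
    hxe.ne hxy.ne hxz.ne wy wz wt hez het hyt.ne)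
  have nxc : ∀ r, G.Adj c r → r ≠ z → ¬ G.Adj x r := fun r k rz k' =>
    h.free (hasCyc_six k' k.symm zc.symm hzt hyt.symm hxy.symm (Ne.symm cx) hxz.ne hxt.ne rz
      (cnbr r k).2.2 (cnbr r k).2.1 ct cy hyz.ne.symm)
  have nxd : ∀ r, G.Adj d r → r ≠ t → ¬ G.Adj x r := fun r k rt k' =>
    h.free (hasCyc_six k' k.symm td.symm hzt.symm hyz.symm hxy.symm (Ne.symm dx) hxt.ne hxz.ne rt
      (dnbr r k).2.2 (dnbr r k).2.1 dz dy hyt.ne.symm)
  have wc : ∀ r, G.Adj c r → r ≠ z → w ≠ r ∧ ¬ G.Adj w r := fun r k rz =>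
    fec.2.2 w r ew wx wz wy k (cnbr r k).1 rz
  have wd : ∀ r, G.Adj d r → r ≠ t → w ≠ r ∧ ¬ G.Adj w r := fun r k rt =>
    fed.2.2 w r ew wx wt wy k (dnbr r k).1 rt
  have cd : ∀ r r', G.Adj c r → r ≠ z → G.Adj d r' → r' ≠ t → r ≠ r' ∧ ¬ G.Adj r r' :=
    fun r r' k rz k' rt =>
      fcd.2.2 r r' k rz (cnbr r k).2.2 (cnbr r k).1 k' (dnbr r' k').2.2 rt
  exact h.indep (L := [x, w, p, q, p', q']) (by simp [hx, hw, hp, hq, hp', hq'])
    (by simp [Ne.symm wx, nxw, (cnbr p cp).1.symm, (cnbr q cq).1.symm, (dnbr p' dp).1.symm,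
      (dnbr q' dq).1.symm, nxc p cp pz, nxc q cq qz, nxd p' dp pt, nxd q' dq qt, wc p cp pz,
      wc q cq qz, wd p' dp pt, wd q' dq qt, epq, npq, epq', npq', cd p p' cp pz dp pt,
      cd p q' cp pz dq qt, cd q p' cq qz dp pt, cd q q' cq qz dq qt]) rfl

lemma Six.k4 (h : Six G S) {x y z t : V} (hx : x ∈ S) (hy : y ∈ S) (hz : z ∈ S) (ht : t ∈ S)
    (hxy : G.Adj x y) (hxz : G.Adj x z) (hxt : G.Adj x t) (hyz : G.Adj y z) (hyt : G.Adj y t)
    (hzt : G.Adj z t) : False := by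
  obtain ⟨a, ha, xa, hF⟩ :=
    h.nbr hx {y, z, t} (lt_of_le_of_lt Finset.card_le_three (by norm_num))
  obtain ⟨b, hb, yb, hFb⟩ :=
    h.nbr hy {x, z, t} (lt_of_le_of_lt Finset.card_le_three (by norm_num))
  obtain ⟨c, hc, zc, hFc⟩ :=
    h.nbr hz {x, y, t} (lt_of_le_of_lt Finset.card_le_three (by norm_num))
  obtain ⟨d, hd, td, hFd⟩ :=
    h.nbr ht {x, y, z} (lt_of_le_of_lt Finset.card_le_three (by norm_num))
  simp at hF hFb hFc hFd
  obtain ⟨ay, az, at'⟩ := hF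
  obtain ⟨bx, bz, bt⟩ := hFb
  obtain ⟨cx, cy, ct⟩ := hFc
  obtain ⟨dx, dy, dz⟩ := hFd
  -- no vertex outside sees two vertices of the clique
  have nay : ¬ G.Adj y a := fun k => h.k4_common hx hz ht ha hxy hxz hxt hyz hyt hzt xa k az at'
  have naz : ¬ G.Adj z a := fun k =>
    h.k4_common hx hy ht ha hxz hxy hxt hyz.symm hzt hyt xa k ay at'
  have nat : ¬ G.Adj t a := fun k =>
    h.k4_common hx hy hz ha hxt hxy hxz hyt.symm hzt.symm hyz xa k ay az
  have nbx : ¬ G.Adj x b := fun k =>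
    h.k4_common hy hz ht hb hxy.symm hyz hyt hxz hxt hzt yb k bz bt
  have nbz : ¬ G.Adj z b := fun k =>
    h.k4_common hy hx ht hb hyz hxy.symm hyt hxz.symm hzt hxt yb k bx bt
  have nbt : ¬ G.Adj t b := fun k =>
    h.k4_common hy hx hz hb hyt hxy.symm hyz hxt.symm hzt.symm hxz yb k bx bz
  have ncx : ¬ G.Adj x c := fun k =>
    h.k4_common hz hy ht hc hxz.symm hyz.symm hzt hxy hxt hyt zc k cy ct
  have ncy : ¬ G.Adj y c := fun k =>
    h.k4_common hz hx ht hc hyz.symm hxz.symm hzt hxy.symm hyt hxt zc k cx ct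
  have nct : ¬ G.Adj t c := fun k =>
    h.k4_common hz hx hy hc hzt hxz.symm hyz.symm hxt.symm hyt.symm hxy zc k cx cy
  have eab : a ≠ b := fun e => nay (e ▸ yb)
  have eac : a ≠ c := fun e => naz (e ▸ zc)
  have ead : a ≠ d := fun e => nat (e ▸ td)
  have ebc : b ≠ c := fun e => nbz (e ▸ zc)
  have ebd : b ≠ d := fun e => nbt (e ▸ td)
  have ecd : c ≠ d := fun e => nct (e ▸ td)
  obtain ⟨p, hp, q, hq, ap, aq, px, qx, epq, npq⟩ := h.pair (u := x) ha
  obtain ⟨p', hp', q', hq', bp, bq, py, qy, epq', npq'⟩ := h.pair (u := y) hb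
  have fab := h.cross hxy hxz hxt hyz hzt xa yb ay az at' bx bz bt hyt.ne eab
  have fac := h.cross hxz hxy hxt hyz.symm hyt xa zc az ay at' cx cy ct hzt.ne eac
  have fad := h.cross hxt hxy hxz hyt.symm hyz xa td at' ay az dx dy dz hzt.ne.symm ead
  have fbc := h.cross hyz hxy.symm hyt hxz.symm hxt yb zc bz bx bt cy cx ct hzt.ne ebc
  have fbd := h.cross hyt hxy.symm hyz hxt.symm hxz yb td bt bx bz dy dx dz hzt.ne.symm ebd
  have fcd := h.cross hzt hxz.symm hyz.symm hxt.symm hxy zc td ct cx cy dz dx dy hyt.ne.symm ecd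
  have anbr : ∀ r, G.Adj a r → r ≠ y ∧ r ≠ z ∧ r ≠ t := fun r k =>
    ⟨fun e => nay (e ▸ k).symm, fun e => naz (e ▸ k).symm, fun e => nat (e ▸ k).symm⟩
  have bnbr : ∀ r, G.Adj b r → r ≠ x ∧ r ≠ z ∧ r ≠ t := fun r k =>
    ⟨fun e => nbx (e ▸ k).symm, fun e => nbz (e ▸ k).symm, fun e => nbt (e ▸ k).symm⟩
  have A : ∀ r, G.Adj a r → r ≠ x → (r ≠ c ∧ ¬ G.Adj r c) ∧ (r ≠ d ∧ ¬ G.Adj r d) :=
    fun r k rx => ⟨fac.2.1 r k rx (anbr r k).2.1 (anbr r k).1,
      fad.2.1 r k rx (anbr r k).2.2 (anbr r k).1⟩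
  have B : ∀ r, G.Adj b r → r ≠ y → (r ≠ c ∧ ¬ G.Adj r c) ∧ (r ≠ d ∧ ¬ G.Adj r d) :=
    fun r k ry => ⟨fbc.2.1 r k ry (bnbr r k).2.1 (bnbr r k).1,
      fbd.2.1 r k ry (bnbr r k).2.2 (bnbr r k).1⟩
  have AB : ∀ r r', G.Adj a r → r ≠ x → G.Adj b r' → r' ≠ y → r ≠ r' ∧ ¬ G.Adj r r' :=
    fun r r' k rx k' ry =>
      fab.2.2 r r' k rx (anbr r k).1 (anbr r k).2.1 k' (bnbr r' k').1 ry
  exact h.indep (L := [p, q, p', q', c, d]) (by simp [hp, hq, hp', hq', hc, hd])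
    (by simp [epq, npq, epq', npq', A p ap px, A q aq qx, B p' bp py, B q' bq qy,
      AB p p' ap px bp py, AB p q' ap px bq qy, AB q p' aq qx bp py, AB q q' aq qx bq qy,
      ecd, fcd.1]) rfl

/-- A triangle-free set whose two-step paths join equal labels and which has no five-vertex path
of one label has at most twice as many vertices as its independence number. -/
lemma card_le_two_mul_aNum (π : V → V) : ∀ Z : Finset V,
    (∀ a ∈ Z, ∀ b ∈ Z, ∀ c ∈ Z, G.Adj a b → G.Adj b c → a ≠ c → π a = π c ∧ ¬ G.Adj a c) →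
    (∀ a ∈ Z, ∀ b ∈ Z, ∀ c ∈ Z, ∀ d ∈ Z, ∀ e ∈ Z, G.Adj a b → G.Adj b c → G.Adj c d → G.Adj d e →
      a ≠ c → a ≠ d → a ≠ e → b ≠ d → b ≠ e → c ≠ e → π a = π b → False) →
    Z.card ≤ 2 * aNum G Z := by
  intro Z
  induction Z using Finset.strongInduction with
  | H Z ih =>
    intro hP hF
    classical
    by_cases hne : Z.Nonempty
    swap
    · rw [Finset.not_nonempty_iff_eq_empty.1 hne]; simp
    -- a closed piece with two independent sides can be removed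
    have split : ∀ A B : Finset V, A ⊆ Z → B ⊆ Z → (A ∪ B).Nonempty → Disjoint A B →
        G.IsIndepSet (A : Set V) → G.IsIndepSet (B : Set V) →
        (∀ u ∈ A ∪ B, ∀ w ∈ Z, G.Adj u w → w ∈ A ∪ B) → Z.card ≤ 2 * aNum G Z := by
      intro A B hA hB hne' hd hAi hBi hcl
      have hsub : A ∪ B ⊆ Z := Finset.union_subset hA hB
      have h1 := ih (Z \ (A ∪ B)) (Finset.sdiff_ssubset hsub hne')
        (fun a ha b hb c hc => hP a (Finset.mem_sdiff.1 ha).1 b (Finset.mem_sdiff.1 hb).1 c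
          (Finset.mem_sdiff.1 hc).1)
        (fun a ha b hb c hc d hd e he => hF a (Finset.mem_sdiff.1 ha).1 b (Finset.mem_sdiff.1 hb).1
          c (Finset.mem_sdiff.1 hc).1 d (Finset.mem_sdiff.1 hd).1 e (Finset.mem_sdiff.1 he).1)
      have h2 := aNum_add_le (G := G) (S := Z) (A := A ∪ B) (B := Z \ (A ∪ B)) hsub
        Finset.sdiff_subset Finset.disjoint_sdiff (fun u hu w hw e =>
          (Finset.mem_sdiff.1 hw).2 (hcl u hu w (Finset.mem_sdiff.1 hw).1 e))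
      have h3 := card_le_aNum (G := G) (Finset.subset_union_left (s₂ := B)) hAi
      have h4 := card_le_aNum (G := G) (Finset.subset_union_right (s₁ := A)) hBi
      have h5 := Finset.card_sdiff_add_card_eq_card hsub
      have h6 := Finset.card_union_of_disjoint hd
      omega
    by_cases hlow : ∃ v ∈ Z, (Z.filter (G.Adj v)).card ≤ 1
    · obtain ⟨v, hv, hdeg⟩ := hlow
      set R := Z.filter (fun w => w ≠ v ∧ ¬ G.Adj v w) with hR
      have hsub : R ⊆ Z := Finset.filter_subset _ _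
      have h1 := ih R ⟨hsub, fun hh => by simpa [hR] using hh hv⟩
        (fun a ha b hb c hc => hP a (hsub ha) b (hsub hb) c (hsub hc))
        (fun a ha b hb c hc d hd e he => hF a (hsub ha) b (hsub hb) c (hsub hc) d (hsub hd) e
          (hsub he))
      have h2 := aNum_add_le (G := G) (S := Z) (A := {v}) (B := R) (by simpa using hv) hsub
        (by simp [hR]) (by
          intro a ha b hb
          simp at ha
          subst ha
          simp [hR] at hb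
          exact hb.2.2)
      have h3 := aNum_pos (G := G) (Finset.singleton_nonempty v)
      have hcov : Z ⊆ {v} ∪ Z.filter (G.Adj v) ∪ R := by
        intro w hw
        simp [hR]
        tauto
      have h4 := Finset.card_le_card hcov
      have h5 := Finset.card_union_le ({v} ∪ Z.filter (G.Adj v)) R
      have h6 := Finset.card_union_le {v} (Z.filter (G.Adj v))
      rw [Finset.card_singleton] at h6
      omega
    push Not at hlow
    have two : ∀ v ∈ Z, ∀ w, ∃ u ∈ Z, G.Adj v u ∧ u ≠ w := fun v hv w => by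
      obtain ⟨u, hu, hne⟩ := Finset.exists_mem_ne (hlow v hv) w
      exact ⟨u, (Finset.mem_filter.1 hu).1, (Finset.mem_filter.1 hu).2, hne⟩
    by_cases hx : ∃ v ∈ Z, ∃ a ∈ Z, G.Adj v a ∧ π v ≠ π a
    · obtain ⟨v, hv, a, ha, hva, hne'⟩ := hx
      -- two labels alternate along every edge
      set P := fun p q : V => Z.filter (fun u => π u = p ∧ ∀ w ∈ Z, G.Adj u w → π w = q) with hPd
      have key : ∀ p q u w, u ∈ P p q → w ∈ Z → G.Adj u w → w ∈ P q p := by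
        intro p q u w hu hw huw
        simp [hPd] at hu
        refine Finset.mem_filter.2 ⟨hw, hu.2.2 w hw huw, fun s hs hws => ?_⟩
        by_cases e : s = u
        · rw [e, hu.2.1]
        · rw [(hP s hs w hw u hu.1 hws.symm huw.symm e).1, hu.2.1]
      have indep : ∀ p q, p ≠ q → G.IsIndepSet (P p q : Set V) := by
        intro p q hpq i hi j hj _ hij
        simp [hPd] at hi hj
        exact hpq (hj.2.1.symm.trans (hi.2.2 j hj.1 hij))
      refine split (P (π v) (π a)) (P (π a) (π v)) (Finset.filter_subset _ _)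
        (Finset.filter_subset _ _) ⟨v, Finset.mem_union_left _ ?_⟩ ?_ (indep _ _ hne')
        (indep _ _ (Ne.symm hne')) ?_
      · refine Finset.mem_filter.2 ⟨hv, rfl, fun w hw hvw => ?_⟩
        by_cases e : w = a
        · rw [e]
        · exact (hP w hw v hv a ha hvw.symm hva e).1
      · rw [Finset.disjoint_left]
        intro u hu hu'
        simp [hPd] at hu hu'
        exact hne' (hu.2.1.symm.trans hu'.2.1)
      · intro u hu w hw huw
        rcases Finset.mem_union.1 hu with hu | hu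
        · exact Finset.mem_union_right _ (key _ _ u w hu hw huw)
        · exact Finset.mem_union_left _ (key _ _ u w hu hw huw)
    push Not at hx
    obtain ⟨v, hv⟩ := hne
    set A := Z.filter (G.Adj v) with hA
    set B := Z.filter (fun w => ¬ G.Adj v w ∧ (w = v ∨ ∃ a ∈ A, G.Adj a w)) with hB
    have close : ∀ b ∈ B, ∀ w ∈ Z, G.Adj b w → w ∈ A := by
      intro b hb w hw hbw
      simp [hB, hA] at hb
      obtain ⟨hbZ, nvb, rfl | ⟨a, ⟨ha, hva⟩, hab⟩⟩ := hb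
      · exact Finset.mem_filter.2 ⟨hw, hbw⟩
      by_cases ebv : b = v
      · subst ebv; exact Finset.mem_filter.2 ⟨hw, hbw⟩
      by_contra hwA
      have nvw : ¬ G.Adj v w := fun e => hwA (Finset.mem_filter.2 ⟨hw, e⟩)
      obtain ⟨a', ha', hva', hne'⟩ := two v hv a
      exact hF w hw b hbZ a ha v hv a' ha' hbw.symm hab.symm hva.symm hva'
        (fun e => nvw (e ▸ hva)) (fun e => nvb (e ▸ hbw.symm)) (fun e => nvw (e ▸ hva'))
        ebv (fun e => nvb (e ▸ hva')) hne'.symm (hx b hbZ w hw hbw).symm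
    refine split A B (Finset.filter_subset _ _) (Finset.filter_subset _ _)
      ⟨v, Finset.mem_union_right _ (by simp [hB, hv])⟩ ?_ ?_ ?_ ?_
    · rw [Finset.disjoint_left]
      intro u hu hu'
      simp [hA, hB] at hu hu'
      exact hu'.2.1 hu.2
    · intro i hi j hj hne' hij
      simp [hA] at hi hj
      exact (hP i hi.1 v hv j hj.1 hi.2.symm hj.2 hne').2 hij
    · intro i hi j hj _ hij
      have := close i hi j (Finset.mem_filter.1 hj).1 hij
      simp [hA, hB] at this hj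
      exact hj.2.1 this.2
    · intro u hu w hw huw
      rcases Finset.mem_union.1 hu with hu | hu
      · by_cases e : G.Adj v w
        · exact Finset.mem_union_left _ (Finset.mem_filter.2 ⟨hw, e⟩)
        · exact Finset.mem_union_right _ (Finset.mem_filter.2 ⟨hw, e, Or.inr ⟨u, hu, huw⟩⟩)
      · exact Finset.mem_union_left _ (close u hu w hw huw)

/-- Layers of depth at most two are sparse without `K₄`. -/
lemma Six.layerSpec (h : Six G S) : LayerSpec G S 6 := by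
  classical
  intro r d par hB k hk1 hk2
  have h2k : k = 1 ∨ k = 2 := by omega
  set Z := S.filter (fun v => d v = k) with hZ
  have mem : ∀ v ∈ Z, v ∈ S ∧ d v = k := fun v hv => Finset.mem_filter.1 hv
  have st : ∀ v ∈ Z, par v ∈ S ∧ d (par v) + 1 = k ∧ G.Adj v (par v) := fun v hv => by
    obtain ⟨h1, h2, h3⟩ := hB.step v (mem v hv).1 (by rw [(mem v hv).2]; omega)
    exact ⟨h1, by rw [h2, (mem v hv).2], h3⟩
  have lev : ∀ v ∈ Z, ∀ w ∈ Z, v ≠ par w := fun v hv w hw e => by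
    have h1 := (st w hw).2.1
    rw [← e, (mem v hv).2] at h1
    omega
  have hP : ∀ a ∈ Z, ∀ b ∈ Z, ∀ c ∈ Z, G.Adj a b → G.Adj b c → a ≠ c → par a = par c := by
    intro a ha b hb c hc hab hbc hac
    by_contra hne
    rcases h2k with rfl | rfl
    · exact hne ((hB.eq_root _ (st a ha).1 (by have := (st a ha).2.1; omega)).trans
        (hB.eq_root _ (st c hc).1 (by have := (st c hc).2.1; omega)).symm)
    · have hr : ∀ v ∈ Z, G.Adj (par v) r ∧ v ≠ r := by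
        intro v hv
        have h1 := (st v hv).2.1
        obtain ⟨g1, g2, g3⟩ := hB.step (par v) (st v hv).1 (by omega)
        rw [hB.eq_root _ g1 (by omega)] at g3
        exact ⟨g3, fun e => by
          have := (mem v hv).2
          rw [e, hB.root_zero] at this
          omega⟩
      exact h.free (hasCyc_six hab hbc (st c hc).2.2 (hr c hc).1 (hr a ha).1.symm
        (st a ha).2.2.symm hac (lev a ha c hc) (hr a ha).2 (lev b hb c hc) (hr b hb).2
        (lev b hb a ha) (hr c hc).2 (lev c hc a ha) (Ne.symm hne))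
  have tri : ∀ a ∈ Z, ∀ b ∈ Z, ∀ c ∈ Z, G.Adj a b → G.Adj b c → a ≠ c → ¬ G.Adj a c := by
    intro a ha b hb c hc hab hbc hac k'
    have e1 := hP a ha b hb c hc hab hbc hac
    have e2 := hP b hb a ha c hc hab.symm k' hbc.ne
    exact h.k4 (st a ha).1 (mem a ha).1 (mem b hb).1 (mem c hc).1 (st a ha).2.2.symm
      (by rw [e1, ← e2]; exact (st b hb).2.2.symm) (by rw [e1]; exact (st c hc).2.2.symm) hab k' hbc
  have hcard := card_le_two_mul_aNum (G := G) par Z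
    (fun a ha b hb c hc e1 e2 e3 => ⟨hP a ha b hb c hc e1 e2 e3, tri a ha b hb c hc e1 e2 e3⟩) (by
      intro a ha b hb c hc d' hd e he hab hbc hcd hde n1 n2 n3 n4 n5 n6 hpi
      have e1 := hP a ha b hb c hc hab hbc n1
      have e3 := hP c hc d' hd e he hcd hde n6
      exact h.free (hasCyc_six hab hbc hcd hde
        (show G.Adj e (par a) by rw [e1, e3]; exact (st e he).2.2)
        (st a ha).2.2.symm n1 n2 n3 n4 n5 (lev b hb a ha) n6 (lev c hc a ha) (lev d' hd a ha)))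
  omega

/-- For the six-cycle no critical set has independence number at most five. -/
theorem crit_six_false (hnc : ¬ HasCyc G 6) (hS : Crit G S 5) (hα : aNum G S ≤ 5) : False :=
  hS.growth_contra (m := 6) (by norm_num) (Finset.card_pos.1 (by rw [hS.card_eq]; omega))
    (by omega) (Six.layerSpec ⟨hS, hα, hnc⟩)

theorem cliqueSpec_six : Full.CliqueSpec G 6 :=
  fun hnc _ hS ha => (crit_six_false hnc hS (by omega)).elim

theorem growthSpec_six : Full.GrowthSpec G 6 :=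
  fun hnc _ hS _ ha _ => crit_six_false hnc hS (by omega)

end Vale.Agent.P048
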