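import Vale.Agent.P048.Full.Main
import Vale.Agent.P048.Full.Small6

/-!
All cycle lengths, given the twin exclusion and the length seven.
-/

namespace Vale.Agent.P048.Full

/-- The identity for all `m ≥ n ≥ 3` except `(3, 3)`, given twins and the case `m = 7`. -/
theorem ramsey_all {m n : ℕ} (hn : 3 ≤ n) (hmn : n ≤ m) (h33 : (m, n) ≠ (3, 3))
    (htwin : 8 ≤ m → ∀ N, ∀ G : SimpleGraph (Fin N), TwinSpec G m)
    (h7 : ∀ N, ∀ G : SimpleGraph (Fin N), CliqueSpec G 7 ∧ GrowthSpec G 7) :
    IsLeast {N : ℕ | ∀ G : SimpleGraph (Fin N),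
      (∃ v : Fin N, ∃ p : G.Walk v v, p.IsCycle ∧ p.length = m) ∨
      ∃ s : Finset (Fin N), G.IsNIndepSet n s} ((m - 1) * (n - 1) + 1) := by
  have h3 : m ≠ 3 := fun h => h33 (by rw [h, show n = 3 by omega])
  refine ramsey_full_of_specs (by omega) (by omega) hmn ?_ ?_ <;> intro N G
  · rcases Nat.lt_or_ge m 8 with h | h
    · have h3' : 3 ≤ m := by omega
      interval_cases m
      · exact absurd rfl h3
      · exact cliqueSpec_four
      · exact cliqueSpec_five
      · exact cliqueSpec_six
      · exact (h7 N G).1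
    · exact cliqueSpec_general h (exitSpec h) (htwin h N G)
  · rcases Nat.lt_or_ge m 8 with h | h
    · have h3' : 3 ≤ m := by omega
      interval_cases m
      · exact absurd rfl h3
      · exact growthSpec_four
      · exact growthSpec_five
      · exact growthSpec_six
      · exact (h7 N G).2
    · exact growthSpec_general h

end Vale.Agent.P048.Full
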