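import Vale.Agent.P048.Full.Growth
import Vale.Agent.P048.Ramsey

/-!
The induction and the Ramsey statement for the range `n ≤ m`, from the growth lemma and the
exclusion of large cliques.
-/

namespace Vale.Agent.P048

open Finset

variable {V : Type*} [DecidableEq V] {G : SimpleGraph V}

/-- A critical set cannot exist. -/
theorem Crit.full_contra {S : Finset V} {m : ℕ} (hnc : ¬ HasCyc G m)
    (hkill : Full.CliqueSpec G m) (hgrow : Full.GrowthSpec G m) (hS : Crit G S (m - 1))
    (ha : aNum G S + 1 ≤ m) : False := by
  have hne : S.Nonempty := Finset.card_pos.1 (by rw [hS.card_eq]; omega)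
  exact hgrow hnc S hS hne ha (hkill hnc S hS ha)

/-- Without a cycle of length `m`, independence number `α < m` bounds the size by `(m - 1) α`. -/
theorem card_le_mul_full {m : ℕ} (hnc : ¬ HasCyc G m)
    (hkill : Full.CliqueSpec G m) (hgrow : Full.GrowthSpec G m) :
    ∀ S : Finset V, aNum G S + 1 ≤ m → S.card ≤ (m - 1) * aNum G S := by
  intro S
  induction S using Finset.strongInduction with
  | H S ih =>
    intro ha
    by_contra hbig
    push Not at hbig
    have hne : S.Nonempty := Finset.card_pos.1 (by omega)
    have hcard : S.card = (m - 1) * aNum G S + 1 := by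
      obtain ⟨v, hv⟩ := hne
      have hmono := aNum_mono (G := G) (Finset.erase_subset v S)
      have h1 := ih (S.erase v) (Finset.erase_ssubset hv) (by omega)
      rw [Finset.card_erase_of_mem hv] at h1
      have h2 := Nat.mul_le_mul_left (m - 1) hmono
      omega
    exact Crit.full_contra hnc hkill hgrow ⟨hcard, fun T hT hlt =>
      ih T (lt_of_le_of_ne hT (by rintro rfl; exact lt_irrefl _ hlt)) (by omega)⟩ ha

omit [DecidableEq V] in
/-- The Ramsey identity from the two interfaces. -/
theorem ramsey_full_of_specs {m n : ℕ} (h4 : 4 ≤ m) (hn : 1 ≤ n) (hmn : n ≤ m)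
    (hkill : ∀ N, ∀ G : SimpleGraph (Fin N), Full.CliqueSpec G m)
    (hgrow : ∀ N, ∀ G : SimpleGraph (Fin N), Full.GrowthSpec G m) :
    IsLeast {N : ℕ | ∀ G : SimpleGraph (Fin N),
      (∃ v : Fin N, ∃ p : G.Walk v v, p.IsCycle ∧ p.length = m) ∨
      ∃ s : Finset (Fin N), G.IsNIndepSet n s} ((m - 1) * (n - 1) + 1) := by
  classical
  constructor
  · intro G
    by_cases hc : HasCyc G m
    · exact Or.inl hc.exists_walk
    right
    by_contra hno
    push Not at hno
    have hbd : aNum G (Finset.univ : Finset (Fin ((m - 1) * (n - 1) + 1))) ≤ n - 1 := by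
      obtain ⟨I, -, hIi, hIc⟩ := exists_max_indep (G := G) Finset.univ
      by_contra h
      obtain ⟨J, hJ, hJc⟩ := Finset.exists_subset_card_eq (show n ≤ I.card by omega)
      exact hno J ⟨hIi.mono (by exact_mod_cast hJ), hJc⟩
    have := card_le_mul_full hc (hkill _ G) (hgrow _ G) Finset.univ (by omega)
    have h2 := Nat.mul_le_mul_left (m - 1) hbd
    simp at this
    omega
  · intro N hN
    by_contra hlt
    push Not at hlt
    obtain ⟨h1, h2⟩ := lower_construction (m := m) (n := n) (N := N) (by omega) (by omega)
    rcases hN (blockGraph m N) with h | ⟨s, hs⟩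
    · exact h1 h
    · have := h2 s hs; omega

end Vale.Agent.P048
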