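import Vale.Agent.P048.Full.XLemma
import Vale.Agent.P048.Full.Spec

/-!
Exits of a large clique that avoid one given vertex of it.
-/

namespace Vale.Agent.P048.Full

open Finset

variable {V : Type*} [DecidableEq V] {G : SimpleGraph V} {S K : Finset V} {m : ℕ} {u : V}

/-- A list avoiding `u` cannot miss exactly one vertex. -/
lemma klist_erase_ne {L : List V} (hK : G.IsClique (K : Set V)) (hm : 3 ≤ m)
    (hnc : ¬ HasCyc G m) (hu : u ∈ K) (huS : u ∈ S)
    (h : KList G (S.erase u) (K.erase u) L) : L.length ≠ m ∧ L.length + 1 ≠ m := by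
  have hcl : G.IsClique ((K.erase u : Finset V) : Set V) :=
    hK.subset (by exact_mod_cast Finset.erase_subset u K)
  refine ⟨h.length_ne hcl hm hnc, fun he => ?_⟩
  have hnot : u ∉ L := fun hh => (Finset.mem_erase.1 (h.mem u hh)).1 rfl
  have h' : KList G S K (u :: L) := by
    refine ⟨List.nodup_cons.2 ⟨hnot, h.nodup⟩, List.isChain_cons.2 ⟨fun t ht => ?_, h.chain⟩,
      by simp [hu], ?_, ?_⟩
    · obtain ⟨h1, h2⟩ := Finset.mem_erase.1 (h.head t ht)
      exact hK (by exact_mod_cast hu) (by exact_mod_cast h2) h1.symm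
    · intro t ht
      cases L with
      | nil => simp at he; omega
      | cons b L =>
        rw [List.getLast?_cons_cons] at ht
        exact (Finset.mem_erase.1 (h.last t ht)).2
    · intro t ht
      rcases List.mem_cons.1 ht with rfl | ht
      · exact huS
      · exact (Finset.mem_erase.1 (h.mem t ht)).2
  exact h'.length_ne hK hm hnc (by simp; omega)

/-- `AvoidSpec`. -/
theorem avoidSpec (hm : 3 ≤ m) : AvoidSpec G m := by
  classical
  intro hnc S K hdeg hKS hK hr u hu
  set K' := K.erase u with hK'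
  set S' := S.erase u with hS'
  have hcl : G.IsClique (K' : Set V) := hK.subset (by exact_mod_cast Finset.erase_subset u K)
  have hKS' : K' ⊆ S' := Finset.erase_subset_erase u hKS
  have hKlt := clique_card_lt hKS hK hm hnc
  have hKc : K'.card + 1 = K.card := Finset.card_erase_add_one hu
  obtain ⟨L, h⟩ := exists_ext_of_lt (m := m - 1) hKS' hcl (by omega)
  have hlt := h.lt
  -- no longer list
  have hgrow : ∀ L', KList G S' K' L' → (∀ k ∈ K', k ∈ L') →
      L'.length ≠ L.length + 1 ∧ L'.length ≠ L.length + 2 := by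
    intro L' g1 g2
    have h1 := klist_erase_ne hK hm hnc hu (hKS hu) g1
    have h2 := h.max L' g1 g2
    constructor <;> intro he <;> omega
  have hone : ∀ y ∈ S', y ∉ L → ∀ p q, Stop K' L p → Stop K' L q → p ≠ q →
      G.Adj y p → G.Adj y q → False := by
    intro y hy hyL p q hp hq hne h1 h2
    obtain ⟨L', g1, g2, -⟩ := h.kl.splice (Y := [y]) hcl hp hq hne (by simp) (by simpa using hyL)
      (by simpa using hy) (by simp [h1.symm, h2])
    exact (hgrow L' g1 fun k hk => g2.symm.subset (List.mem_append_left _ (h.cov k hk))).1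
      (by rw [g2.length_eq]; simp)
  have hout : ∀ v ∈ portsF K' L, (outN G S' L v).Nonempty := by
    intro v hv
    have hvK := (mem_portsF.1 hv).2
    obtain ⟨N, hNS, hNc, hN⟩ := hdeg v (hKS (Finset.mem_erase.1 hvK).2)
    by_contra hne
    rw [Finset.not_nonempty_iff_eq_empty] at hne
    have hsub : N ⊆ (insert u L.toFinset).erase v := by
      intro t ht
      refine Finset.mem_erase.2 ⟨(hN t ht).ne', Finset.mem_insert.2 ?_⟩
      by_contra hc
      push Not at hc
      have : t ∈ outN G S' L v :=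
        mem_outN.2 ⟨Finset.mem_erase.2 ⟨hc.1, hNS ht⟩, hN t ht, by simpa using hc.2⟩
      rw [hne] at this
      simp at this
    have h1 := Finset.card_le_card hsub
    rw [Finset.card_erase_of_mem (Finset.mem_insert_of_mem
      (List.mem_toFinset.2 (mem_portsF.1 hv).1.mem))] at h1
    have h2 := Finset.card_insert_le u L.toFinset
    have h3 := List.toFinset_card_le L
    omega
  let f : V → V := fun v => if hv : v ∈ portsF K' L then (hout v hv).choose else v
  have hf : ∀ v ∈ portsF K' L, f v ∈ outN G S' L v := fun v hv => by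
    simp only [f, dif_pos hv]
    exact (hout v hv).choose_spec
  have hinj : ∀ v ∈ portsF K' L, ∀ w ∈ portsF K' L, f v = f w → v = w := by
    intro v hv w hw e
    by_contra hne
    obtain ⟨h1, h2, h3⟩ := mem_outN.1 (hf v hv)
    exact hone _ h1 h3 v w (mem_portsF.1 hv).1 (mem_portsF.1 hw).1 hne h2.symm
      (e ▸ (mem_outN.1 (hf w hw)).2.1.symm)
  have hdis : Disjoint (repsF K' L) ((portsF K' L).image f) := by
    rw [Finset.disjoint_left]
    intro x hx hx'
    obtain ⟨v, hv, rfl⟩ := Finset.mem_image.1 hx'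
    exact (mem_outN.1 (hf v hv)).2.2 (mem_repsF.1 hx).1.mem
  have hcard : (repsF K' L ∪ (portsF K' L).image f).card = K'.card := by
    rw [Finset.card_union_of_disjoint hdis,
      Finset.card_image_of_injOn (fun v hv w hw e => hinj v hv w hw e)]
    have := card_ports_add_reps h.kl h.cov
    omega
  have hmain := card_le_aNum (G := G) (I := repsF K' L ∪ (portsF K' L).image f)
    (S := nbrOut G S K K') ?_ ?_
  · omega
  · intro x hx
    have hnotK : ∀ {t}, t ∈ S' → t ∉ K' → t ∉ K := fun {t} h1 h2 hk =>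
      h2 (Finset.mem_erase.2 ⟨(Finset.mem_erase.1 h1).1, hk⟩)
    simp only [nbrOut, Finset.mem_filter, Finset.mem_sdiff]
    rcases Finset.mem_union.1 hx with hx | hx
    · obtain ⟨A, p, a, C, e, ha⟩ := Rep.decomp h.kl hx
      have hxS := h.kl.mem x (mem_repsF.1 hx).1.mem
      refine ⟨⟨(Finset.mem_erase.1 hxS).2, hnotK hxS (mem_repsF.1 hx).2⟩, a, ha, ?_⟩
      have hc := h.kl.chain
      rw [e, List.isChain_append] at hc
      exact hc.2.1.tail.rel.symm
    · obtain ⟨v, hv, rfl⟩ := Finset.mem_image.1 hx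
      obtain ⟨h1, h2, h3⟩ := mem_outN.1 (hf v hv)
      exact ⟨⟨(Finset.mem_erase.1 h1).2, hnotK h1 fun hk => h3 (h.cov _ hk)⟩, v,
        (mem_portsF.1 hv).2, h2⟩
  · intro s hs t ht hne hst
    simp only [Finset.coe_union, Set.mem_union, Finset.mem_coe] at hs ht
    have cross : ∀ x ∈ repsF K' L, ∀ y ∈ (portsF K' L).image f, ¬ G.Adj x y := by
      intro x hx y hy hxy
      obtain ⟨v, hv, rfl⟩ := Finset.mem_image.1 hy
      obtain ⟨h1, h2, h3⟩ := mem_outN.1 (hf v hv)
      exact hone _ h1 h3 v x (mem_portsF.1 hv).1 (mem_repsF.1 hx).1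
        (fun e => (mem_repsF.1 hx).2 (e ▸ (mem_portsF.1 hv).2)) h2.symm hxy.symm
    rcases hs with hs | hs <;> rcases ht with ht | ht
    · exact h.reps_indep hcl hs ht hne hst
    · exact cross s hs t ht hst
    · exact cross t ht s hs hst.symm
    · obtain ⟨v, hv, rfl⟩ := Finset.mem_image.1 hs
      obtain ⟨w, hw, rfl⟩ := Finset.mem_image.1 ht
      obtain ⟨h1, h2, h3⟩ := mem_outN.1 (hf v hv)
      obtain ⟨g1, g2, g3⟩ := mem_outN.1 (hf w hw)
      have hvw : v ≠ w := fun e => hne (e ▸ rfl)
      obtain ⟨L', k1, k2, -⟩ := h.kl.splice (Y := [f v, f w]) hcl (mem_portsF.1 hv).1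
        (mem_portsF.1 hw).1 hvw (by simp [hne]) (by simp [h3, g3]) (by simp [h1, g1])
        (by simp [h2, hst, g2.symm])
      exact (hgrow L' k1 fun k hk => k2.symm.subset (List.mem_append_left _ (h.cov k hk))).2
        (by rw [k2.length_eq]; simp)

end Vale.Agent.P048.Full
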