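import Vale.Agent.P048.Full.Spec
import Vale.Agent.P048.TwoCliques

/-!
A critical set has no clique on `m / 2` vertices, from exits, cores, tails and twins.
-/

namespace Vale.Agent.P048.Full

open Finset

variable {V : Type*} [DecidableEq V] {G : SimpleGraph V}

lemma indep_insert {I : Finset V} {v : V} (hI : G.IsIndepSet (I : Set V))
    (hv : ∀ x ∈ I, ¬ G.Adj v x) : G.IsIndepSet ((insert v I : Finset V) : Set V) := by
  rw [insert_eq]
  refine indep_union (by simp [SimpleGraph.isIndepSet_iff]) hI ?_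
  intro a ha b hb
  rw [mem_singleton] at ha
  subst ha
  exact hv b hb

lemma budget {m a D : ℕ} (ha : a + 1 < m) (hθ : m / 2 ≤ a) (ha4 : 2 ≤ a)
    (hD : D + 2 = 2 * a ∨ (D + 2 = m ∧ 2 * a + 1 ≤ m)) :
    D * (m - 1) + 2 * (2 * a + 2) < 2 * ((m - 1) * (a + 1) + 1) := by
  obtain ⟨t, rfl⟩ : ∃ t, m = a + 2 + t := ⟨m - (a + 2), by omega⟩
  rw [show a + 2 + t - 1 = a + 1 + t by omega]
  rcases hD with h | ⟨h, h'⟩
  · have e1 : D * (a + 1 + t) + 2 * (a + 1 + t) = 2 * a * (a + 1 + t) := by rw [← h]; ring
    have e2 : (a + 1 + t) * (a + 1) = a * (a + 1 + t) + (a + 1 + t) := by ring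
    rw [Nat.mul_assoc] at e1
    omega
  · obtain rfl : D = a + t := by omega
    have : t + 1 = a := by omega
    nlinarith

lemma budget' {m a D α : ℕ} (ha : a + 1 < m) (hθ : m / 2 ≤ a) (hα : a ≤ α) (ha4 : 2 ≤ a)
    (hD : D + 2 = 2 * a ∨ (D + 2 = m ∧ 2 * a + 1 ≤ m)) :
    D * α + 2 * (2 * a) < 2 * ((m - 1) * α + 1) := by
  obtain ⟨t, rfl⟩ : ∃ t, m = a + 2 + t := ⟨m - (a + 2), by omega⟩
  rw [show a + 2 + t - 1 = a + 1 + t by omega]
  rcases hD with h | ⟨h, h'⟩
  · have e1 : D * α + 2 * α = 2 * a * α := by rw [← h]; ring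
    have e2 : (a + 1 + t) * α = a * α + α + t * α := by ring
    rw [Nat.mul_assoc] at e1
    omega
  · obtain rfl : D = a + t := by omega
    have : t + 1 = a := by omega
    subst this
    nlinarith

lemma Tails.mono {S K J W T T' : Finset V} (h : Tails G S K J W T) (hT : T' ⊆ T) :
    Tails G S K J W T' where
  subK := h.subK
  subJ := h.subJ
  subW := h.subW
  subT := hT.trans h.subT
  clique := h.clique
  disjKJ := h.disjKJ
  disjT := h.disjT.mono_left hT
  root := h.root
  single := h.single
  far := fun w hw => by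
    obtain ⟨h1, h2, y₀, j₀, h3, h4, h5, h6, h7⟩ := h.far w hw
    refine ⟨h1, h2, y₀, j₀, h3, h4, fun hm => h5 ?_, h6, h7⟩
    simp only [mem_union] at hm ⊢
    exact hm.imp_right fun h' => hT h'
  cover := fun y hy => h.cover y (hT hy)

/-- A path closed by two further vertices gives a cycle. -/
lemma close_two {T : Finset V} {x y p q : V} {l m : ℕ} (hP : PathLen G (T : Set V) x y l)
    (hl : 1 ≤ l) (hp : p ∉ T) (hq : q ∉ T) (hpq : G.Adj p q) (hyp : G.Adj y p)
    (hqx : G.Adj q x) (hm : l + 3 = m) : HasCyc G m := by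
  have hxT : x ∈ (T : Set V) := hP.left_mem
  have hyT : y ∈ (T : Set V) := hP.right_mem
  have hxy : x ≠ y := by
    obtain ⟨g, g0, gn, gi, -, -⟩ := hP
    intro e
    have := gi 0 (by omega) l le_rfl (g0.trans (e.trans gn.symm))
    omega
  have hpx : p ≠ x := fun e => hp (e ▸ by exact_mod_cast hxT)
  have hqy : q ≠ y := fun e => hq (e ▸ by exact_mod_cast hyT)
  have P1 := (pathLen_edge_pair hyp).append (pathLen_edge_pair hpq) (by
    intro z hz hz'
    rcases hz with h | h
    · rcases hz' with h' | h'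
      · exact h'
      · exact absurd (h'.symm.trans h) hqy
    · exact h)
  have P2 := P1.append (pathLen_edge_pair hqx) (by
    intro z hz hz'
    rcases hz' with h | h
    · exact h
    · rcases hz with (h' | h') | (h' | h')
      · exact absurd (h.symm.trans h') hxy
      · exact absurd (h'.symm.trans h) hpx
      · exact absurd (h'.symm.trans h) hpx
      · exact h')
  have := hP.close P2 hl (by omega) (by omega) (by
    intro z hz hz'
    rcases hz' with ((h | h) | (h | h)) | (h | h)
    · exact Or.inr h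
    · exact absurd (by exact_mod_cast (h ▸ hz)) hp
    · exact absurd (by exact_mod_cast (h ▸ hz)) hp
    · exact absurd (by exact_mod_cast (h ▸ hz)) hq
    · exact absurd (by exact_mod_cast (h ▸ hz)) hq
    · exact Or.inl h)
  rwa [show l + (1 + 1 + 1) = m by omega] at this

/-- A critical set has no clique on `m - 1` vertices. -/
lemma no_huge_clique {m : ℕ} (hm : 5 ≤ m) (hnc : ¬ HasCyc G m) {S K : Finset V}
    (hS : Crit G S (m - 1)) (hα : aNum G S + 1 ≤ m) (hK : K ⊆ S)
    (hcl : G.IsClique (K : Set V)) (hKc : K.card + 1 = m)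
    (hmax : ∀ L : Finset V, L ⊆ S → G.IsClique (L : Set V) → L.card ≤ K.card) : False := by
  classical
  -- an outside vertex sees at most one vertex of the clique
  have hone : ∀ v, v ∉ K → ∀ u ∈ K, ∀ u' ∈ K, G.Adj v u → G.Adj v u' → u = u' := by
    intro v hv u hu u' hu' h h'
    by_contra hne
    have P := clique_path (G := G) (m - 2) (by omega) K hcl u hu u' hu' hne (by omega)
    have Q := (pathLen_edge_pair h'.symm).append (pathLen_edge_pair h) (by
      intro z hz hz'
      rcases hz with hz | hz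
      · rcases hz' with hz' | hz'
        · exact hz'
        · exact absurd (hz'.symm.trans hz) hne
      · exact hz)
    apply hnc
    have := P.close Q (by omega) (by omega) (by omega) (by
      intro z hz hz'
      rcases hz' with (h1 | h1) | (h1 | h1)
      · exact Or.inr h1
      · exact absurd (by exact_mod_cast (h1 ▸ hz)) hv
      · exact absurd (by exact_mod_cast (h1 ▸ hz)) hv
      · exact Or.inl h1)
    rwa [show m - 2 + (1 + 1) = m by omega] at this
  -- every vertex of the clique has an exit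
  have hexit : ∀ u ∈ K, ∃ v ∈ S, v ∉ K ∧ G.Adj u v := by
    intro u hu
    by_contra hno
    push Not at hno
    obtain ⟨N, hNS, hNc, hN⟩ := hS.minDeg u (hK hu)
    have hsub : N ⊆ K.erase u := fun w hw => mem_erase.2 ⟨(hN w hw).ne.symm, by
      by_contra h
      exact hno w (hNS hw) h (hN w hw)⟩
    have := card_le_card hsub
    rw [card_erase_of_mem hu] at this
    omega
  choose! j hjS hjK hj using hexit
  have hinj : ∀ u ∈ K, ∀ u' ∈ K, j u = j u' → u = u' := fun u hu u' hu' e =>
    hone (j u) (hjK u hu) u hu u' hu' (hj u hu).symm (e ▸ (hj u' hu').symm)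
  -- exits and their neighbourhoods are separated
  have hnadj : ∀ u ∈ K, ∀ u' ∈ K, u ≠ u' → ¬ G.Adj (j u) (j u') := by
    intro u hu u' hu' hne hadj
    obtain P := clique_path (G := G) (m - 3) (by omega) K hcl u hu u' hu' hne (by omega)
    exact hnc (close_two P (by omega) (hjK u' hu') (hjK u hu) hadj.symm (hj u' hu') (hj u hu).symm
      (by omega))
  have hsep : ∀ z, z ∉ K → ∀ u ∈ K, ∀ u' ∈ K, u ≠ u' → G.Adj z (j u) → ¬ G.Adj z (j u') := by
    intro z hz u hu u' hu' hne h h'
    have hzu : z ≠ j u := h.ne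
    have hzu' : z ≠ j u' := h'.ne
    have P := clique_path (G := G) (m - 4) (by omega) K hcl u hu u' hu' hne (by omega)
    have Q := (pathLen_edge_pair (hj u' hu')).append (pathLen_edge_pair h'.symm) (by
      intro a ha ha'
      rcases ha with ha | ha
      · rcases ha' with ha' | ha'
        · exact ha'
        · exact absurd (ha'.symm.trans ha) (fun e => hz (e ▸ hu'))
      · exact ha)
    have Q2 := Q.append (pathLen_edge_pair h) (by
      intro a ha ha'
      rcases ha' with ha' | ha'
      · exact ha'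
      · rcases ha with (h1 | h1) | (h1 | h1)
        · exact absurd (ha'.symm.trans h1) (fun e => hjK u hu (e ▸ hu'))
        · exact absurd (ha'.symm.trans h1) (fun e => hne (hinj u hu u' hu' e))
        · exact absurd (ha'.symm.trans h1) (fun e => hne (hinj u hu u' hu' e))
        · exact absurd (ha'.symm.trans h1) hzu.symm)
    have Q3 := Q2.append (pathLen_edge_pair (hj u hu).symm) (by
      intro a ha ha'
      rcases ha' with ha' | ha'
      · exact ha'
      · rcases ha with ((h1 | h1) | (h1 | h1)) | (h1 | h1)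
        · exact absurd (ha'.symm.trans h1) hne
        · exact absurd (ha'.symm.trans h1) (fun e => hjK u' hu' (e ▸ hu))
        · exact absurd (ha'.symm.trans h1) (fun e => hjK u' hu' (e ▸ hu))
        · exact absurd (ha'.symm.trans h1) (fun e => hz (e ▸ hu))
        · exact absurd (ha'.symm.trans h1) (fun e => hz (e ▸ hu))
        · exact absurd (ha'.symm.trans h1) (fun e => hjK u hu (e ▸ hu)))
    apply hnc
    have := P.close Q3 (by omega) (by omega) (by omega) (by
      intro a ha hq
      have haK : a ∈ K := by exact_mod_cast ha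
      rcases hq with (((h1 | h1) | (h1 | h1)) | (h1 | h1)) | (h1 | h1)
      · exact Or.inr h1
      · exact absurd (h1 ▸ haK) (hjK u' hu')
      · exact absurd (h1 ▸ haK) (hjK u' hu')
      · exact absurd (h1 ▸ haK) hz
      · exact absurd (h1 ▸ haK) hz
      · exact absurd (h1 ▸ haK) (hjK u hu)
      · exact absurd (h1 ▸ haK) (hjK u hu)
      · exact Or.inl h1)
    rwa [show m - 4 + (1 + 1 + 1 + 1) = m by omega] at this
  -- `K.image j` is a maximum independent set, so its closed neighbourhood is everything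
  set J := K.image j with hJ
  have hJc : J.card = K.card := card_image_of_injOn fun a ha b hb e => hinj a ha b hb e
  have hJi : G.IsIndepSet (J : Set V) := by
    intro a ha b hb hab
    simp only [hJ, coe_image, Set.mem_image, mem_coe] at ha hb
    obtain ⟨p, hp, rfl⟩ := ha
    obtain ⟨q, hq, rfl⟩ := hb
    exact hnadj p hp q hq (fun e => hab (by rw [e]))
  have hJS : J ⊆ S := fun v hv => by
    obtain ⟨u, hu, rfl⟩ := mem_image.1 hv
    exact hjS u hu
  have hdom : ∀ z ∈ S, z ∉ K → ∃ u ∈ K, z = j u ∨ G.Adj z (j u) := by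
    intro z hz hzK
    by_contra hno
    push Not at hno
    have hzJ : z ∉ J := fun h => by
      obtain ⟨u, hu, rfl⟩ := mem_image.1 h
      exact (hno u hu).1 rfl
    have := card_le_aNum (G := G) (insert_subset hz hJS) (indep_insert hJi fun x hx => by
      obtain ⟨u, hu, rfl⟩ := mem_image.1 hx
      exact (hno u hu).2)
    rw [card_insert_of_notMem hzJ] at this
    omega
  -- some part is big, hence a clique, hence has a non-neighbour of its root
  let Z : V → Finset V := fun u => (S \ K).filter (fun z => z = j u ∨ G.Adj z (j u))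
  have hcover : S \ K ⊆ K.biUnion Z := fun z hz => by
    obtain ⟨hzS, hzK⟩ := mem_sdiff.1 hz
    obtain ⟨u, hu, h⟩ := hdom z hzS hzK
    exact mem_biUnion.2 ⟨u, hu, mem_filter.2 ⟨hz, h⟩⟩
  obtain ⟨u, hu, hbig⟩ : ∃ u ∈ K, K.card ≤ (Z u).card := by
    by_contra hno
    push Not at hno
    have h1 := (card_le_card hcover).trans card_biUnion_le
    have h2 : ∑ u ∈ K, (Z u).card ≤ K.card * (K.card - 1) := by
      have := sum_le_card_nsmul K (fun u => (Z u).card) (K.card - 1) fun u hu => by
        have := hno u hu; omega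
      simpa using this
    rw [card_sdiff_of_subset hK, hS.card_eq] at h1
    have h3 : K.card ≤ aNum G S := hJc ▸ card_le_aNum hJS hJi
    have h4 := Nat.mul_le_mul_left (m - 1) h3
    obtain ⟨b, hb⟩ : ∃ b, K.card = b + 1 := ⟨K.card - 1, by omega⟩
    rw [show m - 1 = b + 1 by omega] at h1 h4
    rw [hb] at h1 h2 h4
    simp only [Nat.add_sub_cancel] at h2
    have e : (b + 1) * (b + 1) = (b + 1) * b + (b + 1) := by ring
    omega
  -- vertices of one part avoid the other exits
  have hfree : ∀ z ∈ Z u, ∀ x ∈ J.erase (j u), z ≠ x ∧ ¬ G.Adj z x := by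
    intro z hz x hx
    obtain ⟨hne, hxJ⟩ := mem_erase.1 hx
    obtain ⟨q, hq, rfl⟩ := mem_image.1 hxJ
    have huq : u ≠ q := fun e => hne (by rw [e])
    obtain ⟨hzSK, rfl | hadj⟩ := mem_filter.1 hz
    · exact ⟨fun e => huq (hinj u hu q hq e), hnadj u hu q hq huq⟩
    · exact ⟨fun e => hnadj u hu q hq huq (e ▸ hadj.symm),
        hsep z (mem_sdiff.1 hzSK).2 u hu q hq huq hadj⟩
  have hkey : ∀ p q : V, p ∈ S → q ∈ S → p ≠ q → ¬ G.Adj p q →
      (∀ x ∈ J.erase (j u), (p ≠ x ∧ ¬ G.Adj p x) ∧ (q ≠ x ∧ ¬ G.Adj q x)) → False := by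
    intro p q hp hq hpq hnad hall
    have hI := indep_insert (v := p)
      (indep_insert (v := q) (hJi.mono (by exact_mod_cast erase_subset _ _))
        fun x hx => (hall x hx).2.2)
      (fun x hx => by
        rcases mem_insert.1 hx with rfl | hx
        · exact hnad
        · exact (hall x hx).1.2)
    have := card_le_aNum (G := G)
      (insert_subset hp (insert_subset hq ((erase_subset _ _).trans hJS))) hI
    have hq' : q ∉ J.erase (j u) := fun h => (hall q h).2.1 rfl
    have hp' : p ∉ insert q (J.erase (j u)) := fun h => by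
      rcases mem_insert.1 h with h | h
      · exact hpq h
      · exact (hall p h).1.1 rfl
    rw [card_insert_of_notMem hp', card_insert_of_notMem hq',
      card_erase_of_mem (show j u ∈ J from mem_image_of_mem j hu)] at this
    omega
  have hZc : G.IsClique ((Z u : Finset V) : Set V) := by
    intro p hp q hq hpq
    by_contra hnad
    exact hkey p q (mem_sdiff.1 (mem_filter.1 hp).1).1 (mem_sdiff.1 (mem_filter.1 hq).1).1 hpq hnad
      fun x hx => ⟨hfree p hp x hx, hfree q hq x hx⟩
  obtain ⟨z, hz, hzu⟩ : ∃ z ∈ Z u, ¬ G.Adj u z := by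
    by_contra hno
    push Not at hno
    have hcl' : G.IsClique ((insert u (Z u) : Finset V) : Set V) := by
      rw [coe_insert]
      exact hZc.insert fun b hb _ => hno b hb
    have := hmax (insert u (Z u)) (insert_subset (hK hu) fun z hz =>
      (mem_sdiff.1 (mem_filter.1 hz).1).1) hcl'
    rw [card_insert_of_notMem (show u ∉ Z u from
      fun h => (mem_sdiff.1 (mem_filter.1 h).1).2 hu)] at this
    omega
  refine hkey z u (mem_sdiff.1 (mem_filter.1 hz).1).1 (hK hu)
    (fun e => (mem_sdiff.1 (mem_filter.1 hz).1).2 (e ▸ hu)) (fun e => hzu e.symm) fun x hx => ?_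
  refine ⟨hfree z hz x hx, ?_⟩
  obtain ⟨hne, hxJ⟩ := mem_erase.1 hx
  obtain ⟨q, hq, rfl⟩ := mem_image.1 hxJ
  exact ⟨fun e => hjK q hq (e ▸ hu), fun h => hne (by
    rw [hone (j q) (hjK q hq) u hu q hq h.symm (hj q hq).symm])⟩

/-- Critical sets contain no big clique. -/
theorem cliqueSpec {m : ℕ} (hm : 8 ≤ m) (hexit : ExitSpec G m) (hcore : CoreSpec G m)
    (hflex : FlexSpec G m) (htwin : TwinSpec G m) : CliqueSpec G m := by
  classical
  intro hnc S hS ha K₀ hK₀ hcl₀
  by_contra hK₀c
  obtain ⟨K, hKm, hKmax⟩ := (S.powerset.filter fun L : Finset V => G.IsClique (L : Set V))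
    |>.exists_max_image card ⟨K₀, mem_filter.2 ⟨mem_powerset.2 hK₀, hcl₀⟩⟩
  obtain ⟨hKp, hcl⟩ := mem_filter.1 hKm
  have hKS : K ⊆ S := mem_powerset.1 hKp
  have hmax : ∀ L : Finset V, L ⊆ S → G.IsClique (L : Set V) → L.card ≤ K.card :=
    fun L hL hL' => hKmax L (mem_filter.2 ⟨mem_powerset.2 hL, hL'⟩)
  have hKθ : m / 2 ≤ K.card := by
    have := hmax K₀ hK₀ hcl₀
    omega
  have hKlt : K.card < m := by
    by_contra hge
    obtain ⟨u, hu, v, hv, huv⟩ := one_lt_card.1 (show 1 < K.card by omega)
    have := (clique_path (G := G) (m - 1) (by omega) K hcl u hu v hv huv (by omega)).close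
      (pathLen_edge_pair (hcl hv hu huv.symm)) (by omega) le_rfl (by omega) (by
        intro z _ hz
        rcases hz with hz | hz
        · exact Or.inr hz
        · exact Or.inl hz)
    rw [show m - 1 + 1 = m by omega] at this
    exact hnc this
  rcases eq_or_lt_of_le (Nat.succ_le_of_lt hKlt) with hhuge | hsmall
  · exact no_huge_clique (by omega) hnc hS ha hKS hcl (by omega) hmax
  set D := max (2 * K.card - 2) (m - 2) with hD
  have hD1 : m - 2 ≤ D := le_max_right _ _
  have hD2 : 2 * K.card - 2 ≤ D := le_max_left _ _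
  have hDcases : D + 2 = 2 * K.card ∨ (D + 2 = m ∧ 2 * K.card + 1 ≤ m) := by
    rcases max_choice (2 * K.card - 2) (m - 2) with h | h <;> omega
  have fin : ∀ J W Y : Finset V, Tails G S K J W Y → D * aNum G Y < 2 * Y.card → False := by
    intro J W Y hT hd
    obtain ⟨T, hTY, c, f, hC⟩ := hcore D Y hD1 hd fun L hL hLc => by
      by_contra hbig
      exact htwin hnc S K J W L hS ha (hT.mono hL) hKθ hmax hLc (by omega)
    exact hflex hnc S K J W T c f (hT.mono hTY) hKθ hC
  set N := nbrOut G S K K with hN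
  have hNmem : ∀ {v}, v ∈ N ↔ (v ∈ S ∧ v ∉ K) ∧ ∃ u ∈ K, G.Adj u v := by
    intro v
    simp [hN, nbrOut]
  have hNa : K.card ≤ aNum G N := hexit hnc S K hS.minDeg hKS hcl hKθ
  have hNS : N ⊆ S := fun v hv => (hNmem.1 hv).1.1
  obtain ⟨I, hIN, hIi, hIc⟩ := exists_max_indep (G := G) N
  have hrootJ : ∀ J : Finset V, J ⊆ N → Disjoint K J ∧ ∀ j ∈ J, ∃ u ∈ K, G.Adj u j :=
    fun J hJ => ⟨disjoint_right.2 fun v hv hvK => (hNmem.1 (hJ hv)).1.2 hvK,
      fun j hj => (hNmem.1 (hJ hj)).2⟩
  have hM : 7 ≤ m - 1 := by omega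
  by_cases hA : K.card + 1 ≤ aNum G N
  · -- more exits than vertices
    obtain ⟨J, hJI, hJc⟩ := exists_subset_card_eq (show K.card + 1 ≤ I.card by omega)
    have hJi : G.IsIndepSet (J : Set V) := hIi.mono (by exact_mod_cast hJI)
    have hJN : J ⊆ N := hJI.trans hIN
    have hJS : J ⊆ S := hJN.trans hNS
    obtain ⟨hKJ, hroot⟩ := hrootJ J hJN
    set Y := closedNbr G S J \ (K ∪ J) with hY
    have hT : Tails G S K J ∅ Y := by
      refine ⟨hKS, hJS, empty_subset _, fun v hv => (mem_closedNbr.1 (mem_sdiff.1 hv).1).1, hcl,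
        hKJ, ?_, hroot, by simp, by simp, ?_⟩
      · rw [union_empty]
        exact disjoint_sdiff_self_left
      · intro y hy
        simp only [hY, mem_sdiff, mem_union, not_or] at hy
        exact Or.inl ((mem_closedNbr.1 hy.1).2.resolve_left hy.2.2)
    refine fin J ∅ Y hT ?_
    have h1 := hS.closedNbr_card_indep hJS hJi (card_pos.1 (by omega))
    have h2 : (closedNbr G S J).card ≤ Y.card + (K.card + J.card) :=
      (card_le_card_sdiff_add_card (t := K ∪ J)).trans
        (Nat.add_le_add_left (card_union_le _ _) _)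
    rw [hJc] at h1 h2
    have h3 : aNum G Y ≤ m - 1 := (aNum_mono hT.subT).trans (by omega)
    have h4 := Nat.mul_le_mul_left D h3
    have h5 : aNum G N ≤ aNum G S := aNum_mono hNS
    have goal := budget (by omega) hKθ (by omega) hDcases
    omega
  obtain rfl | hIne := I.eq_empty_or_nonempty
  · simp at hIc; omega
  have hIK : I.card = K.card := by omega
  have hIS : I ⊆ S := hIN.trans hNS
  obtain ⟨hKI, hroot⟩ := hrootJ I hIN
  by_cases hB : ∃ w ∈ S, w ∉ closedNbr G S I ∧ w ∉ K
  · -- a vertex two steps beyond the exits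
    obtain ⟨w₁, hw₁S, hw₁N, hw₁K⟩ := hB
    obtain ⟨j, hj⟩ := hIne
    obtain ⟨n, p, p0, pn, -, padj, pm⟩ := hS.conn j (hIS hj) w₁ hw₁S
    have hex : ∃ i, i ≤ n ∧ p i ∉ closedNbr G S I ∧ p i ∉ K :=
      ⟨n, le_rfl, by rw [pn]; exact hw₁N, by rw [pn]; exact hw₁K⟩
    obtain ⟨i, ⟨hin, hwN, hwK⟩, himin⟩ : ∃ i, (i ≤ n ∧ p i ∉ closedNbr G S I ∧ p i ∉ K) ∧
        ∀ i' < i, ¬ (i' ≤ n ∧ p i' ∉ closedNbr G S I ∧ p i' ∉ K) :=
      ⟨Nat.find hex, Nat.find_spec hex, fun i' h => Nat.find_min hex h⟩
    have hi0 : 0 < i := by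
      rcases Nat.eq_zero_or_pos i with rfl | h
      · exact absurd (mem_closedNbr.2 ⟨by rw [p0]; exact hIS hj, Or.inl (p0 ▸ hj)⟩) hwN
      · exact h
    have hwS : p i ∈ S := pm i hin
    have hyS : p (i - 1) ∈ S := pm (i - 1) (by omega)
    have hyw : G.Adj (p (i - 1)) (p i) := by
      have := padj (i - 1) (by omega)
      rwa [show i - 1 + 1 = i by omega] at this
    have hwI : p i ∉ I := fun h => hwN (mem_closedNbr.2 ⟨hwS, Or.inl h⟩)
    have hwnI : ∀ x ∈ I, ¬ G.Adj (p i) x := fun x hx h =>
      hwN (mem_closedNbr.2 ⟨hwS, Or.inr ⟨x, hx, h.symm⟩⟩)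
    have hI' := indep_insert hIi hwnI
    have hwnK : ∀ u ∈ K, ¬ G.Adj u (p i) := by
      intro u hu hadj
      have := card_le_aNum (G := G) (insert_subset (hNmem.2 ⟨⟨hwS, hwK⟩, u, hu, hadj⟩) hIN) hI'
      rw [card_insert_of_notMem hwI] at this
      omega
    have hyI : p (i - 1) ∉ I := fun h => hwnI _ h hyw.symm
    have hyK : p (i - 1) ∉ K := fun h => hwnK _ h hyw
    obtain ⟨j₀, hj₀, hj₀y⟩ : ∃ j₀ ∈ I, G.Adj j₀ (p (i - 1)) := by
      have := himin (i - 1) (by omega)
      push Not at this
      by_contra hno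
      push Not at hno
      apply hyK
      apply this (by omega)
      intro h
      rcases (mem_closedNbr.1 h).2 with h | ⟨x, hx, hadj⟩
      · exact hyI h
      · exact hno x hx hadj
    set Y := closedNbr G S (insert (p i) I) \ (K ∪ I ∪ {p i, p (i - 1)}) with hY
    have hT : Tails G S K I {p i} Y := by
      refine ⟨hKS, hIS, by simpa using hwS, fun v hv => (mem_closedNbr.1 (mem_sdiff.1 hv).1).1,
        hcl, hKI, ?_, hroot, by simp, ?_, ?_⟩
      · refine disjoint_left.2 fun v hv hv' => ?_
        refine (mem_sdiff.1 hv).2 ?_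
        simp only [mem_union, mem_singleton, mem_insert] at hv' ⊢
        tauto
      · intro v hv
        rw [mem_singleton] at hv
        subst hv
        refine ⟨by simp [hwK, hwI], hwnK, p (i - 1), j₀, hj₀, hyS, ?_, hj₀y, hyw⟩
        simp only [mem_union, mem_singleton, hY, mem_sdiff, mem_insert, not_or]
        exact ⟨⟨⟨hyK, hyI⟩, hyw.ne⟩, fun h => h.2.2.2 trivial⟩
      · intro y hy
        simp only [hY, mem_sdiff, mem_union, mem_singleton, mem_insert, not_or] at hy
        obtain ⟨hy1, ⟨-, hy2⟩, hy3, -⟩ := hy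
        rcases (mem_closedNbr.1 hy1).2 with h | ⟨x, hx, hadj⟩
        · rcases mem_insert.1 h with h | h
          · exact absurd h hy3
          · exact absurd h hy2
        · rcases mem_insert.1 hx with rfl | hx
          · exact Or.inr ⟨_, mem_singleton_self _, hadj⟩
          · exact Or.inl ⟨x, hx, hadj⟩
    refine fin I {p i} Y hT ?_
    have h1 := hS.closedNbr_card_indep (insert_subset hwS hIS) hI' (insert_nonempty _ _)
    rw [card_insert_of_notMem hwI, hIK] at h1
    have h2 : (closedNbr G S (insert (p i) I)).card ≤ Y.card + (K.card + K.card + 2) := by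
      refine (card_le_card_sdiff_add_card (t := K ∪ I ∪ {p i, p (i - 1)})).trans
        (Nat.add_le_add_left ?_ _)
      refine (card_union_le _ _).trans (Nat.add_le_add ?_ card_le_two)
      exact (card_union_le _ _).trans (by omega)
    have h3 : aNum G Y ≤ m - 1 := (aNum_mono hT.subT).trans (by omega)
    have h4 := Nat.mul_le_mul_left D h3
    have goal := budget (by omega) hKθ (by omega) hDcases
    omega
  -- the exits dominate everything outside the clique
  push Not at hB
  set Y := S \ (K ∪ I) with hY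
  have hT : Tails G S K I ∅ Y := by
    refine ⟨hKS, hIS, empty_subset _, sdiff_subset, hcl, hKI, ?_, hroot, by simp, by simp, ?_⟩
    · rw [union_empty]
      exact disjoint_sdiff_self_left
    · intro y hy
      simp only [hY, mem_sdiff, mem_union, not_or] at hy
      have hyN : y ∈ closedNbr G S I := by
        by_contra h
        exact hy.2.1 (hB y hy.1 h)
      exact Or.inl ((mem_closedNbr.1 hyN).2.resolve_left hy.2.2)
  refine fin I ∅ Y hT ?_
  have h2 : S.card ≤ Y.card + (K.card + K.card) :=
    (card_le_card_sdiff_add_card (t := K ∪ I)).trans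
      (Nat.add_le_add_left ((card_union_le _ _).trans (by omega)) _)
  have hcard := hS.card_eq
  have h3 : aNum G Y ≤ aNum G S := aNum_mono sdiff_subset
  have h5 : K.card ≤ aNum G S := hNa.trans (aNum_mono hNS)
  have h4 := Nat.mul_le_mul_left D h3
  have goal := budget' (by omega) hKθ h5 (by omega) hDcases
  omega

end Vale.Agent.P048.Full
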