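import Vale.Agent.P048.Alpha
import Vale.Agent.P048.Full.ChordAny

/-!
Cross paths of every length in a connected set that contains a cycle with a chord and is far from
bipartite, for every nonconstant labelling.
-/

namespace Vale.Agent.P048

open Finset

variable {V : Type*} {G : SimpleGraph V} [DecidableEq V]

/-! ### Cross paths from a cycle with a chord in a connected set -/

variable {T : Finset V} {c : ℕ} {f : ℤ → V}

omit [DecidableEq V] in
/-- A path that leaves the cycle and then avoids it. -/
structure Leaving (G : SimpleGraph V) (T : Finset V) (f : ℤ → V) (t : ℤ) (n : ℕ) (q : ℕ → V) :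
    Prop where
  start : q 0 = f t
  inj : ∀ i ≤ n, ∀ j ≤ n, q i = q j → i = j
  adj : ∀ i < n, G.Adj (q i) (q (i + 1))
  mem : ∀ i ≤ n, q i ∈ T
  off : ∀ i ≤ n, 0 < i → q i ∉ Set.range f

omit [DecidableEq V] in
lemma Leaving.cut {t : ℤ} {n i : ℕ} {q : ℕ → V} (h : Leaving G T f t n q) (hi : i ≤ n) :
    Leaving G T f t i q :=
  ⟨h.start, fun a ha b hb => h.inj a (ha.trans hi) b (hb.trans hi),
    fun a ha => h.adj a (by omega), fun a ha => h.mem a (ha.trans hi),
    fun a ha => h.off a (ha.trans hi)⟩

omit [DecidableEq V] in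
lemma Leaving.extend {t : ℤ} {n : ℕ} {q : ℕ → V} (h : Leaving G T f t n q) {v : V}
    (hv : v ∈ T) (hadj : G.Adj (q n) v) (hoff : v ∉ Set.range f) (hnew : ∀ i ≤ n, q i ≠ v) :
    Leaving G T f t (n + 1) (fun i => if i ≤ n then q i else v) where
  start := by simp [h.start]
  inj := by
    intro i hi j hj hij
    by_cases h1 : i ≤ n <;> by_cases h2 : j ≤ n <;> simp [h1, h2] at hij
    · exact h.inj i h1 j h2 hij
    · exact absurd hij (hnew i h1)
    · exact absurd hij.symm (hnew j h2)
    · omega
  adj := by
    intro i hi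
    by_cases h1 : i + 1 ≤ n
    · have h1' : i ≤ n := by omega
      simpa [h1, h1'] using h.adj i (by omega)
    · obtain rfl : i = n := by omega
      simpa using hadj
  mem := by
    intro i hi
    by_cases h1 : i ≤ n
    · simpa [h1] using h.mem i h1
    · simpa [h1] using hv
  off := by
    intro i hi hpos
    by_cases h1 : i ≤ n
    · simpa [h1] using h.off i h1 hpos
    · simpa [h1] using hoff

omit [DecidableEq V] in
lemma exists_leaving (hconn : Conn G (T : Set V)) (hfT : ∀ i, f i ∈ T) {v : V} (hv : v ∈ T) :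
    ∃ t n q, Leaving G T f t n q ∧ q n = v := by
  classical
  obtain ⟨n, p, p0, pn, pi, pa, pm⟩ := hconn (f 0) (by exact_mod_cast hfT 0) v (by exact_mod_cast hv)
  have hex : ∃ i, i ≤ n ∧ p i ∈ Set.range f := ⟨0, Nat.zero_le n, 0, p0.symm⟩
  let k := Nat.findGreatest (fun i => p i ∈ Set.range f) n
  have hk : p k ∈ Set.range f :=
    Nat.findGreatest_spec (P := fun i => p i ∈ Set.range f) (Nat.zero_le n) ⟨0, p0.symm⟩
  have hkn : k ≤ n := Nat.findGreatest_le n
  obtain ⟨t, ht⟩ := hk
  refine ⟨t, n - k, fun i => p (k + i), ⟨by simpa using ht.symm, ?_, ?_, ?_, ?_⟩, ?_⟩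
  · intro i hi j hj hij
    have := pi (k + i) (by omega) (k + j) (by omega) hij
    omega
  · intro i hi
    have := pa (k + i) (by omega)
    rwa [add_assoc] at this
  · intro i hi
    exact_mod_cast pm (k + i) (by omega)
  · intro i hi hpos
    exact Nat.findGreatest_is_greatest (P := fun i => p i ∈ Set.range f) (n := n) (k := k + i)
      (show k < k + i by omega) (by omega)
  · show p (k + (n - k)) = v
    rw [show k + (n - k) = n by omega, pn]

omit [DecidableEq V] in
/-- Without cross paths of length `l`, labels along a leaving path are those of the cycle read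
backwards from its start. -/
lemma Leaving.label {β : Type*} (hc : ZCyc G c f) (hfT : ∀ i, f i ∈ T) {φ : V → β} {l : ℕ}
    (hlc : l < c) (hl1 : 1 ≤ l) (hno : ∀ u v, PathLen G (T : Set V) u v l → φ u = φ v)
    {t : ℤ} {q : ℕ → V} : ∀ n, Leaving G T f t n q → φ (q n) = φ (f (t - n)) := by
  have hsub : ∀ (a : ℤ) (x : ℕ), {v | ∃ i : ℤ, a ≤ i ∧ i ≤ a + x ∧ f i = v} ⊆ (T : Set V) := by
    rintro a x v ⟨i, -, -, rfl⟩
    exact_mod_cast hfT i
  have hper : ∀ a, φ (f a) = φ (f (a + l)) := fun a =>
    hno _ _ ((hc.path_up a l hlc).mono (hsub a l))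
  intro n
  induction n using Nat.strong_induction_on with
  | _ n ih =>
  intro h
  rcases Nat.lt_or_ge l n with hn | hn
  · have hp : PathLen G (T : Set V) (q (n - l)) (q n) l := by
      refine ⟨fun i => q (n - l + i), by simp, ?_, ?_, ?_, ?_⟩
      · show q (n - l + l) = q n
        rw [show n - l + l = n by omega]
      · intro i hi j hj hij
        have := h.inj (n - l + i) (by omega) (n - l + j) (by omega) hij
        omega
      · intro i hi
        have := h.adj (n - l + i) (by omega)
        rwa [add_assoc] at this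
      · intro i hi
        exact_mod_cast h.mem _ (by omega)
    have h1 := ih (n - l) (by omega) (h.cut (by omega))
    have h2 := hper (t - n)
    have e : t - ((n - l : ℕ) : ℤ) = t - n + l := by omega
    rw [← hno _ _ hp, h1, e, ← h2]
  · have hq : PathLen G {v | ∃ i ≤ n, q i = v} (q n) (f t) n := by
      have : PathLen G {v | ∃ i ≤ n, q i = v} (q 0) (q n) n :=
        ⟨q, rfl, rfl, h.inj, h.adj, fun i hi => ⟨i, hi, rfl⟩⟩
      rw [h.start] at this
      exact this.reverse
    have hp := hq.append' (hc.path_up t (l - n) (by omega)) (U := (T : Set V)) (by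
        rintro x ⟨i, hi, rfl⟩ ⟨j, -, -, hj⟩
        rcases Nat.eq_zero_or_pos i with rfl | hpos
        · exact h.start
        · exact absurd ⟨j, hj⟩ (h.off i hi hpos))
      (Set.union_subset (by rintro x ⟨i, hi, rfl⟩; exact_mod_cast h.mem i hi) (hsub _ _))
    rw [show n + (l - n) = l by omega] at hp
    have h2 := hper (t - n)
    have e : t + ((l - n : ℕ) : ℤ) = t - n + l := by omega
    rw [hno _ _ hp, e, ← h2]

/-- A connected set that is far from bipartite and contains a cycle with a chord has cross paths
of every length below the cycle length, for every nonconstant labelling. -/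
theorem cross_of_chord_cycle {β : Type*} (hconn : Conn G (T : Set V))
    (hbip : 2 * aNum G T < T.card) (hc : ZCyc G c f) (hfT : ∀ i, f i ∈ T) {u : ℤ} {s : ℕ}
    (hs2 : 2 ≤ s) (hsc : s + 2 ≤ c) (hchord : G.Adj (f u) (f (u + s))) (φ : V → β)
    (hφ : ∃ a ∈ T, ∃ b ∈ T, φ a ≠ φ b) {l : ℕ} (hl1 : 1 ≤ l) (hlc : l < c) :
    ∃ a b, φ a ≠ φ b ∧ PathLen G (T : Set V) a b l := by
  classical
  by_contra hcon
  have hno : ∀ a b, PathLen G (T : Set V) a b l → φ a = φ b := fun a b h => by
    by_contra hne
    exact hcon ⟨a, b, hne, h⟩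
  have hrange : Set.range f ⊆ (T : Set V) := by
    rintro v ⟨i, rfl⟩
    exact_mod_cast hfT i
  -- every vertex is labelled like a vertex of the cycle
  have hlike : ∀ v ∈ T, ∃ t, φ v = φ (f t) := by
    intro v hv
    obtain ⟨t, n, q, hq, rfl⟩ := exists_leaving hconn hfT hv
    exact ⟨t - n, hq.label hc hfT hlc hl1 hno n⟩
  -- labels differing from a given one alternate, and chords are odd
  have halt : ∀ j, (∃ i, φ (f i) ≠ φ (f j)) → ∀ (u : ℤ) (s : ℕ), 2 ≤ s → s + 2 ≤ c →
      G.Adj (f u) (f (u + s)) →
      (Odd s ∧ Even c) ∧ ∀ t, φ (f t) = φ (f j) ↔ φ (f (t + 1)) ≠ φ (f j) := by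
    rintro j ⟨i, hi⟩ u s h2 h3 hadj
    rcases hc.cross_paths_any (fun v => φ v = φ (f j)) ⟨j, i, rfl, hi⟩ h2 h3 hadj hl1 hlc with
      ⟨a, b, hab, hp⟩ | ⟨hce, -, hs, ht⟩
    · exact absurd (by rw [hno _ _ (hp.mono hrange)]) hab
    · exact ⟨⟨hs, hce⟩, ht⟩
  obtain ⟨a, ha, b, hb, hab⟩ := hφ
  obtain ⟨ta, hta⟩ := hlike a ha
  obtain ⟨tb, htb⟩ := hlike b hb
  have hne : φ (f ta) ≠ φ (f tb) := by rw [← hta, ← htb]; exact hab
  obtain ⟨-, hA⟩ := halt ta ⟨tb, hne.symm⟩ u s hs2 hsc hchord
  obtain ⟨-, hB⟩ := halt tb ⟨ta, hne⟩ u s hs2 hsc hchord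
  have hflip : ∀ t, φ (f t) ≠ φ (f (t + 1)) := by
    intro t e
    have := hA t
    rw [e] at this
    tauto
  have htwo : ∀ t, φ (f t) = φ (f ta) ∨ φ (f t) = φ (f tb) := by
    intro t
    obtain ⟨i0, hi0, hq⟩ : ∃ e : ℤ, (e = 0 ∨ e = 1) ∧ Even (t - tb - e) := by
      rcases Int.even_or_odd (t - tb) with h | h
      · exact ⟨0, Or.inl rfl, by simpa using h⟩
      · exact ⟨1, Or.inr rfl, by obtain ⟨r, hr⟩ := h; exact ⟨r, by omega⟩⟩
    have per : ∀ j, (∀ t, φ (f t) = φ (f j) ↔ φ (f (t + 1)) ≠ φ (f j)) → ∀ w r : ℤ,
        φ (f w) = φ (f j) ↔ φ (f (w + 2 * r)) = φ (f j) := by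
      intro j hj w r
      have h2 : ∀ x, φ (f x) = φ (f j) ↔ φ (f (x + ((2 : ℕ) : ℤ))) = φ (f j) := by
        intro x
        rw [hj x]
        have e1 : x + 1 + 1 = x + ((2 : ℕ) : ℤ) := by push_cast; ring
        have := hj (x + 1)
        rw [e1] at this
        constructor
        · intro hne'
          by_contra h'
          exact hne' (this.2 h')
        · intro heq h'
          exact this.1 h' heq
      have := periodic_sub (P := fun x => φ (f x) = φ (f j)) h2 r w
      simpa using this
    obtain ⟨r, hr⟩ := hq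
    rcases hi0 with rfl | rfl
    · right
      have := (per tb hB tb r).1 rfl
      rwa [show tb + 2 * r = t by omega] at this
    · left
      have h1 : φ (f (tb + 1)) = φ (f ta) := by
        by_contra h'
        exact hne.symm ((hA tb).2 h')
      have := (per ta hA (tb + 1) r).1 h1
      rwa [show tb + 1 + 2 * r = t by omega] at this
  -- every edge of `T` is bichromatic
  have hedge : ∀ x ∈ T, ∀ y ∈ T, G.Adj x y → φ x ≠ φ y := by
    intro x hx y hy hxy
    by_cases hyC : y ∈ Set.range f
    · by_cases hxC : x ∈ Set.range f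
      · obtain ⟨i, rfl⟩ := hxC
        obtain ⟨j, rfl⟩ := hyC
        intro e
        obtain ⟨d, hd, q, hq⟩ := exists_congr_Ico (d := c) (by have := hc.three_le; omega) j i
        have hper : f j = f (i + d) := by
          have := (show Function.Periodic f (c : ℤ) from hc.periodic).zsmul q (i + d)
          rw [hq, smul_eq_mul] at *
          rw [show i + d + (c : ℤ) * q = i + d + q * c by ring]
          exact this
        rw [hper] at e hxy
        rcases Nat.eq_zero_or_pos d with rfl | hd0
        · simp at hxy
        · by_cases hd1 : d = 1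
          · subst hd1; exact hflip i (by simpa using e)
          by_cases hd2 : d + 1 = c
          · have := hflip (i + d)
            rw [show i + (d : ℤ) + 1 = i + c by omega, hc.periodic] at this
            exact this e.symm
          obtain ⟨⟨hodd, -⟩, hI⟩ := halt i ⟨i + 1, (hflip i).symm⟩ i d (by omega) (by omega) hxy
          obtain ⟨r, hr⟩ := hodd
          have h2 : ∀ w, φ (f w) = φ (f i) ↔ φ (f (w + ((2 : ℕ) : ℤ))) = φ (f i) := by
            intro w
            rw [hI w]
            have e1 : w + 1 + 1 = w + ((2 : ℕ) : ℤ) := by push_cast; ring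
            have := hI (w + 1)
            rw [e1] at this
            constructor
            · intro hne'
              by_contra h'
              exact hne' (this.2 h')
            · intro heq h'
              exact this.1 h' heq
          have := (periodic_sub (P := fun x => φ (f x) = φ (f i)) h2 (r : ℤ) (i + 1)).not.1
            ((hI i).1 rfl)
          apply this
          rw [show i + 1 + ((2 : ℕ) : ℤ) * (r : ℤ) = i + d by omega]
          exact e.symm
      · obtain ⟨t, rfl⟩ := hyC
        have hq : Leaving G T f t 0 (fun _ => f t) :=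
          ⟨rfl, fun i hi j hj _ => by omega, fun i hi => absurd hi (Nat.not_lt_zero i),
            fun _ _ => hy, fun i hi hpos => by omega⟩
        have h' := hq.extend hx hxy.symm hxC (fun i _ e => hxC ⟨t, e⟩)
        have := h'.label hc hfT hlc hl1 hno
        simp at this
        rw [this]
        have := hflip (t - 1)
        rwa [show t - 1 + 1 = t by ring] at this
    · obtain ⟨t, n, q, hq, rfl⟩ := exists_leaving hconn hfT hx
      by_cases hin : ∃ i ≤ n, q i = y
      · obtain ⟨i, hi, rfl⟩ := hin
        have hi0 : 0 < i := by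
          rcases Nat.eq_zero_or_pos i with rfl | h
          · exact absurd ⟨t, hq.start.symm⟩ hyC
          · exact h
        have hine : i < n := by
          rcases lt_or_eq_of_le hi with h | rfl
          · exact h
          · exact absurd rfl hxy.ne
        have hxoff : q n ∉ Set.range f := hq.off n le_rfl (by omega)
        have h' := (hq.cut hi).extend hx hxy.symm hxoff (fun j hj e => by
          have := hq.inj j (by omega) n le_rfl e; omega)
        have h1 := (hq.cut hi).label hc hfT hlc hl1 hno
        have h2 := h'.label hc hfT hlc hl1 hno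
        simp at h2
        rw [h1, h2]
        have := hflip (t - (i + 1 : ℕ))
        rw [show t - ((i + 1 : ℕ) : ℤ) + 1 = t - i by omega] at this
        push_cast at this
        exact this
      · push Not at hin
        have h' := hq.extend hy hxy hyC hin
        have h1 := hq.label hc hfT hlc hl1 hno
        have h2 := h'.label hc hfT hlc hl1 hno
        simp at h2
        rw [h1, h2]
        have := hflip (t - (n + 1 : ℕ))
        rw [show t - ((n + 1 : ℕ) : ℤ) + 1 = t - n by omega] at this
        push_cast at this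
        exact this.symm
  have hval : ∀ v ∈ T, φ v = φ (f ta) ∨ φ v = φ (f tb) := by
    intro v hv
    obtain ⟨t, ht⟩ := hlike v hv
    rw [ht]
    exact htwo t
  have hind : ∀ (p : V → Prop) [DecidablePred p], (∀ x ∈ T, ∀ y ∈ T, p x → p y → φ x = φ y) →
      (T.filter p).card ≤ aNum G T := by
    intro p _ hp
    refine card_le_aNum (Finset.filter_subset _ _) ?_
    intro x hx y hy _ hadj
    simp at hx hy
    exact hedge x hx.1 y hy.1 hadj (hp x hx.1 y hy.1 hx.2 hy.2)
  have h1 := hind (fun v => φ v = φ (f ta)) (fun x _ y _ hx hy => hx.trans hy.symm)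
  have h2 := hind (fun v => ¬ φ v = φ (f ta)) (fun x hx y hy hx' hy' =>
    ((hval x hx).resolve_left hx').trans ((hval y hy).resolve_left hy').symm)
  have h3 : (T.filter (fun v => φ v = φ (f ta))).card +
      (T.filter (fun v => ¬ φ v = φ (f ta))).card = T.card :=
    Finset.card_filter_add_card_filter_not _
  omega

end Vale.Agent.P048
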