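import Vale.Agent.P048.Full.Spec
import Vale.Agent.P048.Full.CrossPaths

/-!
Every nonconstant labelling of a core has cross paths of every length below the cycle length.
-/

namespace Vale.Agent.P048.Full

open Finset

variable {V : Type*} {G : SimpleGraph V}

/-- Cores have cross paths of every length below the cycle length. -/
theorem crossSpec {m : ℕ} (hm : 6 ≤ m) : CrossSpec G m := by
  classical
  intro T c f hT P ⟨x, hx, hPx⟩ ⟨y, hy, hPy⟩ l hl1 hlc
  obtain ⟨u, s, hs2, hsc, hadj⟩ := hT.chord
  have hbip : 2 * aNum G T < T.card := by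
    have := hT.dense
    have : 4 * aNum G T ≤ (m - 2) * aNum G T := Nat.mul_le_mul_right _ (by omega)
    omega
  obtain ⟨a, b, hab, hp⟩ := cross_of_chord_cycle hT.conn hbip hT.cyc hT.mem hs2 hsc hadj P
    ⟨x, hx, y, hy, fun e => hPy (e.mp hPx)⟩ hl1 hlc
  by_cases ha : P a
  · exact ⟨a, b, ha, fun hb => hab (propext (iff_of_true ha hb)), hp⟩
  · refine ⟨b, a, ?_, ha, hp.reverse⟩
    by_contra hb
    exact hab (propext (iff_of_false ha hb))

end Vale.Agent.P048.Full
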