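import Vale.Agent.P048.Full.Spec
import Vale.Agent.P048.Dirac

/-!
A dense set without a dense clique contains a core: a connected dense set with a long cycle that
has a chord.
-/

namespace Vale.Agent.P048.Full

open Finset

variable {V : Type*} [DecidableEq V] {G : SimpleGraph V}

/-- Inclusion-minimal among the sets with `D · α < 2 · card`. -/
structure DMin (G : SimpleGraph V) (D : ℕ) (T : Finset V) : Prop where
  dense : D * aNum G T < 2 * T.card
  sub : ∀ U : Finset V, U ⊂ T → 2 * U.card ≤ D * aNum G U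

lemma exists_dMin {D : ℕ} : ∀ Z : Finset V, D * aNum G Z < 2 * Z.card →
    ∃ T ⊆ Z, DMin G D T := by
  intro Z
  induction Z using Finset.strongInduction with
  | H Z ih =>
    intro hZ
    by_cases h : ∀ U : Finset V, U ⊂ Z → 2 * U.card ≤ D * aNum G U
    · exact ⟨Z, subset_rfl, hZ, h⟩
    · push Not at h
      obtain ⟨U, hU, hd⟩ := h
      obtain ⟨T, hT, hT'⟩ := ih U hU hd
      exact ⟨T, hT.trans hU.subset, hT'⟩

lemma ssubset_of_card_lt {A T : Finset V} (h : A ⊆ T) (hc : A.card < T.card) : A ⊂ T :=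
  (Finset.ssubset_iff_subset_ne).2 ⟨h, fun e => by rw [e] at hc; omega⟩

lemma DMin.conn {D : ℕ} {T : Finset V} (h : DMin G D T) : Conn G (T : Set V) := by
  by_contra hn
  obtain ⟨A, B, hA, hB, hAne, hBne, hd, hac, hcard, -⟩ := Conn.exists_separation hn
  have := card_pos.2 hAne
  have := card_pos.2 hBne
  have h1 := h.sub A (ssubset_of_card_lt hA (by omega))
  have h2 := h.sub B (ssubset_of_card_lt hB (by omega))
  have h3 := Nat.mul_le_mul_left D (aNum_add_le hA hB hd hac)
  rw [Nat.mul_add] at h3
  have := h.dense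
  omega

lemma DMin.conn_erase {D : ℕ} (hD : 2 ≤ D) {T : Finset V} (h : DMin G D T) {v : V} (hv : v ∈ T) :
    Conn G ((T : Set V) \ {v}) := by
  rw [← Finset.coe_erase]
  by_contra hn
  obtain ⟨A, B, hA, hB, hAne, hBne, hd, hac, hcard, -⟩ := Conn.exists_separation hn
  have hA' : A ⊆ T := hA.trans (erase_subset _ _)
  have hB' : B ⊆ T := hB.trans (erase_subset _ _)
  have hvA : v ∉ A := fun h' => by simpa using hA h'
  have hvB : v ∉ B := fun h' => by simpa using hB h'
  rw [card_erase_of_mem hv] at hcard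
  have := card_pos.2 hAne
  have := card_pos.2 hBne
  have h1 := h.sub A (ssubset_of_card_lt hA' (by omega))
  have h2 := h.sub B (ssubset_of_card_lt hB' (by omega))
  have h3 := h.sub (insert v A) (ssubset_of_card_lt (insert_subset hv hA')
    (by rw [card_insert_of_notMem hvA]; omega))
  have h4 := h.sub (insert v B) (ssubset_of_card_lt (insert_subset hv hB')
    (by rw [card_insert_of_notMem hvB]; omega))
  rw [card_insert_of_notMem hvA] at h3
  rw [card_insert_of_notMem hvB] at h4
  have hab := aNum_add_le hA' hB' hd hac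
  have hdense := h.dense
  -- some side does not gain by adding `v`
  have key : aNum G (insert v A) ≤ aNum G A ∨ aNum G (insert v B) ≤ aNum G B ∨
      aNum G A + aNum G B + 1 ≤ aNum G T := by
    by_contra hno
    push Not at hno
    obtain ⟨hA1, hB1, hT1⟩ := hno
    have big : ∀ X : Finset V, aNum G X < aNum G (insert v X) → v ∉ X →
        ∃ I ⊆ X, G.IsIndepSet (I : Set V) ∧ (∀ x ∈ I, ¬ G.Adj v x) ∧ aNum G X ≤ I.card := by
      intro X hX hvX
      obtain ⟨I, hI, hIi, hIc⟩ := exists_max_indep (G := G) (insert v X)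
      have hvI : v ∈ I := by
        by_contra hvI
        have := card_le_aNum (G := G) (S := X) (fun x hx => by
          rcases mem_insert.1 (hI hx) with rfl | h'
          · exact absurd hx hvI
          · exact h') hIi
        omega
      refine ⟨I.erase v, fun x hx => ?_, hIi.mono (by simp), fun x hx hadj => ?_, ?_⟩
      · obtain ⟨hne, hx'⟩ := mem_erase.1 hx
        exact (mem_insert.1 (hI hx')).resolve_left hne
      · obtain ⟨hne, hx'⟩ := mem_erase.1 hx
        exact hIi hvI hx' (Ne.symm hne) hadj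
      · rw [card_erase_of_mem hvI]; omega
    obtain ⟨I, hI, hIi, hIv, hIc⟩ := big A hA1 hvA
    obtain ⟨J, hJ, hJi, hJv, hJc⟩ := big B hB1 hvB
    have hu := indep_union hIi hJi (fun a ha b hb => hac a (hI ha) b (hJ hb))
    have hnv : v ∉ I ∪ J := by
      simp only [mem_union, not_or]
      exact ⟨fun h' => hvA (hI h'), fun h' => hvB (hJ h')⟩
    have hall := card_le_aNum (G := G) (S := T) (I := {v} ∪ (I ∪ J))
      (union_subset (by simpa using hv) (union_subset (hI.trans hA') (hJ.trans hB')))
      (indep_union (by simp [SimpleGraph.isIndepSet_iff]) hu (by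
        intro a ha b hb
        simp at ha hb
        subst ha
        rcases hb with hb | hb
        · exact hIv b hb
        · exact hJv b hb))
    rw [card_union_of_disjoint (by simpa using hnv),
      card_union_of_disjoint (Disjoint.mono hI hJ hd), card_singleton] at hall
    omega
  rcases key with hk | hk | hk
  · have e1 := Nat.mul_le_mul_left D hk
    have e2 := Nat.mul_le_mul_left D hab
    rw [Nat.mul_add] at e2
    omega
  · have e1 := Nat.mul_le_mul_left D hk
    have e2 := Nat.mul_le_mul_left D hab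
    rw [Nat.mul_add] at e2
    omega
  · have e2 := Nat.mul_le_mul_left D hk
    rw [Nat.mul_add, Nat.mul_add, Nat.mul_one] at e2
    omega

lemma DMin.minDeg {D : ℕ} {T : Finset V} (h : DMin G D T) : MinDeg G T (D / 2) := by
  classical
  intro v hv
  refine ⟨T.filter (G.Adj v), filter_subset _ _, ?_, fun w hw => (mem_filter.1 hw).2⟩
  set U := T.filter (fun w => w ≠ v ∧ ¬ G.Adj v w) with hU
  have hUs : U ⊂ T := (Finset.ssubset_iff_of_subset (filter_subset _ _)).2
    ⟨v, hv, by simp [hU]⟩
  have hlt : aNum G U + 1 ≤ aNum G T := by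
    obtain ⟨I, hI, hIi, hIc⟩ := exists_max_indep (G := G) U
    have hvI : v ∉ I := fun h' => by
      have := hI h'
      simp [hU] at this
    rw [← hIc, ← card_insert_of_notMem hvI, insert_eq]
    refine card_le_aNum (union_subset (by simpa using hv) (hI.trans hUs.subset))
      (indep_union (by simp [SimpleGraph.isIndepSet_iff]) hIi ?_)
    intro a ha b hb
    simp at ha
    subst ha
    exact (mem_filter.1 (hI hb)).2.2
  have h1 := h.sub U hUs
  have h2 := Nat.mul_le_mul_left D hlt
  rw [Nat.mul_add, Nat.mul_one] at h2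
  have h3 := h.dense
  have hsplit : T ⊆ T.filter (G.Adj v) ∪ U ∪ {v} := by
    intro w hw
    simp [hU]
    tauto
  have h4 := (card_le_card hsplit).trans (card_union_le _ _)
  have h5 := card_union_le (T.filter (G.Adj v)) U
  simp only [card_singleton] at h4
  omega

/-- A cycle with a vertex having three neighbours on it has a chord. -/
lemma exists_chord {c : ℕ} {f : ℤ → V} (hc : ZCyc G c f) {i : ℤ} {N : Finset V}
    (hN : 3 ≤ N.card) (hw : ∀ w ∈ N, G.Adj (f i) w ∧ ∃ j, f j = w) :
    ∃ (u : ℤ) (s : ℕ), 2 ≤ s ∧ s + 2 ≤ c ∧ G.Adj (f u) (f (u + s)) := by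
  obtain ⟨w, hwN, hw1⟩ : ∃ w ∈ N, w ∉ ({f (i + 1), f (i - 1)} : Finset V) := by
    refine exists_mem_notMem_of_card_lt_card ?_
    have := card_le_two (a := f (i + 1)) (b := f (i - 1))
    omega
  simp only [mem_insert, mem_singleton, not_or] at hw1
  obtain ⟨hadj, j, rfl⟩ := hw w hwN
  obtain ⟨s, hs0, hsc, hse⟩ := (hc.shift i).exists_rep (j - i)
  simp only [sub_add_cancel] at hse
  obtain ⟨S, rfl⟩ : ∃ S : ℕ, s = (S : ℤ) := ⟨s.toNat, by omega⟩
  rw [hse, add_comm (S : ℤ) i] at hadj hw1
  have hS0 : S ≠ 0 := fun e => by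
    subst e
    simp at hadj
  have hS1 : S ≠ 1 := fun e => hw1.1 (by subst e; simp)
  have hS2 : S + 1 ≠ c := fun e => hw1.2 (by
    have e' : i + (S : ℤ) = i - 1 + (c : ℤ) := by omega
    rw [e', hc.periodic])
  exact ⟨i, S, by omega, by omega, hadj⟩

/-- Dense sets without a dense clique contain a core. -/
theorem coreSpec {m : ℕ} (hm : 8 ≤ m) : CoreSpec G m := by
  intro D Z hD hZ hK
  obtain ⟨T, hTZ, hT⟩ := exists_dMin Z hZ
  have hdense := hT.dense
  have hne : T.Nonempty := card_pos.1 (by omega)
  have h2 : 2 ≤ aNum G T := by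
    by_contra h
    have hpos := aNum_pos (G := G) hne
    have e : aNum G T = 1 := by omega
    rw [e, Nat.mul_one] at hdense
    have := hK T hTZ (eq_clique_of_aNum_le_one (by omega))
    omega
  have h3 := Nat.mul_le_mul_left D h2
  have hTC : TwoConn G T :=
    ⟨by omega, hT.conn, fun v hv => hT.conn_erase (by omega) hv⟩
  obtain ⟨c, f, hkc, hc, hfT, i, N, hNk, hN⟩ :=
    exists_cycle_rich hTC hT.minDeg (by omega) (by omega)
  refine ⟨T, hTZ, c, f, hT.conn, by omega,
    lt_of_le_of_lt (Nat.mul_le_mul_right _ hD) hdense, ?_, hc, hfT,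
    exists_chord hc (by omega) hN, ?_⟩
  · intro v hv
    obtain ⟨N', h1, h2', h3'⟩ := hT.minDeg v hv
    exact ⟨N', h1, (Nat.div_le_div_right hD).trans h2', h3'⟩
  · have := Nat.div_le_div_right (c := 2) hD
    omega

end Vale.Agent.P048.Full
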