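import Vale.Agent.P048.Full.Exits
import Vale.Agent.P048.Full.Spec

/-!
The exit bound in the form of the module interface.
-/

namespace Vale.Agent.P048.Full

open Finset

variable {V : Type*} [DecidableEq V] {G : SimpleGraph V}

omit [DecidableEq V] in
lemma exits_le_nbrOut {S K J : Finset V} {ρ : V → V} {m : ℕ}
    (h : Exits G S K m J ρ) : K.card ≤ aNum G (nbrOut G S K K) := by
  classical
  rw [← h.card]
  refine card_le_aNum (fun j hj => ?_) h.indep
  simp only [nbrOut, Finset.mem_filter, Finset.mem_sdiff]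
  exact ⟨h.mem j hj, ρ j, h.root j hj⟩

/-- `ExitSpec`. -/
theorem exitSpec {m : ℕ} (hm : 8 ≤ m) : ExitSpec G m := by
  intro hnc S K hdeg hKS hK hr
  obtain ⟨J, ρ, h⟩ := exists_exits hK (by omega) hnc hdeg hKS hr (by omega)
  exact exits_le_nbrOut h

end Vale.Agent.P048.Full
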