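import Vale.Agent.P048.Full.XLemma

/-!
Exits of a large clique: as many independent outside neighbours as the clique has vertices, such
that of any two with the same neighbour in the clique one has a short escape to the clique.
-/

namespace Vale.Agent.P048

open Finset

variable {V : Type*} [DecidableEq V] {G : SimpleGraph V} {S K : Finset V} {L : List V} {m : ℕ}
  {u v w : V}

/-- A short path from `v ≠ ρ e` in `K` to `e`, meeting `J` only in `e`. -/
def Esc (G : SimpleGraph V) (S K J : Finset V) (ρ : V → V) (m : ℕ) (e : V) : Prop :=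
  ∃ v P, v ∈ K ∧ v ≠ ρ e ∧ (v :: P).getLast? = some e ∧ (v :: P).Nodup ∧
    (v :: P).IsChain G.Adj ∧ (∀ x ∈ P, x ∈ S ∧ x ∉ K) ∧ (∀ x ∈ P, x ∈ J → x = e) ∧
    (6 ≤ K.card → P.length + 7 ≤ m)

/-- Independent neighbours of `K`, as many as its vertices, with roots in `K`. -/
structure Exits (G : SimpleGraph V) (S K : Finset V) (m : ℕ) (J : Finset V) (ρ : V → V) :
    Prop where
  indep : G.IsIndepSet (J : Set V)
  card : J.card = K.card
  mem : ∀ j ∈ J, j ∈ S ∧ j ∉ K
  root : ∀ j ∈ J, ρ j ∈ K ∧ G.Adj (ρ j) j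
  esc : ∀ i ∈ J, ∀ j ∈ J, i ≠ j → ρ i = ρ j → Esc G S K J ρ m i ∨ Esc G S K J ρ m j

open scoped Classical in
/-- The successor of a vertex in a list. -/
noncomputable def succIn (L : List V) (x : V) : V :=
  if h : ∃ a, ∃ A C, L = A ++ x :: a :: C then h.choose else x

omit [DecidableEq V] in
lemma succIn_eq (hnd : L.Nodup) {A C : List V} {x a : V} (e : L = A ++ x :: a :: C) :
    succIn L x = a := by
  classical
  have hex : ∃ a, ∃ A C, L = A ++ x :: a :: C := ⟨a, A, C, e⟩
  obtain ⟨A', C', e'⟩ := hex.choose_spec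
  unfold succIn
  rw [dif_pos hex]
  exact ((succ_unique hnd e e').1).symm

variable (hK : G.IsClique (K : Set V)) (hm : 3 ≤ m) (hnc : ¬ HasCyc G m)
include hK hm hnc

omit hK hm hnc in
lemma Ext.rep_succ (h : Ext G S K m L) {x : V} (hx : x ∈ repsF K L) :
    succIn L x ∈ K ∧ G.Adj (succIn L x) x := by
  obtain ⟨A, p, a, C, e, ha⟩ := Rep.decomp h.kl hx
  have hs : succIn L x = a := succIn_eq h.kl.nodup (A := A ++ [p]) (C := C) (by simp [e])
  rw [hs]
  have hc := h.kl.chain
  rw [e, List.isChain_append] at hc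
  exact ⟨ha, hc.2.1.tail.rel.symm⟩

omit hK hm hnc in
lemma Ext.rep_root_inj (h : Ext G S K m L) {x y : V} (hx : x ∈ repsF K L) (hy : y ∈ repsF K L)
    (e : succIn L x = succIn L y) : x = y := by
  obtain ⟨A, p, a, C, e1, -⟩ := Rep.decomp h.kl hx
  obtain ⟨A', p', a', C', e2, -⟩ := Rep.decomp h.kl hy
  rw [succIn_eq h.kl.nodup (A := A ++ [p]) (a := a) (C := C) (by simp [e1]),
    succIn_eq h.kl.nodup (A := A' ++ [p']) (a := a') (C := C') (by simp [e2])] at e
  subst e
  exact pred_unique h.kl.nodup (A := A ++ [p]) (x := a) (p := x) (C := C) (by simp [e1])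
    (A' := A' ++ [p']) (p' := y) (C' := C') (by simp [e2])

omit hK hm hnc in
/-- A representative escapes backwards along its segment. -/
lemma Ext.rep_esc (h : Ext G S K m L) {J : Finset V} {ρ : V → V} {x : V}
    (hx : x ∈ repsF K L) (hρ : ρ x = succIn L x)
    (hJ : ∀ j ∈ J, j ∈ L → j ∈ repsF K L) : Esc G S K J ρ m x := by
  obtain ⟨A, p, a, C, e, ha⟩ := Rep.decomp h.kl hx
  have hxK := (mem_repsF.1 hx).2
  have hA : ∃ z ∈ A ++ [p], z ∈ K := by
    cases A with
    | nil => exact ⟨p, by simp, h.kl.head p (by simp [e])⟩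
    | cons b A => exact ⟨b, by simp, h.kl.head b (by simp [e])⟩
  obtain ⟨A1, v, B, eA, hv, hB⟩ := exists_last hA
  have eL : L = A1 ++ v :: (B ++ [x]) ++ a :: C := by
    have : A ++ p :: x :: a :: C = (A ++ [p]) ++ x :: a :: C := by simp
    rw [e, this, eA]; simp
  have hnd := h.kl.nodup
  have hch := h.kl.chain
  rw [eL] at hnd hch
  rw [List.isChain_append] at hch
  refine ⟨v, B ++ [x], hv, ?_, by simp [List.getLast?_cons], ?_, ?_, ?_, ?_, ?_⟩
  · rw [hρ, succIn_eq h.kl.nodup (A := A1 ++ v :: B) (a := a) (C := C) (by simp [eL])]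
    intro hva
    exact (List.nodup_append.1 hnd).2.2 v (by simp) a (by simp) hva
  · exact (List.nodup_append.1 (List.nodup_append.1 hnd).1).2.1
  · exact (List.isChain_append.1 hch.1).2.1
  · intro y hy
    refine ⟨h.kl.mem y (by rw [eL]; simp at hy ⊢; tauto), ?_⟩
    simp at hy
    rcases hy with hy | rfl
    · exact hB y hy
    · exact hxK
  · intro y hy hyJ
    simp at hy
    rcases hy with hy | rfl
    · exfalso
      have hyR := hJ y hyJ (by rw [eL]; simp [hy])
      obtain ⟨B1, B2, rfl⟩ := List.append_of_mem hy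
      have hn := (mem_repsF.1 hyR).1.next h.kl.nodup (A := A1 ++ v :: B1)
        (C := B2 ++ [x] ++ a :: C) (by simp [eL])
      cases B2 with
      | nil => exact hxK (hn x (by simp))
      | cons b B2 => exact hB b (by simp) (hn b (by simp))
    · rfl
  · intro hr
    have hd : Disjoint K (B ++ [x]).toFinset := by
      rw [Finset.disjoint_left]
      intro y hy hy'
      rw [List.mem_toFinset, List.mem_append, List.mem_singleton] at hy'
      rcases hy' with hy' | hy'
      · exact hB y hy' hy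
      · exact hxK (hy' ▸ hy)
    have hsub : K ∪ (B ++ [x]).toFinset ⊆ L.toFinset := by
      intro y hy
      rw [List.mem_toFinset]
      rcases Finset.mem_union.1 hy with hy | hy
      · exact h.cov y hy
      · rw [eL]; simp at hy ⊢; tauto
    have h1 := Finset.card_le_card hsub
    have h2 : (B ++ [x]).Nodup :=
      (List.nodup_cons.1 (List.nodup_append.1 (List.nodup_append.1 hnd).1).2.1).2
    rw [Finset.card_union_of_disjoint hd, List.toFinset_card_of_nodup h.kl.nodup,
      List.toFinset_card_of_nodup h2] at h1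
    have := h.lt
    omega

/-- One neighbour for each port, no two adjacent. -/
lemma Ext.exits_regular (h : Ext G S K m L) (f : V → V)
    (hf : ∀ u ∈ portsF K L, f u ∈ outN G S L u)
    (hcross : ∀ u ∈ portsF K L, ∀ v ∈ portsF K L, u ≠ v → ¬ G.Adj (f u) (f v)) :
    ∃ J ρ, Exits G S K m J ρ := by
  classical
  have hex : ∀ y ∈ (portsF K L).image f, ∃ u ∈ portsF K L, f u = y := fun y hy => by
    simpa using hy
  let ρ : V → V := fun y =>
    if hy : y ∈ (portsF K L).image f then (hex y hy).choose else succIn L y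
  have houtL : ∀ y ∈ (portsF K L).image f, y ∉ L := fun y hy => by
    obtain ⟨u, hu, rfl⟩ := hex y hy
    exact (mem_outN.1 (hf u hu)).2.2
  have hρrep : ∀ x ∈ repsF K L, ρ x = succIn L x := fun x hx => by
    simp only [ρ]
    rw [dif_neg fun hh => houtL x hh (mem_repsF.1 hx).1.mem]
  have hρimg : ∀ y ∈ (portsF K L).image f, ρ y ∈ portsF K L ∧ f (ρ y) = y := fun y hy => by
    simp only [ρ, dif_pos hy]
    exact (hex y hy).choose_spec
  have hinj : ∀ u ∈ portsF K L, ∀ v ∈ portsF K L, f u = f v → u = v := by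
    intro u hu v hv e
    by_contra hne
    obtain ⟨h1, h2, h3⟩ := mem_outN.1 (hf u hu)
    exact h.one_stop hK hm hnc h1 h3 (mem_portsF.1 hu).1 (mem_portsF.1 hv).1 hne h2.symm
      (e ▸ (mem_outN.1 (hf v hv)).2.1.symm)
  set J := repsF K L ∪ (portsF K L).image f with hJ
  refine ⟨J, ρ, ?_, ?_, ?_, ?_, ?_⟩
  · intro x hx y hy hne hxy
    simp only [hJ, Finset.coe_union, Set.mem_union, Finset.mem_coe] at hx hy
    rcases hx with hx | hx <;> rcases hy with hy | hy
    · exact h.reps_indep hK hx hy hne hxy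
    · obtain ⟨u, hu, rfl⟩ := hex y hy
      obtain ⟨h1, h2, h3⟩ := mem_outN.1 (hf u hu)
      exact h.one_stop hK hm hnc h1 h3 (mem_portsF.1 hu).1 (mem_repsF.1 hx).1
        (fun e => (mem_repsF.1 hx).2 (e ▸ (mem_portsF.1 hu).2)) h2.symm hxy.symm
    · obtain ⟨u, hu, rfl⟩ := hex x hx
      obtain ⟨h1, h2, h3⟩ := mem_outN.1 (hf u hu)
      exact h.one_stop hK hm hnc h1 h3 (mem_portsF.1 hu).1 (mem_repsF.1 hy).1
        (fun e => (mem_repsF.1 hy).2 (e ▸ (mem_portsF.1 hu).2)) h2.symm hxy
    · obtain ⟨u, hu, rfl⟩ := hex x hx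
      obtain ⟨v, hv, rfl⟩ := hex y hy
      exact hcross u hu v hv (fun e => hne (e ▸ rfl)) hxy
  · rw [hJ, Finset.card_union_of_disjoint, Finset.card_image_of_injOn]
    · have := card_ports_add_reps h.kl h.cov; omega
    · intro u hu v hv e; exact hinj u hu v hv e
    · rw [Finset.disjoint_left]
      exact fun x hx hx' => houtL x hx' (mem_repsF.1 hx).1.mem
  · intro j hj
    rcases Finset.mem_union.1 hj with hj | hj
    · exact ⟨h.kl.mem j (mem_repsF.1 hj).1.mem, (mem_repsF.1 hj).2⟩
    · obtain ⟨u, hu, rfl⟩ := hex j hj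
      exact ⟨(mem_outN.1 (hf u hu)).1, fun hk => (mem_outN.1 (hf u hu)).2.2 (h.cov _ hk)⟩
  · intro j hj
    rcases Finset.mem_union.1 hj with hj | hj
    · rw [hρrep j hj]; exact h.rep_succ hj
    · obtain ⟨h1, h2⟩ := hρimg j hj
      have h3 := (mem_outN.1 (hf _ h1)).2.1
      rw [h2] at h3
      exact ⟨(mem_portsF.1 h1).2, h3⟩
  · intro i hi j hj hne e
    have hJL : ∀ j ∈ J, j ∈ L → j ∈ repsF K L := fun j hj hjL =>
      (Finset.mem_union.1 hj).resolve_right fun hh => houtL j hh hjL
    rcases Finset.mem_union.1 hi with hi | hi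
    · exact Or.inl (h.rep_esc hi (hρrep i hi) hJL)
    rcases Finset.mem_union.1 hj with hj | hj
    · exact Or.inr (h.rep_esc hj (hρrep j hj) hJL)
    exfalso
    apply hne
    rw [← (hρimg i hi).2, ← (hρimg j hj).2, e]

/-- Two ports with a cross edge leave one vertex unused. -/
lemma Ext.bad_length (h : Ext G S K m L) (hu : u ∈ portsF K L) (hv : v ∈ portsF K L) (hne : u ≠ v)
    {y z : V} (hy : y ∈ outN G S L u) (hz : z ∈ outN G S L v) (hyz : G.Adj y z) :
    L.length + 1 = m := by
  obtain ⟨hyS, huy, hyL⟩ := mem_outN.1 hy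
  obtain ⟨hzS, hvz, hzL⟩ := mem_outN.1 hz
  obtain ⟨L', g1, g2, -⟩ := h.kl.splice (Y := [y, z]) hK (mem_portsF.1 hu).1 (mem_portsF.1 hv).1 hne
    (by simp [hyz.ne]) (by simp [hyL, hzL]) (by simp [hyS, hzS]) (by simp [huy, hyz, hvz.symm])
  have hl : L'.length = L.length + 2 := by rw [g2.length_eq]; simp
  have hne' := g1.length_ne hK hm hnc
  have hlt := h.lt
  have := h.max L' g1 (fun k hk => g2.symm.subset (List.mem_append_left _ (h.cov k hk)))
  omega

/-- A block of one vertex cannot be left out next to a cross edge. -/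
lemma Ext.no_short (h : Ext G S K m L) (hl : L.length + 1 = m) {A C : List V} {x : V}
    (e : L = A ++ [x] ++ C) (hA : ∀ y ∈ A.getLast?, y ∈ K) (hC : ∀ y ∈ C.head?, y ∈ K)
    (hu : u ∈ portsF K L) (hv : v ∈ portsF K L) (hne : u ≠ v) (hxu : x ≠ u) (hxv : x ≠ v)
    {y z : V} (hy : y ∈ outN G S L u) (hz : z ∈ outN G S L v) (hyz : G.Adj y z) : False := by
  obtain ⟨L1, g1, g2, g3, g4, g5⟩ := h.skip_short hK e hA hC (mem_portsF.1 hu).1
    (by simpa using hxu.symm) (mem_portsF.1 hv).1 (by simpa using hxv.symm)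
  obtain ⟨hyS, huy, hyL⟩ := mem_outN.1 hy
  obtain ⟨hzS, hvz, hzL⟩ := mem_outN.1 hz
  refine g1.no_link hK hm hnc g4 g5 hne (Y := [y, z]) (by simp [hyz.ne]) ?_ (by simp [hyS, hzS])
    (by simp [huy, hyz, hvz.symm]) (by simp at g3 ⊢; omega)
  intro t ht hh
  simp at ht
  rcases ht with rfl | rfl
  · exact hyL (g2 _ hh)
  · exact hzL (g2 _ hh)

omit hK hm hnc in
lemma Ext.exists_two_run (h : Ext G S K m L) 
    (h1 : ∀ A p x a C, L = A ++ p :: x :: a :: C → x ∉ K → a ∈ K → p ∉ K) :
    (∃ A c p x a C, L = A ++ c :: p :: x :: a :: C ∧ c ∈ K ∧ p ∉ K ∧ x ∉ K ∧ a ∈ K) ∨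
    ((∀ x ∈ repsF K L, ∃ A c p a C,
        L = A ++ c :: p :: x :: a :: C ∧ p ∉ K ∧ a ∈ K ∧ c ∉ K) ∧
      (∀ (A : List V) (b c p x a : V) (C : List V), L = A ++ b :: c :: p :: x :: a :: C →
        b ∉ K → c ∉ K → p ∉ K → x ∉ K → a ∈ K →
        K.card + 3 * (repsF K L).card + 1 ≤ L.length) ∧
      K.card + 3 * (repsF K L).card ≤ L.length) := by
  classical
  refine or_iff_not_imp_left.2 fun hno => ?_
  push Not at hno
  have key : ∀ x ∈ repsF K L, ∃ A c p a C, L = A ++ c :: p :: x :: a :: C ∧ p ∉ K ∧ a ∈ K ∧ c ∉ K := by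
    intro x hx
    obtain ⟨A, p, a, C, e, ha⟩ := Rep.decomp h.kl hx
    have hxK := (mem_repsF.1 hx).2
    have hp := h1 A p x a C e hxK ha
    rcases List.eq_nil_or_concat A with rfl | ⟨A', c, rfl⟩
    · exact absurd (h.kl.head p (by simp [e])) hp
    · exact ⟨A', c, p, a, C, by simp [e], hp, ha,
        fun hc => hno A' c p x a C (by simp [e]) hc hp hxK ha⟩
  refine ⟨key, ?_⟩
  choose! A c p a C hkey using key
  have hcinj : Set.InjOn c (repsF K L : Set V) := by
    intro x hx y hy e
    obtain ⟨e1, -⟩ := hkey x hx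
    obtain ⟨e2, -⟩ := hkey y hy
    rw [← e] at e2
    obtain ⟨-, e3⟩ := succ_unique h.kl.nodup e1 e2
    simpa using (List.cons_eq_cons.1 e3).1
  have hd : Disjoint ((repsF K L).image c) (K ∪ (repsF K L ∪ penF K L)) := by
    rw [Finset.disjoint_left]
    intro z hz hz'
    simp only [Finset.mem_image] at hz
    obtain ⟨x, hx, rfl⟩ := hz
    obtain ⟨e1, hp, ha, hc⟩ := hkey x hx
    simp only [Finset.mem_union] at hz'
    rcases hz' with hz' | hz' | hz'
    · exact hc hz'
    · exact hp ((mem_repsF.1 hz').1.next h.kl.nodup e1 _ rfl)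
    · obtain ⟨-, A', y, b, C', e2, hy, hb⟩ := mem_penF.1 hz'
      obtain ⟨-, e3⟩ := succ_unique h.kl.nodup e1 e2
      have hxb : x = b := (List.cons_eq_cons.1 e3).1
      exact (mem_repsF.1 hx).2 (hxb ▸ hb)
  have hd1 : Disjoint K (repsF K L ∪ penF K L) := by
    rw [Finset.disjoint_left]
    intro x hx hx'
    rcases Finset.mem_union.1 hx' with hx' | hx'
    · exact (mem_repsF.1 hx').2 hx
    · exact (mem_penF.1 hx').1 hx
  have hsub : (repsF K L).image c ∪ (K ∪ (repsF K L ∪ penF K L)) ⊆ L.toFinset := by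
    intro z hz
    simp only [Finset.mem_union, Finset.mem_image] at hz
    rw [List.mem_toFinset]
    rcases hz with ⟨x, hx, rfl⟩ | hz | hz | hz
    · obtain ⟨e1, -⟩ := hkey x hx
      have h' : c x ∈ A x ++ c x :: p x :: x :: a x :: C x := by simp
      rwa [← e1] at h'
    · exact h.cov z hz
    · exact (mem_repsF.1 hz).1.mem
    · exact (mem_penF.1 hz).mem
  have h2 := card_repsF_le_penF h.kl h1
  refine ⟨fun A' b c' p' x' a' C' e hb hc' hp' hx' ha' => ?_, ?_⟩
  · have hbmem : b ∈ L := by rw [e]; simp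
    have hbnot : b ∉ (repsF K L).image c ∪ (K ∪ (repsF K L ∪ penF K L)) := by
      intro hh
      simp only [Finset.mem_union, Finset.mem_image] at hh
      rcases hh with ⟨y, hy, hyb⟩ | hh | hh | hh
      · obtain ⟨e1, -, -, -⟩ := hkey y hy
        rw [hyb] at e1
        obtain ⟨-, e3⟩ := succ_unique h.kl.nodup e e1
        have hyp : p' = y := (List.cons_eq_cons.1 e3).1
        exact hx' ((mem_repsF.1 (hyp ▸ hy)).1.next h.kl.nodup (A := A' ++ [b, c'])
          (C := x' :: a' :: C') (by simp [e]) x' rfl)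
      · exact hb hh
      · exact hc' ((mem_repsF.1 hh).1.next h.kl.nodup e c' rfl)
      · obtain ⟨-, A'', y, d, C'', e2, -, hd'⟩ := mem_penF.1 hh
        obtain ⟨-, e3⟩ := succ_unique h.kl.nodup e e2
        exact hp' ((List.cons_eq_cons.1 e3).1 ▸ hd')
    have := Finset.card_le_card (Finset.insert_subset (List.mem_toFinset.2 hbmem) hsub)
    rw [Finset.card_insert_of_notMem hbnot, Finset.card_union_of_disjoint hd,
      Finset.card_image_of_injOn hcinj, Finset.card_union_of_disjoint hd1,
      Finset.card_union_of_disjoint (disjoint_reps_penF h.kl),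
      List.toFinset_card_of_nodup h.kl.nodup] at this
    omega
  · have := Finset.card_le_card hsub
    rw [Finset.card_union_of_disjoint hd, Finset.card_image_of_injOn hcinj,
      Finset.card_union_of_disjoint hd1, Finset.card_union_of_disjoint (disjoint_reps_penF h.kl),
      List.toFinset_card_of_nodup h.kl.nodup] at this
    omega

/-- Without segments of two vertices a cross pair of isolated members has an independent choice. -/
lemma Ext.small_corner (h : Ext G S K m L) (hdeg : MinDeg G S (m - 1)) (hr : m / 2 ≤ K.card)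
    (h4 : 4 ≤ K.card) (hl : L.length + 1 = m) (hisocard : (isoF K L).card ≤ 2)
    (hu : Iso K L u) (hv : Iso K L v) (huv : u ≠ v)
    (hone : ∀ A p x a C, L = A ++ p :: x :: a :: C → x ∉ K → a ∈ K → p ∉ K)
    (hkey : ∀ x ∈ repsF K L, ∃ A c p a C,
        L = A ++ c :: p :: x :: a :: C ∧ p ∉ K ∧ a ∈ K ∧ c ∉ K)
    (hlong : ∀ (A : List V) (b c p x a : V) (C : List V), L = A ++ b :: c :: p :: x :: a :: C →
      b ∉ K → c ∉ K → p ∉ K → x ∉ K → a ∈ K →
      K.card + 3 * (repsF K L).card + 1 ≤ L.length)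
    (hall : ∀ s ∈ outN G S L u, ∀ t ∈ outN G S L v, G.Adj s t) :
    G.IsIndepSet (outN G S L u : Set V) ∧ (portsF K L).card ≤ (outN G S L u).card := by
  classical
  have hlt := h.lt
  have hiso2 := card_le_iso h.kl h.cov
  have hint := interior_bound h.kl h.cov
  have hsum := card_ports_add_reps h.kl h.cov
  have hpen := card_repsF_le_penF h.kl hone
  have hq : 1 ≤ (repsF K L).card := by omega
  obtain ⟨x, hxR⟩ := Finset.card_pos.1 (show 0 < (repsF K L).card by omega)
  have hxK := (mem_repsF.1 hxR).2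
  obtain ⟨A, c, p, a, C, e, hp, ha, hc⟩ := hkey x hxR
  have huP : u ∈ portsF K L := mem_portsF.2 ⟨hu.stop, hu.1⟩
  have hvP : v ∈ portsF K L := mem_portsF.2 ⟨hv.stop, hv.1⟩
  have hvL : 2 ≤ (outN G S L v).card ∧ 2 ≤ (outN G S L u).card := by
    obtain ⟨y, hy⟩ := Finset.card_pos.1 (show 0 < (outN G S L u).card by
      have := out_card h.kl hdeg hu.stop.mem ∅ (by simp); omega)
    obtain ⟨z, hz⟩ := Finset.card_pos.1 (show 0 < (outN G S L v).card by
      have := out_card h.kl hdeg hv.stop.mem ∅ (by simp); omega)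
    have h1 := out_card h.kl hdeg hu.stop.mem (penF K L) fun w hw =>
      ⟨(mem_penF.1 hw).mem, fun e => (mem_penF.1 hw).1 (e ▸ hu.1),
        not_adj_penult hK hm hnc h.kl hl hu hv.stop hv.1 huv hy hz (hall y hy z hz) (mem_penF.1 hw)⟩
    have h2 := out_card h.kl hdeg hv.stop.mem (penF K L) fun w hw =>
      ⟨(mem_penF.1 hw).mem, fun e => (mem_penF.1 hw).1 (e ▸ hv.1),
        not_adj_penult hK hm hnc h.kl hl hv hu.stop hu.1 huv.symm hz hy (hall y hy z hz).symm
          (mem_penF.1 hw)⟩
    omega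
  obtain ⟨y1, hy1⟩ := Finset.card_pos.1 (show 0 < (outN G S L u).card by omega)
  obtain ⟨z1, hz1, z2, hz2, hz12⟩ := Finset.one_lt_card.1 (show 1 < (outN G S L v).card by omega)
  obtain ⟨y2, hy2, hy12⟩ :=
    Finset.exists_mem_ne (show 1 < (outN G S L u).card by omega) y1
  have hdis : ∀ y ∈ outN G S L u, y ∉ outN G S L v := fun y hy hy' =>
    h.one_stop hK hm hnc (mem_outN.1 hy).1 (mem_outN.1 hy).2.2 hu.stop hv.stop huv
      (mem_outN.1 hy).2.1.symm (mem_outN.1 hy').2.1.symm
  rcases List.eq_nil_or_concat A with rfl | ⟨A', b, rfl⟩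
  · exact absurd (h.kl.head c (by simp [e])) hc
  by_cases hb : b ∈ K
  · exfalso
    obtain ⟨L1, g1, g2, g3, g4, g5⟩ := h.skip_short hK (A := A'.concat b) (D := [c, p, x])
      (C := a :: C) (by simp [e]) (by simp [hb]) (by simp [ha]) hu.stop
      (by simp; exact ⟨fun e => hc (e ▸ hu.1), fun e => hp (e ▸ hu.1), fun e => hxK (e ▸ hu.1)⟩)
      hv.stop
      (by simp; exact ⟨fun e => hc (e ▸ hv.1), fun e => hp (e ▸ hv.1), fun e => hxK (e ▸ hv.1)⟩)
    obtain ⟨a1, b1, c1⟩ := mem_outN.1 hy1
    obtain ⟨a2, b2, c2⟩ := mem_outN.1 hy2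
    obtain ⟨a3, b3, c3⟩ := mem_outN.1 hz1
    obtain ⟨a4, b4, c4⟩ := mem_outN.1 hz2
    have n1 : y1 ≠ z1 := fun e => hdis _ hy1 (e ▸ hz1)
    have n2 : y1 ≠ z2 := fun e => hdis _ hy1 (e ▸ hz2)
    have n3 : y2 ≠ z1 := fun e => hdis _ hy2 (e ▸ hz1)
    have n4 : y2 ≠ z2 := fun e => hdis _ hy2 (e ▸ hz2)
    refine g1.no_link hK hm hnc g4 g5 huv (Y := [y1, z1, y2, z2])
      (by simp [n1, n2, hy12.symm, n3.symm, hz12, n4]) ?_ (by simp [a1, a2, a3, a4])
      (by simp [b1, hall y1 hy1 z1 hz1, (hall y2 hy2 z1 hz1).symm, hall y2 hy2 z2 hz2, b4.symm])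
      (by simp at g3 ⊢; omega)
    intro t ht hh
    simp at ht
    rcases ht with rfl | rfl | rfl | rfl
    exacts [c1 (g2 _ hh), c3 (g2 _ hh), c2 (g2 _ hh), c4 (g2 _ hh)]
  · -- one segment of four vertices
    have hlong' := hlong A' b c p x a C (by simp [e]) hb hc hp hxK ha
    rcases List.eq_nil_or_concat A' with rfl | ⟨A'', d, rfl⟩
    · exact absurd (h.kl.head b (by simp [e])) hb
    have hd : d ∈ K := by
      by_contra hd
      have hnd := h.kl.nodup
      have hdk : Disjoint K [d, b, c, p, x].toFinset := by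
        rw [Finset.disjoint_right]
        intro t ht
        simp at ht
        rcases ht with rfl | rfl | rfl | rfl | rfl <;> assumption
      have hsub : K ∪ [d, b, c, p, x].toFinset ⊆ L.toFinset := by
        intro t ht
        rw [List.mem_toFinset]
        rcases Finset.mem_union.1 ht with ht | ht
        · exact h.cov t ht
        · rw [List.mem_toFinset] at ht
          rw [e]; simp at ht ⊢; tauto
      have h1 := Finset.card_le_card hsub
      have h2 : [d, b, c, p, x].Nodup := by
        refine hnd.sublist ?_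
        rw [e]
        simp only [List.concat_eq_append, List.append_assoc, List.cons_append, List.nil_append]
        exact (List.Sublist.cons_cons d (List.Sublist.cons_cons b (List.Sublist.cons_cons c
          (List.Sublist.cons_cons p (List.Sublist.cons_cons x (List.nil_sublist _)))))).trans
          (List.sublist_append_right _ _)
      rw [Finset.card_union_of_disjoint hdk, List.toFinset_card_of_nodup h2,
        List.toFinset_card_of_nodup hnd] at h1
      simp at h1
      omega
    have hrev : ∀ {w}, Iso K L w → Iso K L.reverse w := by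
      rintro w ⟨hwK, A, C, e, hA, hC⟩
      exact ⟨hwK, C.reverse, A.reverse, by simp [e], by simpa using hC, by simpa using hA⟩
    have hmemrev : ∀ {s t}, t ∈ outN G S L s → t ∈ outN G S L.reverse s := by
      intro s t ht; simpa [mem_outN] using ht
    have hcp : Penult K L.reverse c :=
      ⟨hc, C.reverse ++ [a, x, p], b, d, A''.reverse, by simp [e], hb, hd⟩
    have hcE : c ∉ penF K L := fun hh => by
      obtain ⟨-, A', y', b', C', e', hy', hb'⟩ := mem_penF.1 hh
      obtain ⟨-, e3⟩ := succ_unique h.kl.nodup (A := A''.concat d ++ [b]) (p := c) (x := p)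
        (C := x :: a :: C) (by simp [e]) e'
      exact hxK ((List.cons_eq_cons.1 e3).1 ▸ hb')
    have hexcl : ∀ w ∈ insert c (penF K L), w ∈ L ∧ w ≠ u ∧ ¬ G.Adj u w := by
      intro w hw
      rcases Finset.mem_insert.1 hw with rfl | hw
      · exact ⟨by simp [e], fun e => hc (e ▸ hu.1),
          not_adj_penult hK hm hnc h.kl.reverse (by simpa using hl) (hrev hu) (hrev hv).stop hv.1
            huv (hmemrev hy1) (hmemrev hz1) (hall y1 hy1 z1 hz1) hcp⟩
      · exact ⟨(mem_penF.1 hw).mem, fun e => (mem_penF.1 hw).1 (e ▸ hu.1),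
          not_adj_penult hK hm hnc h.kl hl hu hv.stop hv.1 huv hy1 hz1 (hall y1 hy1 z1 hz1)
            (mem_penF.1 hw)⟩
    have hA3 := out_card h.kl hdeg hu.stop.mem _ hexcl
    rw [Finset.card_insert_of_notMem hcE] at hA3
    refine ⟨?_, by omega⟩
    intro s hs t ht hst hadj
    simp only [Finset.mem_coe] at hs ht
    obtain ⟨r', hr', hrs, hrt⟩ : ∃ r' ∈ outN G S L u, r' ≠ s ∧ r' ≠ t := by
      obtain ⟨r', h1, h2⟩ := Finset.exists_mem_notMem_of_card_lt_card (s := {s, t})
        (t := outN G S L u) (by rw [Finset.card_pair hst]; omega)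
      simp at h2
      exact ⟨r', h1, h2.1, h2.2⟩
    have hKl : KList G S K K.toList := clique_klist (fun k hk => h.kl.mem k (h.cov k hk)) hK
    have hst' : ∀ k ∈ K, Stop K K.toList k := by
      intro k hk
      obtain ⟨A, C, e⟩ := List.append_of_mem (Finset.mem_toList.2 hk)
      refine ⟨A, C, e, fun y hy => Finset.mem_toList.1 ?_⟩
      rw [e]
      exact List.mem_append_right _ (List.mem_cons_of_mem _ (List.mem_of_mem_head? hy))
    obtain ⟨a1, b1, c1⟩ := mem_outN.1 hs
    obtain ⟨a2, b2, c2⟩ := mem_outN.1 ht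
    obtain ⟨a3, b3, c3⟩ := mem_outN.1 hr'
    obtain ⟨a4, b4, c4⟩ := mem_outN.1 hz1
    obtain ⟨a5, b5, c5⟩ := mem_outN.1 hz2
    have m1 : s ≠ z1 := fun e => hdis _ hs (e ▸ hz1)
    have m2 : s ≠ z2 := fun e => hdis _ hs (e ▸ hz2)
    have m3 : t ≠ z1 := fun e => hdis _ ht (e ▸ hz1)
    have m4 : t ≠ z2 := fun e => hdis _ ht (e ▸ hz2)
    have m5 : r' ≠ z1 := fun e => hdis _ hr' (e ▸ hz1)
    have m6 : r' ≠ z2 := fun e => hdis _ hr' (e ▸ hz2)
    refine hKl.no_link hK hm hnc (hst' u hu.1) (hst' v hv.1) huv (Y := [s, t, z1, r', z2])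
      (by simp [hst, m1, m2, hrs.symm, m3, m4, hrt.symm, m5.symm, hz12, m6]) ?_
      (by simp [a1, a2, a3, a4, a5])
      (by simp [b1, hadj, hall t ht z1 hz1, (hall r' hr' z1 hz1).symm, hall r' hr' z2 hz2, b5.symm])
      (by simp; omega)
    intro q hq' hh
    rw [Finset.mem_toList] at hh
    simp at hq'
    rcases hq' with rfl | rfl | rfl | rfl | rfl
    exacts [c1 (h.cov _ hh), c2 (h.cov _ hh), c4 (h.cov _ hh), c3 (h.cov _ hh), c5 (h.cov _ hh)]

/-- The case of a list with an isolated member of `K`, or without cross edges. -/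
lemma Ext.exits_of_iso (h : Ext G S K m L) (hdeg : MinDeg G S (m - 1)) (hr : m / 2 ≤ K.card)
    (h4 : 4 ≤ K.card)
    (hor : (isoF K L).Nonempty ∨ ∀ u ∈ portsF K L, ∀ v ∈ portsF K L, u ≠ v →
      ∀ y ∈ outN G S L u, ∀ z ∈ outN G S L v, ¬ G.Adj y z) :
    ∃ J ρ, Exits G S K m J ρ := by
  classical
  have hlt := h.lt
  have hout : ∀ u ∈ portsF K L, (outN G S L u).Nonempty := fun u hu => by
    have := out_card h.kl hdeg (mem_portsF.1 hu).1.mem ∅ (by simp)
    exact Finset.card_pos.1 (by omega)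
  let f0 : V → V := fun u => if hu : u ∈ portsF K L then (hout u hu).choose else u
  have hf0 : ∀ u ∈ portsF K L, f0 u ∈ outN G S L u := fun u hu => by
    simp only [f0, dif_pos hu]
    exact (hout u hu).choose_spec
  by_cases hbad : ∀ u ∈ portsF K L, ∀ v ∈ portsF K L, u ≠ v →
      ∀ y ∈ outN G S L u, ∀ z ∈ outN G S L v, ¬ G.Adj y z
  · exact h.exits_regular hK hm hnc f0 hf0
      (fun u hu v hv hne => hbad u hu v hv hne _ (hf0 u hu) _ (hf0 v hv))
  have hiso := hor.resolve_right hbad
  push Not at hbad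
  obtain ⟨a, ha, b, hb, hab, y, hy, z, hz, hyz⟩ := hbad
  have hl := h.bad_length hK hm hnc ha hb hab hy hz hyz
  have hone : ∀ A p x c C, L = A ++ p :: x :: c :: C → x ∉ K → c ∈ K → p ∉ K := by
    intro A p x c C e hx hc hp
    refine h.no_short hK hm hnc hl (A := A ++ [p]) (C := c :: C) (x := x) (by simp [e])
      (by simp [hp]) (by simp [hc]) ha hb hab ?_ ?_ hy hz hyz
    · rintro rfl; exact hx (mem_portsF.1 ha).2
    · rintro rfl; exact hx (mem_portsF.1 hb).2
  have hisosub : ∀ a' ∈ portsF K L, ∀ b' ∈ portsF K L, a' ≠ b' → ∀ y' ∈ outN G S L a',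
      ∀ z' ∈ outN G S L b', G.Adj y' z' → ∀ i ∈ isoF K L, i = a' ∨ i = b' := by
    intro a' ha' b' hb' hne y' hy' z' hz' hadj i hi
    by_contra hcon
    push Not at hcon
    obtain ⟨-, A, C, e, hA, hC⟩ := mem_isoF.1 hi
    exact h.no_short hK hm hnc hl (A := A) (C := C) (x := i) (by simp [e]) hA hC ha' hb' hne
      hcon.1 hcon.2 hy' hz' hadj
  have hisocard : (isoF K L).card ≤ 2 := by
    refine le_trans (Finset.card_le_card (t := {a, b}) fun i hi => ?_) Finset.card_le_two
    simpa using hisosub a ha b hb hab y hy z hz hyz i hi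
  obtain ⟨u, huI⟩ := hiso
  have hu : u ∈ portsF K L := mem_portsF.2 ⟨(mem_isoF.1 huI).stop, (mem_isoF.1 huI).1⟩
  obtain ⟨v, hv, huv, yu, hyu, zv, hzv, huvz⟩ : ∃ v ∈ portsF K L, u ≠ v ∧
      ∃ yu ∈ outN G S L u, ∃ zv ∈ outN G S L v, G.Adj yu zv := by
    rcases hisosub a ha b hb hab y hy z hz hyz u huI with rfl | rfl
    · exact ⟨b, hb, hab, y, hy, z, hz, hyz⟩
    · exact ⟨a, ha, hab.symm, z, hz, y, hy, hyz.symm⟩
  by_cases hfree : ∃ y0 ∈ outN G S L u, ∀ v' ∈ portsF K L, u ≠ v' →
      ∀ z' ∈ outN G S L v', ¬ G.Adj y0 z'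
  · obtain ⟨y0, hy0, hfree⟩ := hfree
    refine h.exits_regular hK hm hnc (Function.update f0 u y0) ?_ ?_
    · intro w hw
      by_cases hwu : w = u
      · subst hwu; simpa using hy0
      · simpa [hwu] using hf0 w hw
    · intro w hw w' hw' hne hadj
      by_cases hwu : w = u
      · subst hwu
        simp [Ne.symm hne] at hadj
        exact hfree w' hw' hne _ (hf0 w' hw') hadj
      · by_cases hwu' : w' = u
        · subst hwu'
          simp [hwu] at hadj
          exact hfree w hw (Ne.symm hne) _ (hf0 w hw) hadj.symm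
        · simp [hwu, hwu'] at hadj
          rcases hisosub w hw w' hw' hne _ (hf0 w hw) _ (hf0 w' hw') hadj u huI with e | e
          · exact hwu e.symm
          · exact hwu' e.symm
  push Not at hfree
  -- the neighbours of `u` are independent and many
  obtain hdone | ⟨Z, hZ, hZc, hind⟩ : (∃ J ρ, Exits G S K m J ρ) ∨ ∃ Z ⊆ outN G S L u,
      Z.card = (portsF K L).card ∧ G.IsIndepSet (Z : Set V) := by
    have hq := card_ports_add_reps h.kl h.cov
    have hiso2 := card_le_iso h.kl h.cov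
    have hpen := card_repsF_le_penF h.kl hone
    rcases h.exists_two_run hone with ⟨A2, c2, p2, x2, a2, C2, e2, hc2, hp2, hx2, ha2⟩ |
        ⟨hkey, hlong, hcount⟩
    · right
      have hind : G.IsIndepSet (outN G S L u : Set V) := by
        intro s hs t ht hst hadj
        simp only [Finset.mem_coe] at hs ht
        obtain ⟨v', hv', hne', z', hz', hz'adj⟩ := hfree t ht
        obtain ⟨hsS, hus, hsL⟩ := mem_outN.1 hs
        obtain ⟨htS, hut, htL⟩ := mem_outN.1 ht
        obtain ⟨hzS, hvz', hzL⟩ := mem_outN.1 hz'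
        obtain ⟨L1, g1, g2, g3, g4, g5⟩ := h.skip_short hK (A := A2 ++ [c2]) (D := [p2, x2])
          (C := a2 :: C2) (by simp [e2]) (by simp [hc2]) (by simp [ha2]) (mem_portsF.1 hu).1
          (by simp; exact ⟨fun e => hp2 (e ▸ (mem_portsF.1 hu).2),
            fun e => hx2 (e ▸ (mem_portsF.1 hu).2)⟩) (mem_portsF.1 hv').1
          (by simp; exact ⟨fun e => hp2 (e ▸ (mem_portsF.1 hv').2),
            fun e => hx2 (e ▸ (mem_portsF.1 hv').2)⟩)
        have hsz : s ≠ z' := fun e =>
          h.one_stop hK hm hnc hsS hsL (mem_portsF.1 hu).1 (mem_portsF.1 hv').1 hne' hus.symm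
            (e ▸ hvz'.symm)
        refine g1.no_link hK hm hnc g4 g5 hne' (Y := [s, t, z'])
          (by simp [hst, hsz, hz'adj.ne]) ?_ (by simp [hsS, htS, hzS])
          (by simp [hus, hadj, hz'adj, hvz'.symm]) (by simp at g3 ⊢; omega)
        intro q hq hh
        simp at hq
        rcases hq with rfl | rfl | rfl
        exacts [hsL (g2 _ hh), htL (g2 _ hh), hzL (g2 _ hh)]
      -- count the excluded vertices
      have hexcl : ∀ w ∈ penF K L, w ∈ L ∧ w ≠ u ∧ ¬ G.Adj u w := fun w hw =>
        ⟨(mem_penF.1 hw).mem, fun e => (mem_penF.1 hw).1 (e ▸ (mem_isoF.1 huI).1),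
          not_adj_penult hK hm hnc h.kl hl (mem_isoF.1 huI) (mem_portsF.1 hv).1 (mem_portsF.1 hv).2
            huv hyu hzv huvz (mem_penF.1 hw)⟩
      obtain ⟨E, hE, hEc⟩ : ∃ E : Finset V, (∀ w ∈ E, w ∈ L ∧ w ≠ u ∧ ¬ G.Adj u w) ∧
          (repsF K L).card + ((isoF K L).card - 1) ≤ E.card := by
        by_cases h2 : (isoF K L).card ≤ 1
        · exact ⟨penF K L, hexcl, by omega⟩
        obtain ⟨v', hv'I, hne'⟩ := Finset.exists_mem_ne (show 1 < (isoF K L).card by omega) u
        have hvv : v' = v := by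
          rcases hisosub u hu v hv huv yu hyu zv hzv huvz v' hv'I with e | e
          · exact absurd e hne'
          · exact e
        subst hvv
        have hrev : ∀ {w}, Iso K L w → Iso K L.reverse w := by
          rintro w ⟨hwK, A, C, e, hA, hC⟩
          exact ⟨hwK, C.reverse, A.reverse, by simp [e], by simpa using hC, by simpa using hA⟩
        have hmemrev : ∀ {s t}, t ∈ outN G S L s → t ∈ outN G S L.reverse s := by
          intro s t ht; simpa [mem_outN] using ht
        have hx2p : Penult K L.reverse x2 :=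
          ⟨hx2, C2.reverse ++ [a2], p2, c2, A2.reverse, by simp [e2], hp2, hc2⟩
        have hx2E : x2 ∉ penF K L := fun hh => by
          obtain ⟨-, A', y', b', C', e', hy', -⟩ := mem_penF.1 hh
          have := (succ_unique h.kl.nodup (A := A2 ++ [c2, p2]) (C := C2)
            (by simp [e2] : L = (A2 ++ [c2, p2]) ++ x2 :: a2 :: C2) e').1
          exact hy' (this ▸ ha2)
        refine ⟨insert x2 (penF K L), fun w hw => ?_, ?_⟩
        · rcases Finset.mem_insert.1 hw with rfl | hw
          · exact ⟨by simp [e2], fun e => hx2 (e ▸ (mem_isoF.1 huI).1),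
              not_adj_penult hK hm hnc h.kl.reverse (by simpa using hl) (hrev (mem_isoF.1 huI))
                (hrev (mem_isoF.1 hv'I)).stop (mem_portsF.1 hv).2 huv (hmemrev hyu) (hmemrev hzv)
                huvz hx2p⟩
          · exact hexcl w hw
        · rw [Finset.card_insert_of_notMem hx2E]; omega
      have hZ0 := out_card h.kl hdeg (mem_portsF.1 hu).1.mem E hE
      have hIpos : 1 ≤ (isoF K L).card := Finset.card_pos.2 ⟨u, huI⟩
      obtain ⟨Z, hZ, hZc⟩ := Finset.exists_subset_card_eq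
        (show (portsF K L).card ≤ (outN G S L u).card by omega)
      exact ⟨Z, hZ, hZc, hind.mono (by exact_mod_cast hZ)⟩
    · obtain ⟨v', hv'I, hne'⟩ :=
        Finset.exists_mem_ne (show 1 < (isoF K L).card by omega) u
      have hvv : v' = v := by
        rcases hisosub u hu v hv huv yu hyu zv hzv huvz v' hv'I with e | e
        · exact absurd e hne'
        · exact e
      subst hvv
      by_cases hpair : ∀ s ∈ outN G S L u, ∀ t ∈ outN G S L v', G.Adj s t
      · right
        obtain ⟨h1, h2⟩ := h.small_corner hK hm hnc hdeg hr h4 hl hisocard (mem_isoF.1 huI)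
          (mem_isoF.1 hv'I) huv hone hkey hlong hpair
        obtain ⟨Z, hZ, hZc⟩ := Finset.exists_subset_card_eq h2
        exact ⟨Z, hZ, hZc, h1.mono (by exact_mod_cast hZ)⟩
      · left
        push Not at hpair
        obtain ⟨s, hs, t, ht, hst⟩ := hpair
        have hup : ∀ w, Function.update (Function.update f0 u s) v' t w =
            if w = v' then t else if w = u then s else f0 w := by
          intro w; simp [Function.update_apply]
        refine h.exits_regular hK hm hnc (Function.update (Function.update f0 u s) v' t)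
          (fun w hw => ?_) (fun w hw w' hw' hne hadj => ?_)
        · rw [hup]; split_ifs with h1 h2
          · exact h1 ▸ ht
          · exact h2 ▸ hs
          · exact hf0 w hw
        · have hmem : ∀ w ∈ portsF K L, Function.update (Function.update f0 u s) v' t w ∈ outN G S L w := by
            intro w hw
            rw [hup]; split_ifs with h1 h2
            · exact h1 ▸ ht
            · exact h2 ▸ hs
            · exact hf0 w hw
          have k1 := hisosub w hw w' hw' hne _ (hmem w hw) _ (hmem w' hw') hadj u huI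
          have k2 := hisosub w hw w' hw' hne _ (hmem w hw) _ (hmem w' hw') hadj v' hv'I
          rw [hup, hup] at hadj
          rcases k1 with rfl | rfl <;> rcases k2 with rfl | rfl
          · exact huv rfl
          · simp [huv] at hadj; exact hst hadj
          · simp [huv] at hadj; exact hst hadj.symm
          · exact huv rfl
  · exact hdone
  -- build the exits
  let ρ : V → V := fun j => if j ∈ Z then u else succIn L j
  have hZL : ∀ j ∈ Z, j ∉ L := fun j hj => (mem_outN.1 (hZ hj)).2.2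
  have hρrep : ∀ x ∈ repsF K L, ρ x = succIn L x := fun x hx => by
    simp only [ρ]; rw [if_neg fun hh => hZL x hh (mem_repsF.1 hx).1.mem]
  have hroot_ne : ∀ x ∈ repsF K L, succIn L x ≠ u := by
    intro x hx he
    obtain ⟨A', p', c', C', e', hc'⟩ := Rep.decomp h.kl hx
    have hs' := succIn_eq h.kl.nodup (A := A' ++ [p']) (C := C') (x := x) (a := c') (by simp [e'])
    rw [hs'] at he
    obtain ⟨-, A1, C1, e1, hA1, -⟩ := mem_isoF.1 huI
    have hnd := h.kl.nodup
    obtain ⟨hA, -⟩ := append_cons_inj_of_nodup (A := A' ++ [p', x]) (v := u) (C := C')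
      (by simpa [e', he] using hnd) (A' := A1) (C' := C1) (by simpa [e', he] using e1)
    exact (mem_repsF.1 hx).2 (hA1 x (by simp [← hA]))
  refine ⟨repsF K L ∪ Z, ρ, ?_, ?_, ?_, ?_, ?_⟩
  · intro s hs t ht hne hst
    simp only [Finset.coe_union, Set.mem_union, Finset.mem_coe] at hs ht
    rcases hs with hs | hs <;> rcases ht with ht | ht
    · exact h.reps_indep hK hs ht hne hst
    · obtain ⟨h1, h2, h3⟩ := mem_outN.1 (hZ ht)
      exact h.one_stop hK hm hnc h1 h3 (mem_portsF.1 hu).1 (mem_repsF.1 hs).1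
        (fun e => (mem_repsF.1 hs).2 (e ▸ (mem_isoF.1 huI).1)) h2.symm hst.symm
    · obtain ⟨h1, h2, h3⟩ := mem_outN.1 (hZ hs)
      exact h.one_stop hK hm hnc h1 h3 (mem_portsF.1 hu).1 (mem_repsF.1 ht).1
        (fun e => (mem_repsF.1 ht).2 (e ▸ (mem_isoF.1 huI).1)) h2.symm hst
    · exact hind hs ht hne hst
  · rw [Finset.card_union_of_disjoint]
    · have := card_ports_add_reps h.kl h.cov
      omega
    · rw [Finset.disjoint_left]
      exact fun x hx hx' => hZL x hx' (mem_repsF.1 hx).1.mem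
  · intro j hj
    rcases Finset.mem_union.1 hj with hj | hj
    · exact ⟨h.kl.mem j (mem_repsF.1 hj).1.mem, (mem_repsF.1 hj).2⟩
    · exact ⟨(mem_outN.1 (hZ hj)).1, fun hk => hZL j hj (h.cov j hk)⟩
  · intro j hj
    rcases Finset.mem_union.1 hj with hj | hj
    · rw [hρrep j hj]; exact h.rep_succ hj
    · simp only [ρ, if_pos hj]
      exact ⟨(mem_isoF.1 huI).1, (mem_outN.1 (hZ hj)).2.1⟩
  · intro i hi j hj hne hij
    have hJL : ∀ s ∈ repsF K L ∪ Z, s ∈ L → s ∈ repsF K L := fun s hs hsL =>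
      (Finset.mem_union.1 hs).resolve_right fun hh => hZL s hh hsL
    rcases Finset.mem_union.1 hi with hi | hi
    · exact Or.inl (h.rep_esc hi (hρrep i hi) hJL)
    rcases Finset.mem_union.1 hj with hj | hj
    · exact Or.inr (h.rep_esc hj (hρrep j hj) hJL)
    left
    obtain ⟨v', hv', hne', z', hz', hadj'⟩ := hfree i (hZ hi)
    obtain ⟨hiS, hui, hiL⟩ := mem_outN.1 (hZ hi)
    obtain ⟨hzS, hvz', hzL⟩ := mem_outN.1 hz'
    have hint := interior_bound h.kl h.cov
    have hiso2 := card_le_iso h.kl h.cov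
    have hpen := card_repsF_le_penF h.kl hone
    refine ⟨v', [z', i], (mem_portsF.1 hv').2, ?_, by simp, ?_, by simp [hvz', hadj'.symm], ?_,
      ?_, fun h6 => by simp; omega⟩
    · simp only [ρ, if_pos hi]; exact hne'.symm
    · have h1 : v' ≠ z' := hvz'.ne
      have h2 : v' ≠ i := fun e => hiL (e ▸ (mem_portsF.1 hv').1.mem)
      simp [h1, h2, hadj'.ne']
    · intro x hx
      simp at hx
      rcases hx with rfl | rfl
      · exact ⟨hzS, fun hk => hzL (h.cov _ hk)⟩
      · exact ⟨hiS, fun hk => hiL (h.cov _ hk)⟩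
    · intro x hx hxJ
      simp at hx
      rcases hx with rfl | rfl
      · exfalso
        rcases Finset.mem_union.1 hxJ with hxJ | hxJ
        · exact hzL (mem_repsF.1 hxJ).1.mem
        · exact h.one_stop hK hm hnc hzS hzL (mem_portsF.1 hu).1 (mem_portsF.1 hv').1 hne'
            (mem_outN.1 (hZ hxJ)).2.1.symm hvz'.symm
      · rfl

/-- A clique on at least `m / 2` vertices has exits. -/
theorem exists_exits (hdeg : MinDeg G S (m - 1)) (hKS : K ⊆ S) (hr : m / 2 ≤ K.card)
    (h4 : 4 ≤ K.card) : ∃ J ρ, Exits G S K m J ρ := by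
  classical
  obtain ⟨L, h⟩ := exists_ext hKS hK hm hnc
  by_cases hor : (isoF K L).Nonempty ∨ ∀ u ∈ portsF K L, ∀ v ∈ portsF K L, u ≠ v →
      ∀ y ∈ outN G S L u, ∀ z ∈ outN G S L v, ¬ G.Adj y z
  · exact h.exits_of_iso hK hm hnc hdeg hr h4 hor
  push Not at hor
  obtain ⟨hiso, a, ha, b, hb, hab, y, hy, z, hz, hyz⟩ := hor
  have hl := h.bad_length hK hm hnc ha hb hab hy hz hyz
  obtain ⟨hyS, hay, hyL⟩ := mem_outN.1 hy
  obtain ⟨hzS, hbz, hzL⟩ := mem_outN.1 hz
  have hone : ∀ A p x c C, L = A ++ p :: x :: c :: C → x ∉ K → c ∈ K → p ∉ K := by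
    intro A p x c C e hx hc hp
    refine h.no_short hK hm hnc hl (A := A ++ [p]) (C := c :: C) (x := x) (by simp [e])
      (by simp [hp]) (by simp [hc]) ha hb hab ?_ ?_ hy hz hyz
    · rintro rfl; exact hx (mem_portsF.1 ha).2
    · rintro rfl; exact hx (mem_portsF.1 hb).2
  have hiso2 := card_le_iso h.kl h.cov
  rw [hiso, Finset.card_empty] at hiso2
  have hint := interior_bound h.kl h.cov
  have hpen := card_repsF_le_penF h.kl hone
  -- the first segment has two vertices
  obtain ⟨c, w, x, R, e, hc, hw, hx, hR⟩ : ∃ c w x R, L = c :: w :: x :: R ∧ c ∈ K ∧ w ∉ K ∧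
      x ∉ K ∧ ∀ t ∈ R.head?, t ∈ K := by
    have hlen : 4 ≤ L.length := by omega
    obtain ⟨c, w, x, d, R, rfl⟩ : ∃ c w x d R, L = c :: w :: x :: d :: R := by
      match L, hlen with
      | c :: w :: x :: d :: R, _ => exact ⟨c, w, x, d, R, rfl⟩
    have hc : c ∈ K := h.kl.head c rfl
    have hw : w ∉ K := fun hw => by
      have : c ∈ isoF K (c :: w :: x :: d :: R) :=
        mem_isoF.2 ⟨hc, [], w :: x :: d :: R, rfl, by simp, by simp [hw]⟩
      rw [hiso] at this; simp at this
    have hx : x ∉ K := fun hx => hone [] c w x (d :: R) rfl hw hx hc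
    refine ⟨c, w, x, d :: R, rfl, hc, hw, hx, fun t ht => ?_⟩
    simp at ht; subst ht
    by_contra hd
    have hwn : w ∉ repsF K (c :: w :: x :: d :: R) := fun hh => hx
      ((mem_repsF.1 hh).1.next h.kl.nodup (A := [c]) (C := x :: d :: R) rfl x rfl)
    have hwp : w ∉ penF K (c :: w :: x :: d :: R) := fun hh => by
      obtain ⟨-, A', y', b', C', e', -, hb'⟩ := mem_penF.1 hh
      obtain ⟨-, e3⟩ := succ_unique h.kl.nodup (A := [c]) (p := w) (x := x) (C := d :: R) rfl e'
      exact hd ((List.cons_eq_cons.1 e3).1 ▸ hb')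
    have hsub : insert w (K ∪ (repsF K (c :: w :: x :: d :: R) ∪ penF K (c :: w :: x :: d :: R))) ⊆
        (c :: w :: x :: d :: R).toFinset := by
      intro t ht
      rw [List.mem_toFinset]
      simp only [Finset.mem_insert, Finset.mem_union] at ht
      rcases ht with rfl | ht | ht | ht
      · simp
      · exact h.cov t ht
      · exact (mem_repsF.1 ht).1.mem
      · exact (mem_penF.1 ht).mem
    have h5 := Finset.card_le_card hsub
    rw [Finset.card_insert_of_notMem (by simp [hw, hwn, hwp]), Finset.card_union_of_disjoint,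
      Finset.card_union_of_disjoint (disjoint_reps_penF h.kl),
      List.toFinset_card_of_nodup h.kl.nodup] at h5
    · omega
    · rw [Finset.disjoint_left]
      intro t ht ht'
      rcases Finset.mem_union.1 ht' with ht' | ht'
      · exact (mem_repsF.1 ht').2 ht
      · exact (mem_penF.1 ht').1 ht
  have hkl := h.kl
  rw [e] at hkl
  have kR : KList G S K R := by
    simpa using (show KList G S K ([] ++ [c, w, x] ++ R) by simpa using hkl).skip hK (by simp) hR
  have hnd := hkl.nodup
  have hsplit : ∀ t, t ∈ portsF K L → Stop K R t := by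
    intro t ht
    obtain ⟨hs, htK⟩ := mem_portsF.1 ht
    rw [e] at hs
    have h1 : t ≠ c := fun e' => hw (hs.next hnd (A := []) (C := w :: x :: R) (by simp [e']) w rfl)
    have h2 : t ≠ w := fun e' => hw (e' ▸ htK)
    have h3 : t ≠ x := fun e' => hx (e' ▸ htK)
    have hm' := hs.mem
    simp [h1, h2, h3] at hm'
    exact stop_append_right (A := [c, w, x]) (by simpa using hs) hm' (by simpa using hnd)
  obtain ⟨R2, k2, hperm, htr⟩ := kR.splice (Y := [y, z]) hK (hsplit a ha) (hsplit b hb) hab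
    (by simp [hyz.ne])
    (by intro t ht hh; simp at ht; rcases ht with rfl | rfl
        · exact hyL (by simp [e, hh])
        · exact hzL (by simp [e, hh]))
    (by simp [hyS, hzS]) (by simp [hay, hyz, hbz.symm])
  have hcR2 : c ∉ R2 := fun hh => by
    have := hperm.subset hh
    simp at this
    rcases this with hh | rfl | rfl
    · simp [hh] at hnd
    · exact hyL (by simp [e])
    · exact hzL (by simp [e])
  have hR2ne : R2 ≠ [] := by
    intro h0
    have := hperm.length_eq
    simp [h0] at this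
  have k3 : KList G S K (c :: R2) := by
    refine ⟨List.nodup_cons.2 ⟨hcR2, k2.nodup⟩, List.isChain_cons.2 ⟨fun t ht => ?_, k2.chain⟩,
      by simp [hc], ?_, ?_⟩
    · exact hK (by exact_mod_cast hc) (by exact_mod_cast k2.head t ht)
        (fun e' => hcR2 (e' ▸ List.mem_of_mem_head? ht))
    · intro t ht
      obtain ⟨b0, R2', rfl⟩ := List.exists_cons_of_ne_nil hR2ne
      rw [List.getLast?_cons_cons] at ht
      exact k2.last t ht
    · intro t ht
      rcases List.mem_cons.1 ht with rfl | ht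
      · exact hkl.mem _ (by simp)
      · exact k2.mem t ht
  have hcov3 : ∀ k ∈ K, k ∈ c :: R2 := by
    intro k hk
    have := h.cov k hk
    rw [e] at this
    simp at this
    rcases this with rfl | rfl | rfl | hkR
    · simp
    · exact absurd hk hw
    · exact absurd hk hx
    · exact List.mem_cons_of_mem _ (hperm.symm.subset (List.mem_append_left _ hkR))
  have hlen3 : (c :: R2).length = L.length := by
    rw [List.length_cons, hperm.length_eq, e]; simp
  have htr3 : tr K (c :: R2) = tr K L := by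
    have hayK : a ∈ K := (mem_portsF.1 ha).2
    have hbK : b ∈ K := (mem_portsF.1 hb).2
    have hyK : y ∉ K := fun hh => hyL (h.cov y hh)
    have hzK : z ∉ K := fun hh => hzL (h.cov z hh)
    simp [tr, bd, hayK, hbK, hyK, hzK] at htr
    obtain ⟨d, R', rfl⟩ : ∃ d R', R = d :: R' := by
      cases R with
      | nil => exact absurd (hsplit a ha).mem (by simp)
      | cons d R' => exact ⟨d, R', rfl⟩
    obtain ⟨b0, R2', rfl⟩ := List.exists_cons_of_ne_nil hR2ne
    have hd : d ∈ K := hR d rfl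
    have hb0 : b0 ∈ K := k2.head b0 rfl
    rw [e]
    simp [tr, bd, hc, hw, hx, hd, hb0] at htr ⊢
    omega
  have h3 : Ext G S K m (c :: R2) := ⟨k3, hcov3, by omega,
    fun L' g1 g2 g3 => hlen3 ▸ h.max L' g1 g2 g3,
    fun L' g1 g2 g3 => htr3 ▸ h.tr_min L' g1 g2 (hlen3 ▸ g3)⟩
  exact h3.exits_of_iso hK hm hnc hdeg hr h4
    (Or.inl ⟨c, mem_isoF.2 ⟨hc, [], R2, rfl, by simp, k2.head⟩⟩)

end Vale.Agent.P048
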