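import Vale.Agent.P048.Full.Spec
import Vale.Agent.P048.Lists

/-!
A core with tails of length one (and at most one of length three) to a clique closes to a cycle
of length `m`.
-/

namespace Vale.Agent.P048.Full

open Finset

variable {V : Type*} [DecidableEq V] {G : SimpleGraph V}

/-- A path inside `T` and a path outside `T` between its ends form a cycle. -/
lemma close_outside {T : Finset V} {x y : V} {l m : ℕ} (hP : PathLen G (T : Set V) x y l)
    (hl : 1 ≤ l) (M : List V) (hM : M.Nodup) (hMT : ∀ z ∈ M, z ∉ T) (hne : M ≠ [])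
    (hch : (y :: (M ++ [x])).IsChain G.Adj) (hm : l + M.length + 1 = m) : HasCyc G m := by
  have hxT : x ∈ T := by exact_mod_cast hP.left_mem
  have hyT : y ∈ T := by exact_mod_cast hP.right_mem
  have hxy : x ≠ y := by
    obtain ⟨g, g0, gn, gi, -, -⟩ := hP
    intro e
    have := gi 0 (by omega) l le_rfl (g0.trans (e.trans gn.symm))
    omega
  have hQ : Pth G {z | z = x ∨ z = y ∨ z ∉ T} y x (y :: (M ++ [x])) := by
    refine ⟨rfl, by rw [← List.cons_append]; exact List.getLast?_concat .., ?_, hch, ?_⟩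
    · rw [List.nodup_cons, List.nodup_append]
      refine ⟨?_, hM, List.nodup_singleton x, ?_⟩
      · simp only [List.mem_append, List.mem_singleton, not_or]
        exact ⟨fun h => hMT y h hyT, hxy.symm⟩
      · intro z hz z' hz' e
        rw [List.mem_singleton] at hz'
        subst hz' e
        exact hMT _ hz hxT
    · intro z hz
      simp only [List.mem_cons, List.mem_append, List.not_mem_nil, or_false] at hz
      rcases hz with rfl | hz | rfl
      · exact Or.inr (Or.inl rfl)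
      · exact Or.inr (Or.inr (hMT z hz))
      · exact Or.inl rfl
  have hlen : 1 ≤ M.length := List.length_pos_of_ne_nil hne
  have := hP.close hQ.toPathLen hl (by simp) (by simp; omega) (by
    intro z hz hz'
    rcases hz' with h | h | h
    · exact Or.inl h
    · exact Or.inr h
    · exact absurd (by exact_mod_cast hz) h)
  have e : l + ((y :: (M ++ [x])).length - 1) = m := by simp; omega
  rwa [e] at this

/-- A core with tails to a clique gives a cycle of length `m`. -/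
theorem flexSpec {m : ℕ} (hm : 8 ≤ m) (hcross : CrossSpec G m) (hlong : LongPathSpec G m) :
    FlexSpec G m := by
  classical
  intro hnc S K J W T c f hT hK hC
  apply hnc
  have hK4 : 4 ≤ K.card := by omega
  have hlongc := hC.long
  have hKd : ∀ z ∈ K, z ∉ T := fun z hz h =>
    disjoint_left.1 hT.disjT h (mem_union_left _ (mem_union_left _ hz))
  have hJd : ∀ z ∈ J, z ∉ T := fun z hz h =>
    disjoint_left.1 hT.disjT h (mem_union_left _ (mem_union_right _ hz))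
  have hKJ : ∀ j ∈ J, ∀ u ∈ K, u ≠ j := fun j hj u hu e =>
    disjoint_left.1 hT.disjKJ hu (e ▸ hj)
  obtain ⟨x₀, y₀', hhub⟩ := hlong T c f hC
  have hx₀ : x₀ ∈ T := by exact_mod_cast hhub.left_mem
  -- the far label
  obtain ⟨w, y₀, j₀, hfar⟩ : ∃ w y₀ j₀, ∀ z ∈ T, (¬ ∃ j ∈ J, G.Adj j z) →
      G.Adj w z ∧ w ∉ K ∧ w ∉ J ∧ w ∉ T ∧ j₀ ∈ J ∧ y₀ ∉ K ∧ y₀ ∉ J ∧ y₀ ∉ T ∧
        G.Adj j₀ y₀ ∧ G.Adj y₀ w := by
    by_cases h : ∃ z ∈ T, ¬ ∃ j ∈ J, G.Adj j z
    · obtain ⟨z₁, hz₁, hnJ⟩ := h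
      obtain ⟨w, hw, -⟩ := (hT.cover z₁ hz₁).resolve_left hnJ
      obtain ⟨hwKJ, -, y₀, j₀, hj₀, -, hy₀, h1, h2⟩ := hT.far w hw
      simp only [mem_union, not_or] at hwKJ hy₀
      refine ⟨w, y₀, j₀, fun z hz hzJ => ?_⟩
      obtain ⟨w', hw', hadj⟩ := (hT.cover z hz).resolve_left hzJ
      obtain rfl : w' = w := card_le_one.1 hT.single w' hw' w hw
      exact ⟨hadj, hwKJ.1, hwKJ.2, fun h => disjoint_left.1 hT.disjT h (mem_union_right _ hw),
        hj₀, hy₀.1.1.1, hy₀.1.1.2, hy₀.2, h1, h2⟩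
    · exact ⟨x₀, x₀, x₀, fun z hz hzJ => absurd ⟨z, hz, hzJ⟩ h⟩
  -- labels and roots
  let isW : V → Prop := fun z => ¬ ∃ j ∈ J, G.Adj j z
  let jl : V → V := fun z => if h : ∃ j ∈ J, G.Adj j z then h.choose else w
  let ru : V → V := fun j => if h : ∃ u ∈ K, G.Adj u j then h.choose else j
  let R : V → V := fun z => if isW z then ru j₀ else ru (jl z)
  have hjl : ∀ z, ¬ isW z → jl z ∈ J ∧ G.Adj (jl z) z := fun z hz => by
    have h : ∃ j ∈ J, G.Adj j z := not_not.1 hz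
    simp only [jl, dif_pos h]
    exact h.choose_spec
  have hru : ∀ j ∈ J, ru j ∈ K ∧ G.Adj (ru j) j := fun j hj => by
    simp only [ru, dif_pos (hT.root j hj)]
    exact (hT.root j hj).choose_spec
  have hRW : ∀ z, isW z → R z = ru j₀ := fun z hz => if_pos hz
  have hRJ : ∀ z, ¬ isW z → R z = ru (jl z) := fun z hz => if_neg hz
  by_cases hroot : ∃ z ∈ T, R z ≠ R x₀
  · -- two roots
    obtain ⟨z, hz, hzR⟩ := hroot
    obtain ⟨x, y, hx, hy, hP⟩ := hcross T c f hC (fun v => R v = R x₀) ⟨x₀, hx₀, rfl⟩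
      ⟨z, hz, hzR⟩ (m - 7) (by omega) (by omega)
    have hxy : R x ≠ R y := fun e => hy (e.symm.trans hx)
    have hxT : x ∈ T := by exact_mod_cast hP.left_mem
    have hyT : y ∈ T := by exact_mod_cast hP.right_mem
    by_cases hxW : isW x
    · have hyW : ¬ isW y := fun h => hxy (by rw [hRW x hxW, hRW y h])
      obtain ⟨hwx, hwK, hwJ, hwT, hj₀, hyK, hyJ, hyT', a1, a2⟩ := hfar x hxT hxW
      obtain ⟨hjy, hjy'⟩ := hjl y hyW
      obtain ⟨hr₀, hr₀'⟩ := hru _ hj₀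
      obtain ⟨hry, hry'⟩ := hru _ hjy
      rw [hRW x hxW, hRJ y hyW] at hxy
      have hne : jl y ≠ j₀ := fun e => hxy (by rw [e])
      have hr : G.Adj (ru (jl y)) (ru j₀) := hT.clique hry hr₀ hxy.symm
      refine close_outside hP (by omega) [jl y, ru (jl y), ru j₀, j₀, y₀, w] ?_ ?_ (by simp) ?_
        (by simp; omega)
      · simp [List.nodup_cons]
        exact ⟨⟨(hKJ _ hjy _ hry).symm, (hKJ _ hjy _ hr₀).symm, hne, ne_of_mem_of_not_mem hjy hyJ,
          ne_of_mem_of_not_mem hjy hwJ⟩, ⟨hxy.symm, hKJ _ hj₀ _ hry, ne_of_mem_of_not_mem hry hyK,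
          ne_of_mem_of_not_mem hry hwK⟩, ⟨hKJ _ hj₀ _ hr₀, ne_of_mem_of_not_mem hr₀ hyK,
          ne_of_mem_of_not_mem hr₀ hwK⟩, ⟨ne_of_mem_of_not_mem hj₀ hyJ,
          ne_of_mem_of_not_mem hj₀ hwJ⟩, a2.ne⟩
      · simp only [List.mem_cons, List.not_mem_nil, or_false]
        rintro v (rfl | rfl | rfl | rfl | rfl | rfl)
        exacts [hJd _ hjy, hKd _ hry, hKd _ hr₀, hJd _ hj₀, hyT', hwT]
      · simp [hjy'.symm, hry'.symm, hr, hr₀', a1, a2, hwx]
    obtain ⟨hjx, hjx'⟩ := hjl x hxW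
    obtain ⟨hrx, hrx'⟩ := hru _ hjx
    by_cases hyW : isW y
    · obtain ⟨hwy, hwK, hwJ, hwT, hj₀, hyK, hyJ, hyT', a1, a2⟩ := hfar y hyT hyW
      obtain ⟨hr₀, hr₀'⟩ := hru _ hj₀
      rw [hRJ x hxW, hRW y hyW] at hxy
      have hne : j₀ ≠ jl x := fun e => hxy (by rw [e])
      have hr : G.Adj (ru j₀) (ru (jl x)) := hT.clique hr₀ hrx hxy.symm
      refine close_outside hP (by omega) [w, y₀, j₀, ru j₀, ru (jl x), jl x] ?_ ?_ (by simp) ?_
        (by simp; omega)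
      · simp [List.nodup_cons]
        exact ⟨⟨a2.ne.symm, (ne_of_mem_of_not_mem hj₀ hwJ).symm,
          (ne_of_mem_of_not_mem hr₀ hwK).symm, (ne_of_mem_of_not_mem hrx hwK).symm,
          (ne_of_mem_of_not_mem hjx hwJ).symm⟩, ⟨(ne_of_mem_of_not_mem hj₀ hyJ).symm,
          (ne_of_mem_of_not_mem hr₀ hyK).symm, (ne_of_mem_of_not_mem hrx hyK).symm,
          (ne_of_mem_of_not_mem hjx hyJ).symm⟩, ⟨(hKJ _ hj₀ _ hr₀).symm, (hKJ _ hj₀ _ hrx).symm,
          hne⟩, ⟨hxy.symm, hKJ _ hjx _ hr₀⟩, hKJ _ hjx _ hrx⟩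
      · simp only [List.mem_cons, List.not_mem_nil, or_false]
        rintro v (rfl | rfl | rfl | rfl | rfl | rfl)
        exacts [hwT, hyT', hJd _ hj₀, hKd _ hr₀, hKd _ hrx, hJd _ hjx]
      · simp [hwy.symm, a2.symm, a1.symm, hr₀'.symm, hr, hrx', hjx']
    · obtain ⟨hjy, hjy'⟩ := hjl y hyW
      obtain ⟨hry, hry'⟩ := hru _ hjy
      rw [hRJ x hxW, hRJ y hyW] at hxy
      have hne : jl y ≠ jl x := fun e => hxy (by rw [e])
      obtain ⟨c₁, hc₁, c₂, hc₂, hc₁₂⟩ := one_lt_card.1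
        (show 1 < ((K.erase (ru (jl x))).erase (ru (jl y))).card by
          rw [card_erase_of_mem (mem_erase.2 ⟨hxy.symm, hry⟩), card_erase_of_mem hrx]; omega)
      simp only [mem_erase] at hc₁ hc₂
      refine close_outside hP (by omega) [jl y, ru (jl y), c₁, c₂, ru (jl x), jl x] ?_ ?_ (by simp)
        ?_ (by simp; omega)
      · simp [List.nodup_cons]
        exact ⟨⟨(hKJ _ hjy _ hry).symm, (hKJ _ hjy _ hc₁.2.2).symm, (hKJ _ hjy _ hc₂.2.2).symm,
          (hKJ _ hjy _ hrx).symm, hne⟩, ⟨hc₁.1.symm, hc₂.1.symm, hxy.symm, hKJ _ hjx _ hry⟩,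
          ⟨hc₁₂, hc₁.2.1, hKJ _ hjx _ hc₁.2.2⟩, ⟨hc₂.2.1, hKJ _ hjx _ hc₂.2.2⟩, hKJ _ hjx _ hrx⟩
      · simp only [List.mem_cons, List.not_mem_nil, or_false]
        rintro v (rfl | rfl | rfl | rfl | rfl | rfl)
        exacts [hJd _ hjy, hKd _ hry, hKd _ hc₁.2.2, hKd _ hc₂.2.2, hKd _ hrx, hJd _ hjx]
      · simp [hjy'.symm, hry'.symm, hT.clique hry hc₁.2.2 hc₁.1.symm,
          hT.clique hc₁.2.2 hc₂.2.2 hc₁₂, hT.clique hc₂.2.2 hrx hc₂.2.1, hrx', hjx']
  -- one root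
  push Not at hroot
  have hub : ∀ h : V, h ∉ T → (∀ z ∈ T, G.Adj h z) → HasCyc G m := fun h hh hadj =>
    close_outside hhub (by omega) [h] (by simp) (by simpa using hh) (by simp)
      (by
        simp [(hadj _ (show y₀' ∈ T by exact_mod_cast hhub.right_mem)).symm, hadj _ hx₀])
      (by simp; omega)
  by_cases hP2 : ∃ z ∈ T, ¬ isW z ∧ jl z = j₀
  · by_cases hall : ∀ z ∈ T, ¬ isW z ∧ jl z = j₀
    · obtain ⟨z, hz, hzW, hzj⟩ := hP2
      refine hub j₀ (hJd _ (hzj ▸ (hjl z hzW).1)) fun z' hz' => ?_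
      obtain ⟨h1, h2⟩ := hall z' hz'
      exact h2 ▸ (hjl z' h1).2
    obtain ⟨z', hz', hz''⟩ : ∃ z ∈ T, ¬ (¬ isW z ∧ jl z = j₀) := by
      by_contra h
      push Not at h
      exact hall h
    obtain ⟨x, y, ⟨hxW, hxj⟩, hy, hP⟩ := hcross T c f hC (fun v => ¬ isW v ∧ jl v = j₀) hP2
      ⟨z', hz', hz''⟩ (m - 4) (by omega) (by omega)
    have hxT : x ∈ T := by exact_mod_cast hP.left_mem
    have hyT : y ∈ T := by exact_mod_cast hP.right_mem
    obtain ⟨hjx, hjx'⟩ := hjl x hxW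
    rw [hxj] at hjx hjx'
    by_cases hyW : isW y
    · obtain ⟨hwy, hwK, hwJ, hwT, -, hyK, hyJ, hyT', a1, a2⟩ := hfar y hyT hyW
      refine close_outside hP (by omega) [w, y₀, j₀] ?_ ?_ (by simp) ?_ (by simp; omega)
      · simp [List.nodup_cons]
        exact ⟨⟨a2.ne.symm, (ne_of_mem_of_not_mem hjx hwJ).symm⟩,
          (ne_of_mem_of_not_mem hjx hyJ).symm⟩
      · simp only [List.mem_cons, List.not_mem_nil, or_false]
        rintro v (rfl | rfl | rfl)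
        exacts [hwT, hyT', hJd _ hjx]
      · simp [hwy.symm, a2.symm, a1.symm, hjx']
    · obtain ⟨hjy, hjy'⟩ := hjl y hyW
      obtain ⟨hr₀, hr₀'⟩ := hru _ hjx
      obtain ⟨hry, hry'⟩ := hru _ hjy
      have hR : ru (jl y) = ru j₀ := by
        rw [← hRJ y hyW, hroot y hyT, ← hroot x hxT, hRJ x hxW, hxj]
      rw [hR] at hry'
      have hne : jl y ≠ j₀ := fun e => hy ⟨hyW, e⟩
      refine close_outside hP (by omega) [jl y, ru j₀, j₀] ?_ ?_ (by simp) ?_ (by simp; omega)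
      · simp [List.nodup_cons]
        exact ⟨⟨(hKJ _ hjy _ hr₀).symm, hne⟩, hKJ _ hjx _ hr₀⟩
      · simp only [List.mem_cons, List.not_mem_nil, or_false]
        rintro v (rfl | rfl | rfl)
        exacts [hJd _ hjy, hKd _ hr₀, hJd _ hjx]
      · simp [hjy'.symm, hry'.symm, hr₀', hjx']
  -- no label `j₀`
  push Not at hP2
  by_cases hW : ∃ z ∈ T, isW z
  · obtain ⟨z₁, hz₁, hz₁W⟩ := hW
    by_cases hall : ∀ z ∈ T, isW z
    · exact hub w (hfar z₁ hz₁ hz₁W).2.2.2.1 fun z hz => (hfar z hz (hall z hz)).1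
    obtain ⟨z', hz', hz''⟩ : ∃ z ∈ T, ¬ isW z := by
      by_contra h
      push Not at h
      exact hall h
    obtain ⟨x, y, hxW, hyW, hP⟩ := hcross T c f hC isW ⟨z₁, hz₁, hz₁W⟩ ⟨z', hz', hz''⟩ (m - 6)
      (by omega) (by omega)
    have hxT : x ∈ T := by exact_mod_cast hP.left_mem
    have hyT : y ∈ T := by exact_mod_cast hP.right_mem
    obtain ⟨hwx, hwK, hwJ, hwT, hj₀, hyK, hyJ, hyT', a1, a2⟩ := hfar x hxT hxW
    obtain ⟨hjy, hjy'⟩ := hjl y hyW
    obtain ⟨hr₀, hr₀'⟩ := hru _ hj₀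
    obtain ⟨hry, hry'⟩ := hru _ hjy
    have hR : ru (jl y) = ru j₀ := by
      rw [← hRJ y hyW, hroot y hyT, ← hroot x hxT, hRW x hxW]
    rw [hR] at hry'
    have hne : jl y ≠ j₀ := hP2 y hyT hyW
    refine close_outside hP (by omega) [jl y, ru j₀, j₀, y₀, w] ?_ ?_ (by simp) ?_
      (by simp; omega)
    · simp [List.nodup_cons]
      exact ⟨⟨(hKJ _ hjy _ hr₀).symm, hne, ne_of_mem_of_not_mem hjy hyJ,
        ne_of_mem_of_not_mem hjy hwJ⟩, ⟨hKJ _ hj₀ _ hr₀, ne_of_mem_of_not_mem hr₀ hyK,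
        ne_of_mem_of_not_mem hr₀ hwK⟩, ⟨ne_of_mem_of_not_mem hj₀ hyJ,
        ne_of_mem_of_not_mem hj₀ hwJ⟩, a2.ne⟩
    · simp only [List.mem_cons, List.not_mem_nil, or_false]
      rintro v (rfl | rfl | rfl | rfl | rfl)
      exacts [hJd _ hjy, hKd _ hr₀, hJd _ hj₀, hyT', hwT]
    · simp [hjy'.symm, hry'.symm, hr₀', a1, a2, hwx]
  push Not at hW
  by_cases hall : ∀ z ∈ T, jl z = jl x₀
  · exact hub (jl x₀) (hJd _ (hjl x₀ (hW x₀ hx₀)).1) fun z hz => hall z hz ▸ (hjl z (hW z hz)).2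
  obtain ⟨z', hz', hz''⟩ : ∃ z ∈ T, jl z ≠ jl x₀ := by
    by_contra h
    push Not at h
    exact hall h
  obtain ⟨x, y, hx, hy, hP⟩ := hcross T c f hC (fun v => jl v = jl x₀) ⟨x₀, hx₀, rfl⟩
    ⟨z', hz', hz''⟩ (m - 4) (by omega) (by omega)
  have hxT : x ∈ T := by exact_mod_cast hP.left_mem
  have hyT : y ∈ T := by exact_mod_cast hP.right_mem
  obtain ⟨hjx, hjx'⟩ := hjl x (hW x hxT)
  obtain ⟨hjy, hjy'⟩ := hjl y (hW y hyT)
  obtain ⟨hrx, hrx'⟩ := hru _ hjx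
  obtain ⟨hry, hry'⟩ := hru _ hjy
  have hR : ru (jl y) = ru (jl x) := by
    rw [← hRJ y (hW y hyT), hroot y hyT, ← hroot x hxT, hRJ x (hW x hxT)]
  rw [hR] at hry'
  have hne : jl y ≠ jl x := fun e => hy (e.trans hx)
  refine close_outside hP (by omega) [jl y, ru (jl x), jl x] ?_ ?_ (by simp) ?_ (by simp; omega)
  · simp [List.nodup_cons]
    exact ⟨⟨(hKJ _ hjy _ hrx).symm, hne⟩, hKJ _ hjx _ hrx⟩
  · simp only [List.mem_cons, List.not_mem_nil, or_false]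
    rintro v (rfl | rfl | rfl)
    exacts [hJd _ hjy, hKd _ hrx, hJd _ hjx]
  · simp [hjy'.symm, hry'.symm, hrx', hjx']

end Vale.Agent.P048.Full
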