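import Vale.Agent.P048.Full.GrowthStep
import Vale.Agent.P048.Full.Spec

/-!
Growth of balls in a critical set without big cliques.
-/

namespace Vale.Agent.P048

variable {V : Type*} [DecidableEq V] {G : SimpleGraph V}

/-- A critical set without big cliques is impossible, by the sparse-layer bound. -/
theorem growthSpec {m : ℕ} (h5 : 5 ≤ m) (hlay : Full.LayerSpec G m) : Full.GrowthSpec G m := by
  intro hnc S hS hne ha hno
  refine hS.growth_contra h5 hne ha ?_
  intro r d par hB h hh hhm
  exact hlay hnc S r d par hB hno h hh hhm _ (Finset.filter_subset _ _)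
    (fun v hv => (Finset.mem_filter.1 hv).2)

end Vale.Agent.P048
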