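import Vale.Agent.P048.LayerBound
import Vale.Agent.P048.Expand

/-!
Growth of balls around a vertex of a critical set.
-/

namespace Vale.Agent.P048

open Finset

variable {V : Type*} {G : SimpleGraph V}

/-- Interface: every layer of depth below `m / 2` of every breadth-first structure inside `S`
satisfies `2 |Z| ≤ (m - 2) α(Z)`. -/
def LayerSpec (G : SimpleGraph V) (S : Finset V) (m : ℕ) : Prop :=
  ∀ (r : V) (d : V → ℕ) (par : V → V), BFS G S r d par → ∀ h, 1 ≤ h → 2 * h + 1 ≤ m →
    2 * (S.filter (fun v => d v = h)).card ≤ (m - 2) * aNum G (S.filter (fun v => d v = h))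

/-- The levels of the same parity as `q`, up to `q`. -/
def levelsUpTo (q : ℕ) : Finset ℕ := (Finset.range (q + 1)).filter (fun h => h % 2 = q % 2)

lemma mem_levelsUpTo {q h : ℕ} : h ∈ levelsUpTo q ↔ h ≤ q ∧ h % 2 = q % 2 := by
  simp [levelsUpTo]

lemma sum_levels_succ (F : ℕ → ℕ) (q : ℕ) :
    ∑ h ∈ levelsUpTo (q + 1), F h + ∑ h ∈ levelsUpTo q, F h = ∑ h ∈ Finset.range (q + 2), F h := by
  rw [← Finset.sum_union (by
    rw [Finset.disjoint_left]
    intro h h1 h2
    simp only [mem_levelsUpTo] at h1 h2
    omega)]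
  congr 1
  ext h
  simp only [Finset.mem_union, mem_levelsUpTo, Finset.mem_range]
  omega

variable [DecidableEq V]

/-- In a critical set with all shallow layers sparse, some ball has too large an independent set. -/
theorem Crit.growth_contra {S : Finset V} {m : ℕ} (h5 : 5 ≤ m) (hS : Crit G S (m - 1))
    (hne : S.Nonempty) (ha : aNum G S + 1 ≤ m) (hlay : LayerSpec G S m) : False := by
  classical
  obtain ⟨r, hr⟩ := hne
  obtain ⟨d, par, hB, -⟩ := exists_bfs (G := G) (H := S) (r := r) (a := S.card) hr (fun v hv => by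
    obtain ⟨n, hn⟩ := hS.conn r hr v hv
    exact ⟨n, by have := hn.le_card; omega, hn⟩)
  set F : ℕ → ℕ := fun h => aNum G (S.filter (fun v => d v = h)) with hF
  set P : ℕ → ℕ := fun q => ∑ h ∈ levelsUpTo q, F h with hP
  set B : ℕ → Finset V := fun q => S.filter (fun v => d v ≤ q) with hBall
  have hL0 : S.filter (fun v => d v = 0) = {r} := by
    ext v
    simp only [Finset.mem_filter, Finset.mem_singleton]
    exact ⟨fun h => hB.eq_root v h.1 h.2, fun h => h ▸ ⟨hB.root_mem, hB.root_zero⟩⟩
  have hF0 : F 0 = 1 := by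
    show aNum G (S.filter (fun v => d v = 0)) = 1
    rw [hL0]
    apply le_antisymm
    · refine aNum_le fun I hI _ => ?_
      have := Finset.card_le_card (Finset.coe_subset.1 hI)
      simpa using this
    · exact aNum_pos (by simp)
  have hP0 : P 0 = 1 := by
    have : levelsUpTo 0 = {0} := by
      ext h; simp only [mem_levelsUpTo, Finset.mem_singleton]; omega
    simp [hP, this, hF0]
  have hPa : ∀ q, P q ≤ aNum G (B q) := by
    intro q
    refine (sum_layers_le hB.edge (levelsUpTo q) (fun i hi j hj => by
      simp only [mem_levelsUpTo] at hi hj; omega)).trans (aNum_mono ?_)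
    intro v hv
    simp only [Finset.mem_filter, mem_levelsUpTo] at hv
    simp [hBall, hv.1, hv.2.1]
  have hPS : ∀ q, P q ≤ aNum G S := fun q =>
    (hPa q).trans (aNum_mono (Finset.filter_subset _ _))
  have step : ∀ q, 2 * q + 3 ≤ m → m * P q + (m - 2) ≤ (m - 2) * P (q + 1) := by
    intro q hq
    have hlow : (m - 1) * aNum G (B q) + 1 ≤ (B (q + 1)).card := by
      refine (hS.closedNbr_card (Finset.filter_subset _ _)
        ⟨r, Finset.mem_filter.2 ⟨hr, by rw [hB.root_zero]; omega⟩⟩).trans (Finset.card_le_card ?_)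
      intro v hv
      rw [mem_closedNbr] at hv
      simp only [Finset.mem_filter] at hv
      refine Finset.mem_filter.2 ⟨hv.1, ?_⟩
      rcases hv.2 with h | ⟨x, hx, hxv⟩
      · omega
      · have := hB.edge v hv.1 x hx.1 hxv.symm
        omega
    have hcard : (B (q + 1)).card = ∑ h ∈ Finset.range (q + 2),
        (S.filter (fun v => d v = h)).card := by
      rw [Finset.card_eq_sum_card_fiberwise (f := d) (t := Finset.range (q + 2)) (fun v hv => by
        simp [hBall] at hv ⊢; omega)]
      refine Finset.sum_congr rfl fun h hh => ?_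
      congr 1
      ext v
      simp [hBall] at hh ⊢
      exact fun e _ => by omega
    rw [Finset.sum_range_succ', hL0, Finset.card_singleton] at hcard
    have hsum : 2 * ∑ h ∈ Finset.range (q + 1), (S.filter (fun v => d v = h + 1)).card ≤
        (m - 2) * ∑ h ∈ Finset.range (q + 1), F (h + 1) := by
      rw [Finset.mul_sum, Finset.mul_sum]
      refine Finset.sum_le_sum fun h hh => ?_
      simp at hh
      exact hlay r d par hB (h + 1) (by omega) (by omega)
    have hsplit : P (q + 1) + P q = (∑ h ∈ Finset.range (q + 1), F (h + 1)) + 1 := by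
      rw [hP]
      simp only
      rw [sum_levels_succ F q, Finset.sum_range_succ', hF0]
    obtain ⟨e, rfl⟩ : ∃ e, m = e + 2 := ⟨m - 2, by omega⟩
    have h1 := Nat.mul_le_mul_left (e + 2 - 1) (hPa q)
    simp only [Nat.add_sub_cancel, show e + 2 - 1 = e + 1 by omega] at *
    set X := ∑ h ∈ Finset.range (q + 1), F (h + 1)
    have h3 : e * P (q + 1) + e * P q = e * X + e := by rw [← Nat.mul_add, hsplit]; ring
    nlinarith
  have main : ∀ q, 2 * q + 1 ≤ m → 2 * q + 1 ≤ P q := by
    intro q
    induction q with
    | zero => intro _; omega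
    | succ q ih =>
      intro hq
      have h1 := ih (by omega)
      have h2 := step q (by omega)
      by_contra hlt
      have h3 : P (q + 1) ≤ P q + 1 := by omega
      have h4 := Nat.mul_le_mul_left (m - 2) h3
      obtain ⟨e, rfl⟩ : ∃ e, m = e + 2 := ⟨m - 2, by omega⟩
      simp only [Nat.add_sub_cancel] at *
      nlinarith
  obtain ⟨t, ht | ht⟩ := Nat.even_or_odd' m
  · -- even `m`: the last step grows by three
    obtain ⟨u, rfl⟩ : ∃ u, t = u + 3 := ⟨t - 3, by omega⟩
    have h1 := main (u + 1) (by omega)
    have h2 := step (u + 1) (by omega)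
    have h3 := hPS (u + 1 + 1)
    have h4 : P (u + 1 + 1) ≤ P (u + 1) + 2 := by omega
    have h5' := Nat.mul_le_mul_left (m - 2) h4
    have e : m - 2 = 2 * u + 4 := by omega
    rw [e] at h2 h5'
    subst ht
    nlinarith
  · have := main t (by omega)
    have := hPS t
    omega

end Vale.Agent.P048
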