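import Vale.Agent.P048.Full.KPath

/-!
Counting stops, ports and representatives along a list through a clique.
-/

namespace Vale.Agent.P048

open List

variable {V : Type*} [DecidableEq V] {G : SimpleGraph V} {S K : Finset V} {L A B C : List V}
  {u v w p x : V}

open scoped Classical in
/-- The stops of a list. -/
noncomputable def stopsF (K : Finset V) (L : List V) : Finset V :=
  L.toFinset.filter (Stop K L)

/-- The stops in `K`. -/
noncomputable def portsF (K : Finset V) (L : List V) : Finset V :=
  (stopsF K L).filter (fun v => v ∈ K)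

/-- The stops outside `K`. -/
noncomputable def repsF (K : Finset V) (L : List V) : Finset V :=
  (stopsF K L).filter (fun v => v ∉ K)

lemma mem_stopsF : v ∈ stopsF K L ↔ Stop K L v := by
  classical
  simp only [stopsF, Finset.mem_filter, List.mem_toFinset]
  exact ⟨fun h => h.2, fun h => ⟨h.mem, h⟩⟩

lemma mem_portsF : v ∈ portsF K L ↔ Stop K L v ∧ v ∈ K := by
  simp [portsF, mem_stopsF]

lemma mem_repsF : v ∈ repsF K L ↔ Stop K L v ∧ v ∉ K := by
  simp [repsF, mem_stopsF]

/-- Stops are as many as members of `K`. -/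
lemma card_stopsF : ∀ L : List V, L.Nodup →
    (stopsF K L).card = (L.toFinset ∩ K).card + bd K L.head? L.head? +
      (match L with | [] => 0 | a :: _ => if a ∈ K then 0 else 1)
  | [], _ => by
    have : stopsF K ([] : List V) = ∅ := by
      ext v; simp [mem_stopsF]; intro h; simpa using h.mem
    simp [this, bd]
  | a :: T, hnd => by
    classical
    have hnd' := List.nodup_cons.1 hnd
    have ih := card_stopsF T hnd'.2
    have ha : a ∉ stopsF K T := fun h => hnd'.1 (mem_stopsF.1 h).mem
    have e : stopsF K (a :: T) =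
        if (∀ x ∈ T.head?, x ∈ K) then insert a (stopsF K T) else stopsF K T := by
      ext v
      split_ifs with h
      · rw [Finset.mem_insert, mem_stopsF, mem_stopsF, stop_cons_iff]
        exact ⟨fun h' => h'.imp_left fun h'' => h''.1, fun h' => h'.imp_left fun h'' => ⟨h'', h⟩⟩
      · rw [mem_stopsF, mem_stopsF, stop_cons_iff]
        exact ⟨fun h' => h'.resolve_left fun h'' => h h''.2, Or.inr⟩
    have e2 : ((a :: T).toFinset ∩ K).card =
        (T.toFinset ∩ K).card + if a ∈ K then 1 else 0 := by
      by_cases haK : a ∈ K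
      · rw [List.toFinset_cons, Finset.insert_inter_of_mem haK,
          Finset.card_insert_of_notMem (by simp [hnd'.1])]
        simp [haK]
      · rw [List.toFinset_cons, Finset.insert_inter_of_notMem haK]
        simp [haK]
    rw [e, e2]
    cases T with
    | nil =>
      have : stopsF K ([] : List V) = ∅ := by
        ext v; simp [mem_stopsF]; intro h; simpa using h.mem
      by_cases haK : a ∈ K <;> simp [this, bd, haK]
    | cons b T =>
      by_cases hb : b ∈ K <;> by_cases haK : a ∈ K <;>
        simp [bd, hb, haK] at ih ⊢ <;>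
        (try rw [Finset.card_insert_of_notMem ha]) <;> omega

lemma card_ports_add_reps (h : KList G S K L) (hcov : ∀ k ∈ K, k ∈ L) :
    (portsF K L).card + (repsF K L).card = K.card := by
  have h1 := card_stopsF (K := K) L h.nodup
  have h2 : L.toFinset ∩ K = K := Finset.inter_eq_right.2 fun k hk => List.mem_toFinset.2 (hcov k hk)
  rw [h2] at h1
  have h3 := Finset.card_filter_add_card_filter_not (s := stopsF K L) (fun v => v ∈ K)
  show ((stopsF K L).filter _).card + ((stopsF K L).filter _).card = _
  rw [h3, h1]
  cases L with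
  | nil => simp [bd]
  | cons a T => simp [bd, h.head a rfl]

omit [DecidableEq V] in
lemma exists_pred (hx : x ∈ L) (h : ∀ y ∈ L.head?, y ≠ x) :
    ∃ A p C, L = A ++ p :: x :: C := by
  obtain ⟨A, C, rfl⟩ := List.append_of_mem hx
  rcases List.eq_nil_or_concat A with rfl | ⟨A', p, rfl⟩
  · exact absurd rfl (h x rfl)
  · exact ⟨A', p, C, by simp⟩

omit [DecidableEq V] in
lemma pred_unique {A' C' : List V} {p' : V} (hnd : L.Nodup) (e : L = A ++ p :: x :: C)
    (e' : L = A' ++ p' :: x :: C') : p = p' := by
  have h1 : L = (A ++ [p]) ++ x :: C := by simp [e]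
  have h2 : L = (A' ++ [p']) ++ x :: C' := by simp [e']
  obtain ⟨h, -⟩ := append_cons_inj_of_nodup (h1 ▸ hnd) (h1.symm.trans h2)
  simpa using (List.append_inj' h rfl).2

omit [DecidableEq V] in
lemma succ_unique {A' C' : List V} {x' : V} (hnd : L.Nodup) (e : L = A ++ p :: x :: C)
    (e' : L = A' ++ p :: x' :: C') : x = x' ∧ C = C' := by
  obtain ⟨-, h⟩ := append_cons_inj_of_nodup (e ▸ hnd) (e.symm.trans e')
  simpa using h

lemma Rep.decomp (h : KList G S K L) (hx : x ∈ repsF K L) :
    ∃ A p a C, L = A ++ p :: x :: a :: C ∧ a ∈ K := by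
  obtain ⟨hs, hxK⟩ := mem_repsF.1 hx
  obtain ⟨A, p, C, e⟩ := exists_pred hs.mem (fun y hy hyx => hxK (hyx ▸ h.head y hy))
  cases C with
  | nil => exact absurd (h.last x (by simp [e, List.getLast?_append])) hxK
  | cons a C =>
    exact ⟨A, p, a, C, e, hs.next h.nodup (A := A ++ [p]) (C := a :: C) (by simp [e]) a rfl⟩

/-- The interior vertices having exactly one interior vertex after them in their segment. -/
def Penult (K : Finset V) (L : List V) (w : V) : Prop :=
  w ∉ K ∧ ∃ A x a C, L = A ++ w :: x :: a :: C ∧ x ∉ K ∧ a ∈ K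

open scoped Classical in
/-- The members of `L` that are `Penult`. -/
noncomputable def penF (K : Finset V) (L : List V) : Finset V := L.toFinset.filter (Penult K L)

omit [DecidableEq V] in
lemma Penult.mem (h : Penult K L w) : w ∈ L := by
  obtain ⟨-, A, x, a, C, rfl, -⟩ := h; simp

lemma mem_penF : w ∈ penF K L ↔ Penult K L w := by
  classical
  simp only [penF, Finset.mem_filter, List.mem_toFinset]
  exact ⟨fun h => h.2, fun h => ⟨h.mem, h⟩⟩

/-- Without one-vertex segments there are as many penultimate vertices as representatives. -/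
lemma card_repsF_le_penF (h : KList G S K L)
    (h1 : ∀ A p x a C, L = A ++ p :: x :: a :: C → x ∉ K → a ∈ K → p ∉ K) :
    (repsF K L).card ≤ (penF K L).card := by
  classical
  have key : ∀ x ∈ repsF K L, ∃ p, Penult K L p ∧ ∃ A C, L = A ++ p :: x :: C := by
    intro x hx
    obtain ⟨A, p, a, C, e, ha⟩ := Rep.decomp h hx
    have hxK := (mem_repsF.1 hx).2
    exact ⟨p, ⟨h1 A p x a C e hxK ha, A, x, a, C, e, hxK, ha⟩, A, a :: C, e⟩
  refine Finset.card_le_card_of_injOn (fun x => if hx : x ∈ repsF K L then (key x hx).choose else x)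
    ?_ ?_
  · intro x hx
    simp only [Finset.mem_coe] at hx
    simp only [dif_pos hx, Finset.mem_coe]
    exact mem_penF.2 (key x hx).choose_spec.1
  · intro x hx y hy e
    simp only [Finset.mem_coe] at hx hy
    simp only [dif_pos hx, dif_pos hy] at e
    obtain ⟨-, A, C, h1⟩ := (key x hx).choose_spec
    obtain ⟨-, A', C', h2⟩ := (key y hy).choose_spec
    rw [← e] at h2
    exact (succ_unique h.nodup h1 h2).1

lemma disjoint_reps_penF (h : KList G S K L) : Disjoint (repsF K L) (penF K L) := by
  rw [Finset.disjoint_left]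
  intro x hx hx'
  obtain ⟨-, A, y, a, C, e, hy, -⟩ := mem_penF.1 hx'
  exact hy ((mem_repsF.1 hx).1.next h.nodup e y rfl)

lemma interior_bound (h : KList G S K L) (hcov : ∀ k ∈ K, k ∈ L) :
    K.card + (repsF K L).card + (penF K L).card ≤ L.length := by
  have hd1 : Disjoint K (repsF K L ∪ penF K L) := by
    rw [Finset.disjoint_left]
    intro x hx hx'
    rcases Finset.mem_union.1 hx' with hx' | hx'
    · exact (mem_repsF.1 hx').2 hx
    · exact (mem_penF.1 hx').1 hx
  have hsub : K ∪ (repsF K L ∪ penF K L) ⊆ L.toFinset := by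
    intro x hx
    rw [List.mem_toFinset]
    rcases Finset.mem_union.1 hx with hx | hx
    · exact hcov x hx
    · rcases Finset.mem_union.1 hx with hx | hx
      · exact (mem_repsF.1 hx).1.mem
      · exact (mem_penF.1 hx).mem
  have := Finset.card_le_card hsub
  rw [Finset.card_union_of_disjoint hd1, Finset.card_union_of_disjoint (disjoint_reps_penF h),
    List.toFinset_card_of_nodup h.nodup] at this
  omega

open scoped Classical in
/-- The members of `K` with both neighbours in `K`. -/
noncomputable def isoF (K : Finset V) (L : List V) : Finset V := K.filter (Iso K L)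

omit [DecidableEq V] in
lemma mem_isoF : w ∈ isoF K L ↔ Iso K L w := by
  classical
  simp only [isoF, Finset.mem_filter]
  exact ⟨fun h => h.2, fun h => ⟨h.1, h⟩⟩

/-- Members of `K` are isolated, or next to a segment. -/
lemma card_le_iso (h : KList G S K L) (hcov : ∀ k ∈ K, k ∈ L) :
    K.card ≤ 2 * (repsF K L).card + (isoF K L).card := by
  classical
  set P := K.filter (fun a => ∃ A x C, L = A ++ x :: a :: C ∧ x ∉ K) with hP
  have hsub : K ⊆ (K \ portsF K L) ∪ P ∪ isoF K L := by
    intro k hk
    simp only [Finset.mem_union, Finset.mem_sdiff, hP, Finset.mem_filter, mem_isoF, mem_portsF]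
    by_cases hs : Stop K L k
    · obtain ⟨A, C, e, hC⟩ := hs
      rcases List.eq_nil_or_concat A with rfl | ⟨A', y, rfl⟩
      · exact Or.inr ⟨hk, [], C, e, by simp, hC⟩
      · by_cases hy : y ∈ K
        · exact Or.inr ⟨hk, A'.concat y, C, e, by simp [hy], hC⟩
        · exact Or.inl (Or.inr ⟨hk, A', y, C, by simp [e], hy⟩)
    · exact Or.inl (Or.inl ⟨hk, fun h' => hs h'.1⟩)
  have hPc : P.card ≤ (repsF K L).card := by
    have key : ∀ a ∈ P, ∃ x ∈ repsF K L, ∃ A C, L = A ++ x :: a :: C := by
      intro a ha
      simp [hP] at ha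
      obtain ⟨haK, A, x, ⟨C, e⟩, hx⟩ := ha
      exact ⟨x, mem_repsF.2 ⟨⟨A, a :: C, e, fun y hy => by simp at hy; subst hy; exact haK⟩, hx⟩,
        A, C, e⟩
    refine Finset.card_le_card_of_injOn
      (fun a => if ha : a ∈ P then (key a ha).choose else a) ?_ ?_
    · intro a ha
      simp only [Finset.mem_coe] at ha
      simp only [dif_pos ha, Finset.mem_coe]
      exact (key a ha).choose_spec.1
    · intro a ha b hb e
      simp only [Finset.mem_coe] at ha hb
      simp only [dif_pos ha, dif_pos hb] at e
      obtain ⟨-, A, C, h1⟩ := (key a ha).choose_spec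
      obtain ⟨-, A', C', h2⟩ := (key b hb).choose_spec
      rw [← e] at h2
      exact (succ_unique h.nodup h1 h2).1
  have h1 := card_ports_add_reps h hcov
  have h2 : (K \ portsF K L).card + (portsF K L).card = K.card :=
    Finset.card_sdiff_add_card_eq_card fun v hv => (mem_portsF.1 hv).2
  have h3 := Finset.card_le_card hsub
  have h4 := Finset.card_union_le ((K \ portsF K L) ∪ P) (isoF K L)
  have h5 := Finset.card_union_le (K \ portsF K L) P
  omega

end Vale.Agent.P048
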