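import Vale.Agent.P048.Lists
import Vale.Agent.P048.Alpha

/-!
Lists running through a clique: linear forests of ears on a clique, written as one list.
-/

namespace Vale.Agent.P048

open List

variable {V : Type*} {G : SimpleGraph V} {S K : Finset V} {L A B C D W Y : List V} {m : ℕ}
  {u v w p q x : V}

/-- A path starting and ending in `K`, given as a list. -/
structure KList (G : SimpleGraph V) (S K : Finset V) (L : List V) : Prop where
  nodup : L.Nodup
  chain : L.IsChain G.Adj
  head : ∀ x ∈ L.head?, x ∈ K
  last : ∀ x ∈ L.getLast?, x ∈ K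
  mem : ∀ x ∈ L, x ∈ S

/-- `v` is a member of `L` followed by a member of `K` or by nothing. -/
def Stop (K : Finset V) (L : List V) (v : V) : Prop :=
  ∃ A C, L = A ++ v :: C ∧ ∀ x ∈ C.head?, x ∈ K

/-- `w` is a member of `K` whose neighbours in `L` are in `K`. -/
def Iso (K : Finset V) (L : List V) (w : V) : Prop :=
  w ∈ K ∧ ∃ A C, L = A ++ w :: C ∧ (∀ x ∈ A.getLast?, x ∈ K) ∧ ∀ x ∈ C.head?, x ∈ K

lemma append_cons_inj_of_nodup {A' C' : List V} (h : (A ++ v :: C).Nodup)
    (e : A ++ v :: C = A' ++ v :: C') : A = A' ∧ C = C' := by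
  induction A generalizing A' with
  | nil =>
    cases A' with
    | nil => simpa using e
    | cons b A' =>
      simp at e h
      obtain ⟨rfl, rfl⟩ := e
      simp at h
  | cons a A ih =>
    cases A' with
    | nil =>
      simp at e h
      obtain ⟨rfl, rfl⟩ := e
      simp at h
    | cons b A' =>
      simp at e h
      obtain ⟨rfl, e⟩ := e
      obtain ⟨h1, h2⟩ := ih h.2 e
      exact ⟨by rw [h1], h2⟩

lemma Stop.mem (h : Stop K L v) : v ∈ L := by
  obtain ⟨A, C, rfl, -⟩ := h; simp

lemma Stop.next (h : Stop K L v) (hL : L.Nodup) (e : L = A ++ v :: C) :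
    ∀ x ∈ C.head?, x ∈ K := by
  obtain ⟨A', C', e', hC⟩ := h
  subst e
  obtain ⟨-, rfl⟩ := append_cons_inj_of_nodup hL e'
  exact hC

lemma Iso.stop (h : Iso K L w) : Stop K L w := by
  obtain ⟨-, A, C, e, -, hC⟩ := h
  exact ⟨A, C, e, hC⟩

lemma Stop.cons (h : Stop K L v) (a : V) : Stop K (a :: L) v := by
  obtain ⟨A, C, rfl, hC⟩ := h
  exact ⟨a :: A, C, rfl, hC⟩

lemma stop_cons_iff {a : V} :
    Stop K (a :: L) v ↔ (v = a ∧ ∀ x ∈ L.head?, x ∈ K) ∨ Stop K L v := by
  constructor
  · rintro ⟨A, C, e, hC⟩
    cases A with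
    | nil =>
      simp at e
      obtain ⟨rfl, rfl⟩ := e
      exact Or.inl ⟨rfl, hC⟩
    | cons b A =>
      simp at e
      exact Or.inr ⟨A, C, e.2, hC⟩
  · rintro (⟨rfl, h⟩ | h)
    · exact ⟨[], L, rfl, h⟩
    · exact h.cons a

lemma stop_append_left (h : Stop K (A ++ B) v) (hv : v ∈ A) (hnd : (A ++ B).Nodup)
    {B' : List V} (hB : ∀ y ∈ B'.head?, y ∈ K ∨ y ∈ B.head?) : Stop K (A ++ B') v := by
  obtain ⟨A1, A2, rfl⟩ := List.append_of_mem hv
  have hn := h.next (A := A1) (C := A2 ++ B) hnd (by simp)
  refine ⟨A1, A2 ++ B', by simp, ?_⟩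
  cases A2 with
  | nil =>
    intro y hy
    rcases hB y (by simpa using hy) with h' | h'
    · exact h'
    · exact hn y (by simpa using h')
  | cons a A2 => simpa using hn

lemma stop_append_right (h : Stop K (A ++ B) v) (hv : v ∈ B) (hnd : (A ++ B).Nodup) :
    Stop K B v := by
  obtain ⟨B1, B2, rfl⟩ := List.append_of_mem hv
  exact ⟨B1, B2, rfl, h.next (A := A ++ B1) hnd (by simp)⟩

lemma Stop.append (h : Stop K B v) (A : List V) : Stop K (A ++ B) v := by
  obtain ⟨B1, B2, rfl, hC⟩ := h
  exact ⟨A ++ B1, B2, by simp, hC⟩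

/-- The number of changes between members and nonmembers of `K` along a list. -/
def bd [DecidableEq V] (K : Finset V) : Option V → Option V → ℕ
  | some a, some b => if (a ∈ K ↔ b ∈ K) then 0 else 1
  | _, _ => 0

/-- The total number of changes along a list. -/
def tr [DecidableEq V] (K : Finset V) : List V → ℕ
  | [] => 0
  | a :: T => bd K (some a) T.head? + tr K T

variable [DecidableEq V]

lemma tr_append : ∀ A B : List V, tr K (A ++ B) = tr K A + tr K B + bd K A.getLast? B.head?
  | [], B => by simp [tr, bd]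
  | [a], B => by simp [tr, bd]; omega
  | a :: b :: A, B => by
    have := tr_append (b :: A) B
    simp [tr, List.getLast?_cons_cons] at this ⊢
    omega

omit [DecidableEq V] in
lemma bd_comm [DecidableEq V] (o o' : Option V) : bd K o o' = bd K o' o := by
  cases o <;> cases o' <;> simp [bd, iff_comm]

lemma tr_reverse : ∀ A : List V, tr K A.reverse = tr K A
  | [] => rfl
  | a :: A => by
    rw [List.reverse_cons, tr_append, tr_reverse A]
    have e : bd K (some a) A.head? = bd K A.head? (some a) := bd_comm _ _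
    simp only [tr, List.getLast?_reverse, List.head?_cons, e]
    simp [bd]
    omega

lemma bd_mem_right {o : Option V} (ho : ∀ y ∈ o, y ∈ K) :
    bd K (some x) o = if o = none ∨ x ∈ K then 0 else 1 := by
  cases o with
  | none => simp [bd]
  | some b => simp [bd, ho b rfl]

omit [DecidableEq V] in
lemma KList.reverse (h : KList G S K L) : KList G S K L.reverse where
  nodup := List.nodup_reverse.2 h.nodup
  chain := by
    rw [List.isChain_reverse]
    exact h.chain.imp fun _ _ hab => hab.symm
  head := by rw [List.head?_reverse]; exact h.last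
  last := by rw [List.getLast?_reverse]; exact h.head
  mem := fun x hx => h.mem x (List.mem_reverse.1 hx)

omit [DecidableEq V] in
lemma ZCyc.hasCyc {c : ℕ} {f : ℤ → V} (h : ZCyc G c f) : HasCyc G c := by
  refine ⟨h.three_le, fun i => f i, ?_, fun i _ => ?_, ?_⟩
  · intro i hi j hj e
    have := h.eq_of_lt e (by omega) (by omega)
    omega
  · exact_mod_cast h.adj i
  · have h3 := h.three_le
    have h1 := h.adj ((c - 1 : ℕ) : ℤ)
    have e : ((c - 1 : ℕ) : ℤ) + 1 = 0 + (c : ℤ) := by omega
    rw [e, h.periodic] at h1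
    exact_mod_cast h1

omit [DecidableEq V] in
/-- A `KList` is a cycle. -/
lemma KList.length_ne (h : KList G S K L) (hK : G.IsClique (K : Set V)) (hm : 3 ≤ m)
    (hnc : ¬ HasCyc G m) : L.length ≠ m := by
  intro he
  obtain ⟨f, hf, -⟩ := exists_zcyc h.nodup h.chain (by omega) (fun a b ha hb => by
    apply hK (by exact_mod_cast h.last a ha) (by exact_mod_cast h.head b hb)
    intro hab
    subst hab
    cases L with
    | nil => simp at hb
    | cons c T =>
      simp at hb; subst hb
      cases T with
      | nil => simp at he; omega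
      | cons d T =>
        have hnd := (List.nodup_cons.1 h.nodup).1
        rw [List.getLast?_cons_cons] at ha
        exact hnd (List.mem_of_mem_getLast? ha))
  exact hnc (he ▸ hf.hasCyc)

omit [DecidableEq V] in
/-- Leaving out a block between members of `K`. -/
lemma KList.skip (h : KList G S K (A ++ D ++ C)) (hK : G.IsClique (K : Set V))
    (hA : ∀ y ∈ A.getLast?, y ∈ K) (hC : ∀ y ∈ C.head?, y ∈ K) :
    KList G S K (A ++ C) := by
  have hsub : (A ++ C).Sublist (A ++ D ++ C) := by
    rw [List.append_assoc]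
    exact (List.sublist_append_right D C).append_left A
  obtain ⟨hc1, hc2, -⟩ := List.isChain_append.1 h.chain
  refine ⟨h.nodup.sublist hsub, List.isChain_append.2
    ⟨(List.isChain_append.1 hc1).1, hc2, ?_⟩, ?_, ?_, fun y hy => h.mem y (hsub.subset hy)⟩
  · intro y hy z hz
    apply hK (by exact_mod_cast hA y hy) (by exact_mod_cast hC z hz)
    intro e
    exact (List.nodup_append.1 (h.nodup.sublist hsub)).2.2 y (List.mem_of_mem_getLast? hy) z
      (List.mem_of_mem_head? hz) e
  · cases A with
    | nil => simpa using hC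
    | cons a A => simpa using h.head
  · cases C with
    | nil => simpa using hA
    | cons c C =>
      have := h.last
      rw [List.getLast?_append] at this
      rw [List.getLast?_append]
      simpa [List.getLast?_cons] using this

omit [DecidableEq V] in
lemma Stop.skip (h : Stop K (A ++ D ++ C) v) (hnd : (A ++ D ++ C).Nodup) (hv : v ∉ D)
    (hC : ∀ y ∈ C.head?, y ∈ K) : Stop K (A ++ C) v := by
  have hv' : v ∈ A ∨ v ∈ C := by
    have := h.mem; simp at this; tauto
  rcases hv' with hv' | hv'
  · rw [List.append_assoc] at h hnd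
    exact stop_append_left h hv' hnd (fun y hy => Or.inl (hC y hy))
  · exact (stop_append_right h hv' hnd).append A

lemma tr_path_eq {p q : V} (Y : List V) :
    tr K (p :: Y ++ [q]) = tr K Y + bd K (some p) (Y ++ [q]).head? + bd K Y.getLast? (some q) := by
  show bd K (some p) (Y ++ [q]).head? + tr K (Y ++ [q]) = _
  rw [tr_append]
  simp [tr, bd]
  omega

lemma splice_aux (h : KList G S K (A ++ p :: W ++ C)) (hK : G.IsClique (K : Set V))
    (hW : W.getLast? = some q) (hhW : ∀ y ∈ W.head?, y ∈ K) (hC : ∀ y ∈ C.head?, y ∈ K)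
    (hY : Y.Nodup) (hdis : ∀ y ∈ Y, y ∉ A ++ p :: W ++ C) (hS : ∀ y ∈ Y, y ∈ S)
    (hch : (p :: Y ++ [q]).IsChain G.Adj) :
    ∃ L', KList G S K L' ∧ L' ~ (A ++ p :: W ++ C) ++ Y ∧
      tr K L' + (if p ∈ K then 0 else 1) + (if q ∈ K then 0 else 1) =
        tr K (A ++ p :: W ++ C) + tr K (p :: Y ++ [q]) := by
  have hWne : W ≠ [] := by intro e; simp [e] at hW
  obtain ⟨a, W', rfl⟩ := List.exists_cons_of_ne_nil hWne
  have hperm : (A ++ [p] ++ Y ++ ((a :: W').reverse ++ C)) ~ (A ++ p :: (a :: W') ++ C) ++ Y := by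
    rw [List.perm_iff_count]
    intro z
    simp [List.count_append, List.count_cons, List.count_reverse]
    omega
  have hnd : (A ++ [p] ++ Y ++ ((a :: W').reverse ++ C)).Nodup := by
    rw [hperm.nodup_iff, List.nodup_append]
    exact ⟨h.nodup, hY, fun x hx y hy e => hdis y hy (e ▸ hx)⟩
  refine ⟨_, ⟨hnd, ?_, ?_, ?_, ?_⟩, hperm, ?_⟩
  · have hc := h.chain
    rw [List.isChain_append] at hc
    obtain ⟨hc1, hcC, -⟩ := hc
    rw [List.isChain_split] at hc1
    obtain ⟨hcA, hcpW⟩ := hc1
    have hcW : (a :: W').IsChain G.Adj := hcpW.tail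
    rw [List.isChain_append] at hch
    obtain ⟨hcpY, -, hYq⟩ := hch
    have hcY : Y.IsChain G.Adj := hcpY.tail
    refine List.isChain_append.2 ⟨List.isChain_append.2 ⟨hcA, hcY, ?_⟩,
      List.isChain_append.2 ⟨?_, hcC, ?_⟩, ?_⟩
    · intro x hx y hy
      simp at hx; subst hx
      cases Y with
      | nil => simp at hy
      | cons b Y => simp at hy; subst hy; exact hcpY.rel
    · rw [List.isChain_reverse]
      exact hcW.imp fun _ _ hab => hab.symm
    · intro x hx y hy
      rw [List.getLast?_reverse] at hx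
      simp at hx; subst hx
      apply hK (by exact_mod_cast hhW a rfl) (by exact_mod_cast hC y hy)
      intro e
      have := (List.nodup_append.1 h.nodup).2.2 a (by simp) y (List.mem_of_mem_head? hy)
      exact this e
    · intro x hx y hy
      rw [List.head?_append, List.head?_reverse, hW] at hy
      simp at hy; subst hy
      apply hYq x ?_ _ rfl
      cases Y with
      | nil => simpa using hx
      | cons b Y =>
        rw [List.getLast?_append] at hx
        simpa [List.getLast?_cons] using hx
  · have := h.head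
    cases A <;> simpa using this
  · cases C with
    | nil =>
      intro x hx
      rw [List.append_nil, List.getLast?_append, List.getLast?_reverse] at hx
      simp at hx
      subst hx
      exact hhW a rfl
    | cons c C =>
      have := h.last
      rw [List.getLast?_append] at this
      simp [List.getLast?_append, List.getLast?_cons] at this ⊢
      exact this
  · intro x hx
    rcases List.mem_append.1 (hperm.subset hx) with hx | hx
    · exact h.mem x hx
    · exact hS x hx
  · have e1 : A ++ [p] ++ Y ++ ((a :: W').reverse ++ C) =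
        (A ++ [p]) ++ (Y ++ ((a :: W').reverse ++ C)) := by simp
    have e2 : A ++ p :: (a :: W') ++ C = (A ++ [p]) ++ ((a :: W') ++ C) := by simp
    rw [e1, e2, tr_append (A ++ [p]), tr_append (A ++ [p]), tr_append Y, tr_append (a :: W') C,
      tr_append (a :: W').reverse C, tr_reverse, tr_path_eq]
    simp only [List.getLast?_append, List.getLast?_singleton, List.getLast?_reverse,
      List.head?_append, List.head?_reverse, hW, List.head?_cons,
      Option.some_or]
    have hq : C.head? = none → q ∈ K := by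
      intro hn
      cases C with
      | nil => exact h.last q (by simpa [List.getLast?_append] using hW)
      | cons c C => simp at hn
    have ha : a ∈ K := hhW a rfl
    rw [bd_mem_right (x := a) hC, bd_mem_right (x := q) hC]
    simp only [ha, or_true, if_true]
    have e3 : bd K (some p) (some a) = if p ∈ K then 0 else 1 := by simp [bd, ha]
    rw [e3]
    by_cases hn : C.head? = none
    · simp [hn, hq hn]; omega
    · simp [hn]; omega

/-- Insert the path `Y` between two stops. -/
theorem KList.splice (h : KList G S K L) (hK : G.IsClique (K : Set V)) (hp : Stop K L p)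
    (hq : Stop K L q) (hne : p ≠ q) (hY : Y.Nodup) (hdis : ∀ y ∈ Y, y ∉ L)
    (hS : ∀ y ∈ Y, y ∈ S) (hch : (p :: Y ++ [q]).IsChain G.Adj) :
    ∃ L', KList G S K L' ∧ L' ~ L ++ Y ∧
      tr K L' + (if p ∈ K then 0 else 1) + (if q ∈ K then 0 else 1) =
        tr K L + tr K (p :: Y ++ [q]) := by
  obtain ⟨A, B, e⟩ := List.append_of_mem hp.mem
  subst e
  have hq' : q ∈ A ∨ q ∈ B := by
    have := hq.mem; simp at this; tauto
  rcases hq' with hqA | hqB
  · obtain ⟨A1, A2, rfl⟩ := List.append_of_mem hqA
    have eL : A1 ++ q :: A2 ++ p :: B = A1 ++ q :: (A2 ++ [p]) ++ B := by simp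
    have hh : ∀ y ∈ (A2 ++ [p]).head?, y ∈ K := by
      have := hq.next (A := A1) (C := A2 ++ p :: B) h.nodup (by simp)
      cases A2 <;> simpa using this
    have erev : (q :: Y.reverse ++ [p]) = (p :: Y ++ [q]).reverse := by simp
    obtain ⟨L', h1, h2, h3⟩ := splice_aux (Y := Y.reverse) (A := A1) (p := q)
      (W := A2 ++ [p]) (C := B) (q := p) (eL ▸ h) hK (by simp) hh (hp.next h.nodup rfl)
      (List.nodup_reverse.2 hY) (fun y hy => eL ▸ hdis y (List.mem_reverse.1 hy))
      (fun y hy => hS y (List.mem_reverse.1 hy))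
      (by
        rw [erev, List.isChain_reverse]
        exact hch.imp fun _ _ hab => hab.symm)
    refine ⟨L', h1, h2.trans ?_, ?_⟩
    · rw [eL]; exact (List.reverse_perm Y).append_left _
    · rw [eL, ← tr_reverse (p :: Y ++ [q]), ← erev]; omega
  · obtain ⟨B1, B2, rfl⟩ := List.append_of_mem hqB
    have eL : A ++ p :: (B1 ++ q :: B2) = A ++ p :: (B1 ++ [q]) ++ B2 := by simp
    have hh : ∀ y ∈ (B1 ++ [q]).head?, y ∈ K := by
      have := hp.next h.nodup rfl
      cases B1 <;> simpa using this
    have hC : ∀ y ∈ B2.head?, y ∈ K := hq.next (A := A ++ p :: B1) h.nodup (by simp)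
    rw [eL]
    exact splice_aux (eL ▸ h) hK (by simp) hh hC hY (fun y hy => eL ▸ hdis y hy) hS hch

/-- No outside path of the missing length between two stops. -/
theorem KList.no_link (h : KList G S K L) (hK : G.IsClique (K : Set V)) (hm : 3 ≤ m)
    (hnc : ¬ HasCyc G m) (hp : Stop K L p) (hq : Stop K L q) (hne : p ≠ q) (hY : Y.Nodup)
    (hdis : ∀ y ∈ Y, y ∉ L) (hS : ∀ y ∈ Y, y ∈ S) (hch : (p :: Y ++ [q]).IsChain G.Adj) :
    L.length + Y.length ≠ m := by
  obtain ⟨L', h1, h2, -⟩ := h.splice hK hp hq hne hY hdis hS hch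
  have := h1.length_ne hK hm hnc
  rw [h2.length_eq, List.length_append] at this
  exact this

end Vale.Agent.P048
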