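import Vale.Agent.P048.Full.Spec
import Vale.Agent.P048.Alpha

/-!
The sparse-layer bound from the core interfaces.
-/

namespace Vale.Agent.P048

open Finset

variable {V : Type*} {G : SimpleGraph V}

open scoped Classical

variable [DecidableEq V]

/-- A closed path through a common neighbour. -/
lemma PathLen.close_apex {S : Set V} {u v p : V} {n : ℕ} (hP : PathLen G S u v n) (hn : 1 ≤ n)
    (hp : p ∉ S) (hu : G.Adj p u) (hv : G.Adj p v) : HasCyc G (n + 2) := by
  have hne : u ≠ v := by
    obtain ⟨g, g0, gn, gi, -, -⟩ := hP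
    intro e
    have := gi 0 (by omega) n le_rfl (g0.trans (e.trans gn.symm))
    omega
  have Q := (pathLen_edge_pair hv.symm).append (pathLen_edge_pair hu) (by
    intro z hz hz'
    rcases hz with h | h
    · rcases hz' with h' | h'
      · exact h'
      · exact absurd (h'.symm.trans h) hne
    · exact h)
  exact hP.close Q hn le_add_self (by omega) (by
    intro z hz hz'
    rcases hz' with (h | h) | (h | h)
    · exact Or.inr h
    · exact absurd (h ▸ hz) hp
    · exact absurd (h ▸ hz) hp
    · exact Or.inl h)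

/-- Two tree paths to the common ancestor close a path inside a layer to a cycle. -/
lemma BFS.close_tree {H : Finset V} {r : V} {d : V → ℕ} {par : V → V} (hB : BFS G H r d par)
    {h j l : ℕ} {S : Set V} (hS : ∀ x ∈ S, d x = h) {u v : V} (hu : u ∈ H) (hv : v ∈ H)
    (hj : j + 1 ≤ h) (hl : 1 ≤ l) (hne : par^[j] u ≠ par^[j] v)
    (hsame : par^[j + 1] u = par^[j + 1] v) (hP : PathLen G S u v l) :
    HasCyc G (l + 2 * (j + 1)) := by
  have hdu := hS u hP.left_mem
  have hdv := hS v hP.right_mem
  have lev : ∀ x ∈ H, d x = h → ∀ q ≤ j + 1, d (par^[q] x) + q = h := fun x hx e q hq => by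
    rw [(hB.iterate hx q (by omega)).2, e]
  have P1 := hB.tree_path hv (j := j + 1) (by omega)
  have P2 := (hB.tree_path hu (j := j + 1) (by omega)).reverse
  rw [← hsame] at P1
  have Q := P1.append P2 (by
    rintro x ⟨q, hq, rfl⟩ ⟨q', hq', he⟩
    have h1 := lev v hv hdv q hq
    have h2 := lev u hu hdu q' hq'
    rw [he] at h2
    obtain rfl : q' = q := by omega
    rcases eq_or_lt_of_le hq with e | e
    · subst e; exact he.symm
    · exfalso
      apply hne
      have e' : j = (j - q') + q' := by omega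
      rw [e', Function.iterate_add_apply, Function.iterate_add_apply, he])
  have := hP.close Q hl (by omega) (by omega) (by
    intro x hx hx'
    rcases hx' with ⟨q, hq, he⟩ | ⟨q, hq, he⟩
    · have h1 := lev v hv hdv q hq
      rw [he, hS x hx] at h1
      obtain rfl : q = 0 := by omega
      exact Or.inr he.symm
    · have h1 := lev u hu hdu q hq
      rw [he, hS x hx] at h1
      obtain rfl : q = 0 := by omega
      exact Or.inl he.symm)
  have e : l + 2 * (j + 1) = l + (j + 1 + (j + 1)) := by omega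
  rwa [e]

/-- The layer bound follows from the core interfaces. -/
theorem layerSpec {m : ℕ} (h5 : 5 ≤ m) (hcore : Full.CoreSpec G m) (hcross : Full.CrossSpec G m)
    (hlong : Full.LongPathSpec G m) : Full.LayerSpec G m := by
  classical
  intro hnc H r d par hB hno h hh1 hhm Z hZH hZd
  by_contra hbig
  push Not at hbig
  obtain ⟨T, hTZ, c, f, hT⟩ := hcore (m - 2) Z le_rfl hbig (fun K hK hKc => by
    have := hno K (hK.trans hZH) hKc
    omega)
  have hTS : ∀ v ∈ T, v ∈ H ∧ d v = h := fun v hv => ⟨hZH (hTZ hv), hZd v (hTZ hv)⟩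
  have htop : ∀ v ∈ T, ∀ w ∈ T, par^[h] v = par^[h] w := by
    intro v hv w hw
    obtain ⟨a1, a2⟩ := hB.iterate (hTS v hv).1 h (by rw [(hTS v hv).2])
    obtain ⟨b1, b2⟩ := hB.iterate (hTS w hw).1 h (by rw [(hTS w hw).2])
    rw [(hTS v hv).2] at a2
    rw [(hTS w hw).2] at b2
    rw [hB.eq_root _ a1 (by omega), hB.eq_root _ b1 (by omega)]
  have hex : ∃ j, ∀ v ∈ T, ∀ w ∈ T, par^[j] v = par^[j] w := ⟨h, htop⟩
  obtain ⟨j, hsame, hmin⟩ : ∃ j, (∀ v ∈ T, ∀ w ∈ T, par^[j] v = par^[j] w) ∧
      ∀ i < j, ¬ ∀ v ∈ T, ∀ w ∈ T, par^[i] v = par^[i] w :=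
    ⟨Nat.find hex, Nat.find_spec hex, fun i hi => Nat.find_min hex hi⟩
  have hjh : j ≤ h := by
    by_contra hlt
    exact hmin h (by omega) htop
  have hT1 : 1 < T.card := by
    have := hT.card
    omega
  match j, hsame, hmin, hjh with
  | 0, hsame, _, _ =>
    obtain ⟨a, ha, b, hb, hab⟩ := Finset.one_lt_card.1 hT1
    exact hab (hsame a ha b hb)
  | 1, hsame, _, hjh =>
    obtain ⟨u, v, hP⟩ := hlong T c f hT
    have hp : ∀ w ∈ T, G.Adj (par u) w := by
      intro w hw
      have := (hB.step w (hTS w hw).1 (by rw [(hTS w hw).2]; omega)).2.2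
      have e : par w = par u := by simpa using hsame w hw u hP.left_mem
      rw [← e]; exact this.symm
    have hpT : par u ∉ (T : Set V) := fun hmem =>
      (hp (par u) (by exact_mod_cast hmem)).ne rfl
    have := hP.close_apex (by omega) hpT (hp u hP.left_mem) (hp v hP.right_mem)
    apply hnc
    have e : m - 2 + 2 = m := by omega
    rwa [e] at this
  | i + 2, hsame, hmin, hjh =>
    have hne' := hmin (i + 1) (by omega)
    push Not at hne'
    obtain ⟨a, ha, b, hb, hab⟩ := hne'
    have hlong' := hT.long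
    obtain ⟨u', v', hu', hv', hP'⟩ := hcross T c f hT (fun x => par^[i + 1] x = par^[i + 1] a)
      ⟨a, ha, rfl⟩ ⟨b, hb, Ne.symm hab⟩ (m - 2 * (i + 2)) (by omega) (by omega)
    have := hB.close_tree (j := i + 1) (S := (T : Set V)) (fun x hx => (hTS x hx).2)
      (hTS u' hP'.left_mem).1 (hTS v' hP'.right_mem).1 (by omega) (by omega)
      (fun e => hv' (e.symm.trans hu'))
      (hsame u' hP'.left_mem v' hP'.right_mem) hP'
    apply hnc
    have e : m - 2 * (i + 2) + 2 * (i + 1 + 1) = m := by omega
    rwa [e] at this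

end Vale.Agent.P048
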