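import Vale.Agent.P048.Full.CrossPaths

/-!
A dense connected set with a long cycle contains a path on `m - 1` vertices.
-/

namespace Vale.Agent.P048

open Finset

variable {V : Type*} {G : SimpleGraph V} [DecidableEq V] {T : Finset V} {c : ℕ} {f : ℤ → V}

/-! ### Long paths -/

omit [DecidableEq V] in
/-- Two outside vertices next to consecutive vertices of a cycle give a long path. -/
lemma ZCyc.path_two_ends (hc : ZCyc G c f) {S : Set V} (hfS : ∀ i, f i ∈ S) {a b : V}
    (haS : a ∈ S) (hbS : b ∈ S) (hne : a ≠ b) (ha : a ∉ Set.range f) (hb : b ∉ Set.range f)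
    {j : ℤ} (haj : G.Adj a (f j)) (hbj : G.Adj b (f (j + 1))) :
    ∃ u v, PathLen G S u v (c + 1) := by
  have h3 := hc.three_le
  refine ⟨a, b, fun i => if i = 0 then a else if i ≤ c then f (j - ((i - 1 : ℕ) : ℤ)) else b,
    by simp, ?_, ?_, ?_, ?_⟩
  · have h : ¬ c + 1 ≤ c := by omega
    simp [h]
  · intro x hx y hy e
    by_cases x0 : x = 0 <;> by_cases y0 : y = 0
    · omega
    · exfalso
      simp [x0, y0] at e
      split_ifs at e
      · exact ha ⟨_, e.symm⟩
      · exact hne e
    · exfalso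
      simp [x0, y0] at e
      split_ifs at e
      · exact ha ⟨_, e⟩
      · exact hne e.symm
    · simp only [x0, y0, if_false] at e
      by_cases h1 : x ≤ c <;> by_cases h2 : y ≤ c <;> simp only [h1, h2, if_true, if_false] at e
      · have := hc.eq_of_lt e (by omega) (by omega)
        omega
      · exact absurd ⟨_, e⟩ hb
      · exact absurd ⟨_, e.symm⟩ hb
      · omega
  · intro i hi
    rcases Nat.eq_zero_or_pos i with rfl | hpos
    · simp [show 1 ≤ c by omega]
      exact haj
    · have hi0 : i ≠ 0 := by omega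
      have hic : i ≤ c := by omega
      simp only [hi0, hic, if_false, if_true, Nat.succ_ne_zero]
      by_cases h1 : i + 1 ≤ c
      · simp only [h1, if_true]
        have := (hc.adj (j - ((i + 1 - 1 : ℕ) : ℤ))).symm
        rw [show j - ((i + 1 - 1 : ℕ) : ℤ) + 1 = j - ((i - 1 : ℕ) : ℤ) by omega] at this
        exact this
      · simp only [h1, if_false]
        rw [show j - ((i - 1 : ℕ) : ℤ) = j + 1 - c by omega]
        have := hc.periodic (j + 1 - c)
        rw [sub_add_cancel] at this
        rw [← this]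
        exact hbj.symm
  · intro i _
    dsimp only
    split_ifs
    · exact haS
    · exact hfS _
    · exact hbS

omit [DecidableEq V] in
/-- An outside path into a cycle lengthens it. -/
lemma ZCyc.path_tail (hc : ZCyc G c f) {S : Set V} (hfS : ∀ i, f i ∈ S) {t : ℤ} {n : ℕ}
    {q : ℕ → V} (hq : PathLen G {v | ∃ i ≤ n, q i = v} (q n) (f t) n)
    (hqS : ∀ i ≤ n, q i ∈ S) (hoff : ∀ i ≤ n, 0 < i → q i ∉ Set.range f) (h0 : q 0 = f t) :
    ∃ u v, PathLen G S u v (n + (c - 1)) := by
  have h3 := hc.three_le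
  refine ⟨_, _, hq.append' (hc.path_up t (c - 1) (by omega)) (U := S) ?_ ?_⟩
  · rintro x ⟨i, hi, rfl⟩ ⟨j, -, -, hj⟩
    rcases Nat.eq_zero_or_pos i with rfl | hpos
    · exact h0
    · exact absurd ⟨j, hj⟩ (hoff i hi hpos)
  · apply Set.union_subset
    · rintro x ⟨i, hi, rfl⟩; exact hqS i hi
    · rintro x ⟨i, -, -, rfl⟩; exact hfS i

omit [DecidableEq V] in
lemma PathLen.shorten {S : Set V} {u v : V} {n k : ℕ} (h : PathLen G S u v n) (hk : k ≤ n) :
    ∃ u' v', PathLen G S u' v' k := by
  obtain ⟨p, -, -, pi, pa, pm⟩ := h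
  exact ⟨p 0, p k, pathLen_prefix (n := n) hk pi pa (fun j hj => pm j (hj.trans hk))⟩

/-- A dense connected set with a cycle of length at least `2 ⌊(m - 2) / 2⌋` has a path on `m - 1`
vertices. -/
theorem long_path_of_cycle {m : ℕ} (hm : 6 ≤ m) (hconn : Conn G (T : Set V))
    (hcard : m ≤ T.card + 1) (hdense : (m - 2) * aNum G T < 2 * T.card)
    (hd : MinDeg G T ((m - 2) / 2)) (hc : ZCyc G c f) (hfT : ∀ i, f i ∈ T)
    (hck : 2 * ((m - 2) / 2) ≤ c) : ∃ u v, PathLen G (T : Set V) u v (m - 2) := by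
  classical
  have hfS : ∀ i, f i ∈ (T : Set V) := fun i => by exact_mod_cast hfT i
  set k := (m - 2) / 2 with hk
  rcases Nat.lt_or_ge (m - 2) c with hlt | hge
  · refine ⟨_, _, (hc.path_up 0 (m - 2) hlt).mono ?_⟩
    rintro x ⟨i, -, -, rfl⟩
    exact hfS i
  have hinj : Set.InjOn (fun i : ℕ => f (i : ℤ)) (Finset.range c : Set ℕ) := by
    intro i hi j hj e
    simp at hi hj
    have := hc.eq_of_lt e (by omega) (by omega)
    omega
  have hC : ((Finset.range c).image (fun i : ℕ => f (i : ℤ))).card = c := by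
    rw [Finset.card_image_of_injOn hinj, Finset.card_range]
  obtain ⟨x₀, hx₀T, hx₀⟩ : ∃ x ∈ T, x ∉ Set.range f := by
    by_contra hno
    push Not at hno
    have : T ⊆ (Finset.range c).image (fun i : ℕ => f (i : ℤ)) := by
      intro x hx
      obtain ⟨i, rfl⟩ := hno x hx
      obtain ⟨j, h1, h2, h3⟩ := hc.exists_rep i
      exact Finset.mem_image.2 ⟨j.toNat, Finset.mem_range.2 (by omega), by
        rw [h3, Int.toNat_of_nonneg h1]⟩
    have := Finset.card_le_card this
    omega
  have tail : ∀ t n q, Leaving G T f t n q → ∃ u v, PathLen G (T : Set V) u v (n + (c - 1)) := by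
    intro t n q hq
    refine hc.path_tail hfS (q := q) (t := t) ?_ (fun i hi => by exact_mod_cast hq.mem i hi) hq.off
      hq.start
    have : PathLen G {v | ∃ i ≤ n, q i = v} (q 0) (q n) n :=
      ⟨q, rfl, rfl, hq.inj, hq.adj, fun i hi => ⟨i, hi, rfl⟩⟩
    rw [hq.start] at this
    exact this.reverse
  by_cases hc2 : m - 2 ≤ c
  · obtain ⟨t, n, q, hq, e⟩ := exists_leaving hconn hfT hx₀T
    have hn : 1 ≤ n := by
      rcases Nat.eq_zero_or_pos n with rfl | hn
      · exact absurd ⟨t, e ▸ hq.start.symm⟩ hx₀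
      · exact hn
    obtain ⟨u, v, hp⟩ := tail t n q hq
    exact hp.shorten (by omega)
  have hck' : c = 2 * k := by omega
  have hcm : c + 3 = m := by omega
  -- outside vertices see the cycle only
  by_cases hdeep : ∃ t n q, Leaving G T f t n q ∧ 2 ≤ n
  · obtain ⟨t, n, q, hq, hn⟩ := hdeep
    obtain ⟨u, v, hp⟩ := tail t n q hq
    exact hp.shorten (by omega)
  push Not at hdeep
  by_contra hnopath
  have honly : ∀ z ∈ T, z ∉ Set.range f → ∀ y ∈ T, G.Adj z y → y ∈ Set.range f := by
    intro z hz hzC y hy hzy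
    by_contra hyC
    obtain ⟨t, n, q, hq, rfl⟩ := exists_leaving hconn hfT hz
    have hn1 : n = 1 := by
      have := hdeep t n q hq
      rcases Nat.eq_zero_or_pos n with rfl | hn
      · exact absurd ⟨t, hq.start.symm⟩ hzC
      · omega
    subst hn1
    have hnew : ∀ i ≤ 1, q i ≠ y := by
      intro i hi e
      interval_cases i
      · exact hyC ⟨t, hq.start.symm.trans e⟩
      · exact hzy.ne e
    have := hdeep t 2 _ (hq.extend hy hzy hyC hnew)
    omega
  have hshift : ∀ z ∈ T, z ∉ Set.range f → ∀ e : ℤ,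
      k ≤ ((Finset.range c).filter (fun t : ℕ => G.Adj z (f ((t : ℤ) + e)))).card := by
    intro z hz hzC e
    obtain ⟨N, hNT, hNk, hN⟩ := hd z hz
    refine hNk.trans (le_trans (Finset.card_le_card (t := ((Finset.range c).filter
      (fun t : ℕ => G.Adj z (f ((t : ℤ) + e)))).image (fun t : ℕ => f ((t : ℤ) + e))) ?_)
      Finset.card_image_le)
    intro y hy
    obtain ⟨i, rfl⟩ := honly z hz hzC y (hNT hy) (hN y hy)
    obtain ⟨j, h1, h2, h3⟩ := (hc.shift e).exists_rep (i - e)
    simp only [sub_add_cancel] at h3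
    refine Finset.mem_image.2 ⟨j.toNat, Finset.mem_filter.2 ⟨Finset.mem_range.2 (by omega), ?_⟩, ?_⟩
    · rw [Int.toNat_of_nonneg h1, ← h3]; exact hN _ hy
    · rw [Int.toNat_of_nonneg h1, ← h3]
  -- two outside vertices see the same parity class
  have hpair : ∀ x ∈ T, x ∉ Set.range f → ∀ y ∈ T, y ∉ Set.range f → x ≠ y →
      (∀ t, G.Adj x (f t) ↔ ¬ G.Adj y (f (t + 1))) ∧
      (∀ t, G.Adj x (f t) ↔ ¬ G.Adj y (f (t - 1))) := by
    intro x hx hxC y hy hyC hxy
    have n1 : ∀ t, G.Adj x (f t) → ¬ G.Adj y (f (t + 1)) := fun t h1 h2 => by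
      obtain ⟨u, v, hp⟩ := hc.path_two_ends hfS (by exact_mod_cast hx) (by exact_mod_cast hy) hxy
        hxC hyC h1 h2
      exact hnopath (hp.shorten (by omega))
    have n2 : ∀ t, G.Adj x (f t) → ¬ G.Adj y (f (t - 1)) := fun t h1 h2 => by
      obtain ⟨u, v, hp⟩ := hc.path_two_ends hfS (by exact_mod_cast hy) (by exact_mod_cast hx)
        hxy.symm hyC hxC h2 (by rwa [sub_add_cancel])
      exact hnopath (hp.shorten (by omega))
    have key : ∀ e : ℤ, (∀ t, G.Adj x (f t) → ¬ G.Adj y (f (t + e))) →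
        ∀ t, G.Adj x (f t) ↔ ¬ G.Adj y (f (t + e)) := by
      intro e he t
      refine ⟨he t, fun hy' => ?_⟩
      by_contra hx'
      obtain ⟨j, h1, h2, h3⟩ := hc.exists_rep t
      set A := (Finset.range c).filter (fun t : ℕ => G.Adj x (f ((t : ℤ) + 0))) with hA
      set B := (Finset.range c).filter (fun t : ℕ => G.Adj y (f ((t : ℤ) + e))) with hB
      have hd' : Disjoint A B := Finset.disjoint_left.2 fun i hi hi' => by
        simp [hA, hB] at hi hi'
        exact he _ hi.2 hi'.2
      have hj : j.toNat ∈ Finset.range c \ (A ∪ B) := by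
        have hje : f (t + e) = f (j + e) := by
          obtain ⟨q, hq⟩ := hc.inj _ _ h3
          have := (show Function.Periodic f (c : ℤ) from hc.periodic).zsmul q (j + e)
          rw [smul_eq_mul, show j + e + q * (c : ℤ) = t + e by
            rw [mul_comm, ← hq]; ring] at this
          exact this
        simp [hA, hB, Int.toNat_of_nonneg h1, ← h3, ← hje, hx', hy']
        omega
      have h4 := Finset.card_pos.2 ⟨_, hj⟩
      have h5 := hshift x hx hxC 0
      have h6 := hshift y hy hyC e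
      rw [Finset.card_sdiff_of_subset (by
        intro i hi
        simp [hA, hB] at hi
        rcases hi with hi | hi <;> exact Finset.mem_range.2 hi.1),
        Finset.card_union_of_disjoint hd', Finset.card_range] at h4
      rw [← hA] at h5
      rw [← hB] at h6
      omega
    refine ⟨key 1 n1, ?_⟩
    have := key (-1) (fun t h => by simpa [sub_eq_add_neg] using n2 t h)
    simpa [sub_eq_add_neg] using this
  -- the other class together with the outside vertices
  obtain ⟨y₀, hy₀T, hy₀, hxy₀⟩ : ∃ y ∈ T, y ∉ Set.range f ∧ x₀ ≠ y := by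
    by_contra hno
    push Not at hno
    have : T ⊆ insert x₀ ((Finset.range c).image (fun i : ℕ => f (i : ℤ))) := by
      intro x hx
      by_cases hxC : x ∈ Set.range f
      · obtain ⟨i, rfl⟩ := hxC
        obtain ⟨j, h1, h2, h3⟩ := hc.exists_rep i
        exact Finset.mem_insert_of_mem (Finset.mem_image.2 ⟨j.toNat, Finset.mem_range.2 (by omega),
          by rw [h3, Int.toNat_of_nonneg h1]⟩)
      · exact (hno x hx hxC) ▸ Finset.mem_insert_self _ _
    have := (Finset.card_le_card this).trans (Finset.card_insert_le _ _)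
    omega
  obtain ⟨hxy1, hxy2⟩ := hpair x₀ hx₀T hx₀ y₀ hy₀T hy₀ hxy₀
  have hy2 : ∀ t, G.Adj y₀ (f t) ↔ G.Adj y₀ (f (t + 2)) := by
    intro t
    have h1 := hxy2 (t + 1)
    have h2 := hxy1 (t + 1)
    rw [add_sub_cancel_right] at h1
    rw [show t + 1 + 1 = t + 2 by ring] at h2
    tauto
  have hx2 : ∀ t, G.Adj x₀ (f t) ↔ G.Adj x₀ (f (t + 2)) := by
    intro t
    rw [hxy1 t, hxy1 (t + 2), show t + 2 + 1 = t + 1 + 2 by ring, ← hy2]
  have hflipx : ∀ t, G.Adj x₀ (f t) ↔ ¬ G.Adj x₀ (f (t + 1)) := by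
    -- the class of `x₀` is neither empty nor everything
    have hne : ∃ t, G.Adj x₀ (f t) := by
      obtain ⟨N, hNT, hNk, hN⟩ := hd x₀ hx₀T
      obtain ⟨z, hz⟩ := Finset.card_pos.1 (show 0 < N.card by omega)
      obtain ⟨i, rfl⟩ := honly x₀ hx₀T hx₀ z (hNT hz) (hN z hz)
      exact ⟨i, hN _ hz⟩
    have hne' : ∃ t, G.Adj y₀ (f t) := by
      obtain ⟨N, hNT, hNk, hN⟩ := hd y₀ hy₀T
      obtain ⟨z, hz⟩ := Finset.card_pos.1 (show 0 < N.card by omega)
      obtain ⟨i, rfl⟩ := honly y₀ hy₀T hy₀ z (hNT hz) (hN z hz)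
      exact ⟨i, hN _ hz⟩
    have hxper : ∀ a r : ℤ, G.Adj x₀ (f a) ↔ G.Adj x₀ (f (a + ((2 : ℕ) : ℤ) * r)) := fun a r =>
      periodic_sub (P := fun t => G.Adj x₀ (f t)) (g := 2) (fun t => by simpa using hx2 t) r a
    obtain ⟨a, ha'⟩ := hne
    have hb : ¬ G.Adj x₀ (f (a + 1)) := by
      intro hb
      obtain ⟨b, hb'⟩ := hne'
      have hall : G.Adj x₀ (f (b + 1)) := by
        rcases Int.even_or_odd (b + 1 - a) with ⟨r, hr⟩ | ⟨r, hr⟩
        · rw [show b + 1 = a + ((2 : ℕ) : ℤ) * r by push_cast; omega]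
          exact (hxper a r).1 ha'
        · rw [show b + 1 = a + 1 + ((2 : ℕ) : ℤ) * r by push_cast; omega]
          exact (hxper (a + 1) r).1 hb
      have := (hxy2 (b + 1)).1 hall
      rw [add_sub_cancel_right] at this
      exact this hb'
    intro t
    rcases Int.even_or_odd (t - a) with ⟨r, hr⟩ | ⟨r, hr⟩
    · have e1 : t = a + ((2 : ℕ) : ℤ) * r := by push_cast; omega
      have e2 : t + 1 = a + 1 + ((2 : ℕ) : ℤ) * r := by push_cast; omega
      rw [e2, e1, ← hxper, ← hxper]
      tauto
    · have e1 : t = a + 1 + ((2 : ℕ) : ℤ) * r := by push_cast; omega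
      have e2 : t + 1 = a + ((2 : ℕ) : ℤ) * (r + 1) := by push_cast; omega
      rw [e2, e1, ← hxper, ← hxper]
      tauto
  have hsame : ∀ z ∈ T, z ∉ Set.range f → ∀ t, G.Adj z (f t) ↔ G.Adj x₀ (f t) := by
    intro z hz hzC t
    by_cases hzx : x₀ = z
    · rw [hzx]
    · have h1 := (hpair x₀ hx₀T hx₀ z hz hzC hzx).2 (t + 1)
      rw [add_sub_cancel_right] at h1
      have h2 := hflipx t
      tauto
  set A := (Finset.range c).filter (fun t : ℕ => G.Adj x₀ (f ((t : ℤ) + 0))) with hA
  have hAk : A.card ≤ k := by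
    set B := (Finset.range c).filter (fun t : ℕ => G.Adj y₀ (f ((t : ℤ) + 1))) with hB
    have hd' : Disjoint A B := Finset.disjoint_left.2 fun i hi hi' => by
      simp [hA, hB] at hi hi'
      exact (hxy1 _).1 hi.2 hi'.2
    have h1 : (A ∪ B).card ≤ c := by
      refine (Finset.card_le_card (t := Finset.range c) ?_).trans (by simp)
      intro i hi
      simp [hA, hB] at hi
      rcases hi with hi | hi <;> exact Finset.mem_range.2 hi.1
    have h2 := hshift y₀ hy₀T hy₀ 1
    rw [← hB] at h2
    rw [Finset.card_union_of_disjoint hd'] at h1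
    omega
  set I := T \ A.image (fun t : ℕ => f (t : ℤ)) with hI
  have hcls : ∀ i, f i ∈ I → ¬ G.Adj x₀ (f i) := by
    intro i hi hadj
    simp only [hI, Finset.mem_sdiff] at hi
    obtain ⟨j, h1, h2, h3⟩ := hc.exists_rep i
    refine hi.2 (Finset.mem_image.2 ⟨j.toNat, ?_, by rw [h3, Int.toNat_of_nonneg h1]⟩)
    simp [hA, Int.toNat_of_nonneg h1, ← h3, hadj]
    omega
  have hIi : G.IsIndepSet (I : Set V) := by
    intro u hu v hv huv hadj
    have huT : u ∈ T := (Finset.mem_sdiff.1 hu).1
    have hvT : v ∈ T := (Finset.mem_sdiff.1 hv).1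
    by_cases huC : u ∈ Set.range f
    swap
    · obtain ⟨i, rfl⟩ := honly u huT huC v hvT hadj
      exact hcls i hv ((hsame u huT huC i).1 hadj)
    by_cases hvC : v ∈ Set.range f
    swap
    · obtain ⟨i, rfl⟩ := honly v hvT hvC u huT hadj.symm
      exact hcls i hu ((hsame v hvT hvC i).1 hadj.symm)
    obtain ⟨i, rfl⟩ := huC
    obtain ⟨j, rfl⟩ := hvC
    have hi := hcls i hu
    have hj := hcls j hv
    have hi1 : G.Adj x₀ (f (i + 1)) := by
      by_contra h'; exact hi ((hflipx i).2 h')
    have hi2 : G.Adj x₀ (f (i - 1)) := by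
      have := hflipx (i - 1)
      rw [sub_add_cancel] at this
      exact this.2 hi
    have hj1 : G.Adj x₀ (f (j + 1)) := by
      by_contra h'; exact hj ((hflipx j).2 h')
    -- exchange `f i` for `x₀`
    let g : ℤ → V := fun t => if f t = f i then x₀ else f t
    have hcong : ∀ a b : ℤ, f a = f b → ∀ e : ℤ, f (a + e) = f (b + e) := by
      intro a b hab e
      obtain ⟨q, hq⟩ := hc.inj _ _ hab
      have := (show Function.Periodic f (c : ℤ) from hc.periodic).zsmul q (b + e)
      rw [smul_eq_mul, show b + e + q * (c : ℤ) = a + e by rw [mul_comm, ← hq]; ring] at this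
      exact this
    have hg : ZCyc G c g := by
      refine ⟨hc.three_le, fun t => by simp only [g, hc.periodic], ?_, ?_⟩
      · intro a b hab
        simp only [g] at hab
        split_ifs at hab with h1 h2 h2
        · exact hc.inj _ _ (h1.trans h2.symm)
        · exact absurd ⟨b, hab.symm⟩ hx₀
        · exact absurd ⟨a, hab⟩ hx₀
        · exact hc.inj _ _ hab
      · intro t
        simp only [g]
        split_ifs with h1 h2 h2
        · have := hc.adj t
          rw [h1, h2] at this
          exact absurd this (G.loopless.irrefl _)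
        · rw [hcong t i h1 1]; exact hi1
        · have h4 := hcong (t + 1) i h2 (-1)
          simp only [← sub_eq_add_neg, add_sub_cancel_right] at h4
          rw [h4]; exact hi2.symm
        · exact hc.adj t
    have hgS : ∀ t, g t ∈ (T : Set V) := by
      intro t
      simp only [g]
      split_ifs
      · exact_mod_cast hx₀T
      · exact hfS t
    have hji : f j ≠ f i := fun e => huv e.symm
    have hj1i : f (j + 1) ≠ f i := fun e => hi (e ▸ hj1)
    obtain ⟨a, b, hp⟩ := hg.path_two_ends hgS (a := f i) (b := y₀) (hfS i)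
      (by exact_mod_cast hy₀T) (fun e => hy₀ ⟨i, e⟩)
      (by
        rintro ⟨t, ht⟩
        simp only [g] at ht
        split_ifs at ht with h1
        · exact hx₀ ⟨i, ht.symm⟩
        · exact h1 ht)
      (by
        rintro ⟨t, ht⟩
        simp only [g] at ht
        split_ifs at ht with h1
        · exact hxy₀ ht
        · exact hy₀ ⟨t, ht⟩)
      (j := j) (by simp only [g, if_neg hji]; exact hadj)
      (by simp only [g, if_neg hj1i]; exact (hsame y₀ hy₀T hy₀ (j + 1)).2 hj1)
    exact hnopath (hp.shorten (by omega))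
  have hIc : T.card ≤ I.card + k := by
    have h1 := Finset.card_image_le (s := A) (f := fun t : ℕ => f (t : ℤ))
    have h2 := Finset.le_card_sdiff (A.image (fun t : ℕ => f (t : ℤ))) T
    rw [← hI] at h2
    omega
  have hIa : I.card ≤ aNum G T := card_le_aNum Finset.sdiff_subset hIi
  -- arithmetic
  have h1 := hdense
  have h2 : (2 * k + 1) * (T.card - k) ≤ (m - 2) * aNum G T :=
    Nat.mul_le_mul (by omega) (by omega)
  obtain ⟨r, hr⟩ : ∃ r, T.card = 2 * k + 2 + r := ⟨T.card - (2 * k + 2), by omega⟩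
  rw [hr, show 2 * k + 2 + r - k = k + 2 + r by omega] at h2
  nlinarith [show 2 ≤ k by omega]

end Vale.Agent.P048
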