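import Vale.Agent.P048.Full.Spec
import Vale.Agent.P048.Full.LongPaths

/-!
A core carries a path on `m - 1` vertices.
-/

namespace Vale.Agent.P048.Full

open Finset

variable {V : Type*} {G : SimpleGraph V}

/-- Cores carry a path on `m - 1` vertices. -/
theorem longPathSpec {m : ℕ} (hm : 6 ≤ m) : LongPathSpec G m := by
  classical
  intro T c f hT
  exact long_path_of_cycle (by omega) hT.conn hT.card hT.dense hT.deg hT.cyc hT.mem hT.long

end Vale.Agent.P048.Full
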