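import Vale.Agent.P048.Alpha
import Vale.Agent.P048.Full.Spec

/-!
The four-cycle: a critical set with independence number at most three does not exist.
-/

namespace Vale.Agent.P048

open Finset

variable {V : Type*} [DecidableEq V] {G : SimpleGraph V} {S : Finset V}

/-- Standing hypotheses for the four-cycle. -/
structure Four (G : SimpleGraph V) (S : Finset V) : Prop where
  crit : Crit G S 3
  small : aNum G S ≤ 3
  free : ¬ HasCyc G 4

omit [DecidableEq V] in
lemma hasCyc_four {a b c d : V} (h1 : G.Adj a b) (h2 : G.Adj b c) (h3 : G.Adj c d)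
    (h4 : G.Adj d a) (hac : a ≠ c) (hbd : b ≠ d) : HasCyc G 4 := by
  refine ⟨by norm_num, fun i => [a, b, c, d].getD i a, ?_, ?_, by simpa using h4⟩
  · have := h1.ne; have := h2.ne; have := h3.ne; have := h4.ne
    intro i hi j hj hij
    interval_cases i <;> interval_cases j <;> simp_all
  · intro i hi
    have hi' : i < 3 := by omega
    interval_cases i <;> simpa

omit [DecidableEq V] in
lemma Four.no4 (h : Four G S) {a b c d : V} (h1 : G.Adj a b) (h2 : G.Adj b c) (h3 : G.Adj c d)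
    (h4 : G.Adj d a) (hac : a ≠ c) (hbd : b ≠ d) : False :=
  h.free (hasCyc_four h1 h2 h3 h4 hac hbd)

lemma Four.card_indep (h : Four G S) {L : List V} (hS : ∀ x ∈ L, x ∈ S)
    (hL : L.Pairwise (fun x y => x ≠ y ∧ ¬ G.Adj x y)) : L.length ≤ 3 ∧ L.length ≤ aNum G S := by
  have hnd : L.Nodup := hL.imp fun hh => hh.1
  have := card_le_aNum (G := G) (S := S) (I := L.toFinset)
    (fun x hx => hS x (List.mem_toFinset.1 hx)) (by
      intro x hx y hy hne
      simp at hx hy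
      have : Std.Symm (fun x y : V => ¬ G.Adj x y) := ⟨fun _ _ h' h'' => h' h''.symm⟩
      exact (hL.imp (S := fun x y => ¬ G.Adj x y) fun hh => hh.2).forall hx hy hne)
  rw [List.toFinset_card_of_nodup hnd] at this
  have := h.small
  omega

lemma Four.nbr (h : Four G S) {v : V} (hv : v ∈ S) (F : Finset V) (hF : F.card < 3) :
    ∃ w ∈ S, G.Adj v w ∧ w ∉ F := by
  obtain ⟨N, hNS, hNc, hN⟩ := h.crit.minDeg v hv
  obtain ⟨w, hw, hwF⟩ := Finset.exists_mem_notMem_of_card_lt_card (lt_of_lt_of_le hF hNc)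
  exact ⟨w, hNS hw, hN w hw, hwF⟩

/-- No two triangles share exactly one vertex. -/
lemma Four.bowtie (h : Four G S) {v a b c d : V} (_hv : v ∈ S) (ha : a ∈ S) (hb : b ∈ S)
    (hc : c ∈ S) (hd : d ∈ S) (hva : G.Adj v a) (hvb : G.Adj v b) (hvc : G.Adj v c)
    (hvd : G.Adj v d) (hab : G.Adj a b) (hcd : G.Adj c d) (hac : a ≠ c) (had : a ≠ d)
    (hbc : b ≠ c) (hbd : b ≠ d) : False := by
  have nac : ¬ G.Adj a c := fun e => h.no4 hvb hab.symm e hvc.symm hva.ne hbc
  have nad : ¬ G.Adj a d := fun e => h.no4 hvb hab.symm e hvd.symm hva.ne hbd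
  have nbc : ¬ G.Adj b c := fun e => h.no4 hva hab e hvc.symm hvb.ne hac
  have nbd : ¬ G.Adj b d := fun e => h.no4 hva hab e hvd.symm hvb.ne had
  obtain ⟨p, hp, hap, hpF⟩ := h.nbr ha {v, b} (lt_of_le_of_lt Finset.card_le_two (by norm_num))
  obtain ⟨q, hq, hbq, hqF⟩ := h.nbr hb {v, a} (lt_of_le_of_lt Finset.card_le_two (by norm_num))
  obtain ⟨r, hr, hcr, hrF⟩ := h.nbr hc {v, d} (lt_of_le_of_lt Finset.card_le_two (by norm_num))
  obtain ⟨s, hs, hds, hsF⟩ := h.nbr hd {v, c} (lt_of_le_of_lt Finset.card_le_two (by norm_num))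
  simp at hpF hqF hrF hsF
  -- an outer neighbour sees only its own vertex
  have excl : ∀ x y u, G.Adj v x → G.Adj v y → G.Adj x u → u ≠ v → x ≠ y → ¬ G.Adj y u :=
    fun x y u h1 h2 h3 h4 h5 e => h.no4 h1 h3 e.symm h2.symm (Ne.symm h4) h5
  have kill : ∀ x x' y y' u w, x ∈ S → y ∈ S → u ∈ S → w ∈ S → G.Adj v x → G.Adj v x' →
      G.Adj v y → G.Adj v y' → x ≠ x' → y ≠ y' → x' ≠ y → x ≠ y' → x ≠ y → ¬ G.Adj x y →
      G.Adj x' u → u ≠ v → G.Adj y' w → w ≠ v → u ≠ x → w ≠ y → u ≠ y → w ≠ x → u ≠ w →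
      ¬ G.Adj u w → False := by
    intro x x' y y' u w hx hy hu hw v1 v2 v3 v4 n1 n2 n3 n4 n5 nxy e1 e2 e3 e4 n6 n7 n8 n9 n10 nuw
    have := h.card_indep (L := [x, y, u, w]) (by simp [hx, hy, hu, hw])
      (by simp [n5, nxy, Ne.symm n6, Ne.symm n7, Ne.symm n8, Ne.symm n9, n10, nuw,
        excl x' x u v2 v1 e1 e2 n1.symm, excl x' y u v2 v3 e1 e2 n3,
        excl y' x w v4 v1 e3 e4 n4.symm, excl y' y w v4 v3 e3 e4 n2.symm])
    simp at this
  have notN : ∀ x y u, G.Adj v x → G.Adj v y → G.Adj x u → x ≠ y → ¬ G.Adj x y → u ≠ y :=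
    fun x y u _ _ h3 _ h5 e => h5 (e ▸ h3)
  have epc : p ≠ c := notN a c p hva hvc hap hac nac
  have epd : p ≠ d := notN a d p hva hvd hap had nad
  have eqc : q ≠ c := notN b c q hvb hvc hbq hbc nbc
  have eqd : q ≠ d := notN b d q hvb hvd hbq hbd nbd
  have era : r ≠ a := notN c a r hvc hva hcr hac.symm (fun e => nac e.symm)
  have erb : r ≠ b := notN c b r hvc hvb hcr hbc.symm (fun e => nbc e.symm)
  have esa : s ≠ a := notN d a s hvd hva hds had.symm (fun e => nad e.symm)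
  have esb : s ≠ b := notN d b s hvd hvb hds hbd.symm (fun e => nbd e.symm)
  have dist : ∀ x y u w, G.Adj v x → G.Adj v y → x ≠ y → G.Adj x u → u ≠ v → G.Adj y w → u ≠ w :=
    fun x y u w h1 h2 h3 h4 h5 h6 e => excl x y u h1 h2 h4 h5 h3 (e ▸ h6)
  by_cases h1 : G.Adj p r
  · by_cases h2 : G.Adj p s
    · by_cases h3 : G.Adj q r
      · by_cases h4 : G.Adj q s
        · exact h.no4 h1 h3.symm h4 h2.symm (dist a b p q hva hvb hab.ne hap hpF.1 hbq)
            (dist c d r s hvc hvd hcd.ne hcr hrF.1 hds)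
        · exact kill a b c d q s ha hc hq hs hva hvb hvc hvd hab.ne hcd.ne hbc had hac nac hbq
            hqF.1 hds hsF.1 hqF.2 hsF.2 eqc esa (dist b d q s hvb hvd hbd hbq hqF.1 hds) h4
      · exact kill a b d c q r ha hd hq hr hva hvb hvd hvc hab.ne hcd.ne.symm hbd hac had nad hbq
          hqF.1 hcr hrF.1 hqF.2 hrF.2 eqd era (dist b c q r hvb hvc hbc hbq hqF.1 hcr) h3
    · exact kill b a c d p s hb hc hp hs hvb hva hvc hvd hab.ne.symm hcd.ne hac hbd hbc nbc hap
        hpF.1 hds hsF.1 hpF.2 hsF.2 epc esb (dist a d p s hva hvd had hap hpF.1 hds) h2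
  · exact kill b a d c p r hb hd hp hr hvb hva hvd hvc hab.ne.symm hcd.ne.symm had hbc hbd nbd hap
      hpF.1 hcr hrF.1 hpF.2 hrF.2 epd erb (dist a c p r hva hvc hac hap hpF.1 hcr) h1

lemma Four.triangle (h : Four G S) {x y z : V} (hx : x ∈ S) (hy : y ∈ S) (hz : z ∈ S)
    (hxy : G.Adj x y) (hxz : G.Adj x z) (hyz : G.Adj y z) : False := by
  classical
  have pend : ∀ u v w, u ∈ S → v ∈ S → w ∈ S → G.Adj u v → G.Adj u w → G.Adj v w →
      ∀ p ∈ S, G.Adj u p → p ≠ v → p ≠ w →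
      ¬ G.Adj v p ∧ ∀ q ∈ S, G.Adj v q → q ≠ u → q ≠ w → p ≠ q ∧ ¬ G.Adj p q := by
    intro u v w hu hv hw huv huw hvw p hp hup hpv hpw
    have nvp : ¬ G.Adj v p := fun e => h.no4 hup e.symm hvw huw.symm huv.ne hpw
    refine ⟨nvp, fun q hq hvq hqu _ => ⟨fun e => nvp (e ▸ hvq), fun e => ?_⟩⟩
    exact h.no4 hup e hvq.symm huv.symm hqu.symm hpv
  obtain ⟨a, ha, xa, hF⟩ := h.nbr hx {y, z} (lt_of_le_of_lt Finset.card_le_two (by norm_num))
  obtain ⟨b, hb, yb, hF'⟩ := h.nbr hy {x, z} (lt_of_le_of_lt Finset.card_le_two (by norm_num))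
  obtain ⟨c, hc, zc, hF''⟩ := h.nbr hz {x, y} (lt_of_le_of_lt Finset.card_le_two (by norm_num))
  simp at hF hF' hF''
  obtain ⟨nya, pa⟩ := pend x y z hx hy hz hxy hxz hyz a ha xa hF.1 hF.2
  obtain ⟨nza, pa'⟩ := pend x z y hx hz hy hxz hxy hyz.symm a ha xa hF.2 hF.1
  obtain ⟨nxb, -⟩ := pend y x z hy hx hz hxy.symm hyz hxz b hb yb hF'.1 hF'.2
  obtain ⟨nzb, pb⟩ := pend y z x hy hz hx hyz hxy.symm hxz.symm b hb yb hF'.2 hF'.1
  obtain ⟨nxc, -⟩ := pend z x y hz hx hy hxz.symm hyz.symm hxy c hc zc hF''.1 hF''.2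
  obtain ⟨nyc, -⟩ := pend z y x hz hy hx hyz.symm hxz.symm hxy.symm c hc zc hF''.2 hF''.1
  obtain ⟨eab, nab⟩ := pa b hb yb hF'.1 hF'.2
  obtain ⟨eac, nac⟩ := pa' c hc zc hF''.1 hF''.2
  obtain ⟨ebc, nbc⟩ := pb c hc zc hF''.2 hF''.1
  have hα : 3 ≤ aNum G S := by
    have := h.card_indep (L := [a, b, c]) (by simp [ha, hb, hc])
      (by simp [eab, eac, ebc, nab, nac, nbc])
    simpa using this.2
  -- every further neighbour of one pendant sees another one
  have shared : ∀ p q r u v s, p ∈ S → q ∈ S → r ∈ S → u ∈ S → v ∈ S → s ∈ S → G.Adj u v →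
      G.Adj u s → G.Adj v s → G.Adj u p → p ≠ v → p ≠ s → q ≠ u → r ≠ u → ¬ G.Adj u q →
      ¬ G.Adj u r → q ≠ r → ¬ G.Adj q r → ¬ G.Adj p q → ¬ G.Adj p r →
      ∀ w ∈ S, G.Adj p w → w ≠ u → G.Adj q w ∨ G.Adj r w := by
    intro p q r u v s hp hq hr hu hv hs huv hus hvs hup hpv hps hqu hru nuq nur hqr nqr npq npr w hw hpw hwu
    by_contra hno
    push Not at hno
    have hwv : w ≠ v := fun e => (pend u v s hu hv hs huv hus hvs p hp hup hpv hps).1 (e ▸ hpw.symm)
    have hws : w ≠ s := fun e =>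
      (pend u s v hu hs hv hus huv hvs.symm p hp hup hps hpv).1 (e ▸ hpw.symm)
    have nuw : ¬ G.Adj u w := fun e =>
      h.bowtie hu hp hw hv hs hup e huv hus hpw hvs hpv hps hwv hws
    have hwq : w ≠ q := fun e => npq (e ▸ hpw)
    have hwr : w ≠ r := fun e => npr (e ▸ hpw)
    have := h.card_indep (L := [u, w, q, r]) (by simp [hu, hw, hq, hr])
      (by simp [Ne.symm hwu, nuw, Ne.symm hqu, Ne.symm hru, nuq, nur, hwq, hwr,
        G.adj_comm w q, G.adj_comm w r, hno, hqr, nqr])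
    simp at this
  have sa := shared a b c x y z ha hb hc hx hy hz hxy hxz hyz xa hF.1 hF.2 hF'.1 hF''.1 nxb nxc
    ebc nbc nab nac
  have sb := shared b a c y x z hb ha hc hy hx hz hxy.symm hyz hxz yb hF'.1 hF'.2 hF.1 hF''.2 nya
    nyc eac nac (fun e => nab e.symm) nbc
  have sc := shared c a b z x y hc ha hb hz hx hy hxz.symm hyz.symm hxy zc hF''.1 hF''.2 hF.2 hF'.2
    nza nzb eab nab (fun e => nac e.symm) (fun e => nbc e.symm)
  set common := fun p q : V => S.filter (fun w => G.Adj p w ∧ G.Adj q w)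
  have hcom : ∀ p q, p ≠ q → (common p q).card ≤ 1 := by
    intro p q hpq
    rw [Finset.card_le_one]
    intro i hi j hj
    simp [common] at hi hj
    by_contra hne
    exact h.no4 hi.2.1 hi.2.2.symm hj.2.2 hj.2.1.symm hpq hne
  set U := ({x, y, z} : Finset V) ∪ {a, b, c} ∪ (common a b ∪ common a c ∪ common b c)
  have hU : U.card ≤ 9 := by
    have := Finset.card_union_le (({x, y, z} : Finset V) ∪ {a, b, c})
      (common a b ∪ common a c ∪ common b c)
    have := Finset.card_union_le ({x, y, z} : Finset V) {a, b, c}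
    have := Finset.card_union_le (common a b ∪ common a c) (common b c)
    have := Finset.card_union_le (common a b) (common a c)
    have := hcom a b eab; have := hcom a c eac; have := hcom b c ebc
    have := Finset.card_le_three (a := x) (b := y) (c := z)
    have := Finset.card_le_three (a := a) (b := b) (c := c)
    simp only [U]
    omega
  have hS : 10 ≤ S.card := by
    have := h.crit.card_eq
    omega
  obtain ⟨u, hu, huU⟩ := Finset.exists_mem_notMem_of_card_lt_card (show U.card < S.card by omega)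
  have ux : u ≠ x := fun e => huU (by simp [U, e])
  have uy : u ≠ y := fun e => huU (by simp [U, e])
  have uz : u ≠ z := fun e => huU (by simp [U, e])
  have ua : u ≠ a := fun e => huU (by simp [U, e])
  have ub : u ≠ b := fun e => huU (by simp [U, e])
  have uc : u ≠ c := fun e => huU (by simp [U, e])
  have u1 : G.Adj a u → ¬ G.Adj b u := fun e e' => huU (by simp [U, common, hu, e, e'])
  have u2 : G.Adj a u → ¬ G.Adj c u := fun e e' => huU (by simp [U, common, hu, e, e'])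
  have u3 : G.Adj b u → ¬ G.Adj c u := fun e e' => huU (by simp [U, common, hu, e, e'])
  have nua : ¬ G.Adj a u := fun e => (sa u hu e ux).elim (u1 e) (u2 e)
  have nub : ¬ G.Adj b u := fun e => (sb u hu e uy).elim (fun e' => u1 e' e) (u3 e)
  have nuc : ¬ G.Adj c u := fun e => (sc u hu e uz).elim (fun e' => u2 e' e) (fun e' => u3 e' e)
  have := h.card_indep (L := [a, b, c, u]) (by simp [ha, hb, hc, hu])
    (by simp [eab, eac, ebc, nab, nac, nbc, Ne.symm ua, Ne.symm ub, Ne.symm uc, nua, nub, nuc])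
  simp at this

/-- For the four-cycle no critical set has independence number at most three. -/
theorem crit_four_false (hnc : ¬ HasCyc G 4) (hS : Crit G S 3) (hα : aNum G S ≤ 3) : False := by
  classical
  have h : Four G S := ⟨hS, hα, hnc⟩
  obtain ⟨v, hv⟩ : S.Nonempty := Finset.card_pos.1 (by rw [hS.card_eq]; omega)
  obtain ⟨a, ha, va, -⟩ := h.nbr hv ∅ (by simp)
  obtain ⟨p, hp, ap, hpF⟩ := h.nbr ha {v} (by simp)
  simp at hpF
  obtain ⟨p', hp', ap', hF'⟩ := h.nbr ha {v, p} (lt_of_le_of_lt Finset.card_le_two (by norm_num))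
  simp at hF'
  obtain ⟨q, hq, pq, hqF⟩ := h.nbr hp {a} (by simp)
  simp at hqF
  obtain ⟨s, hs, ps, hsF⟩ := h.nbr hp {a, q} (lt_of_le_of_lt Finset.card_le_two (by norm_num))
  simp at hsF
  have tf : ∀ i ∈ S, ∀ j ∈ S, ∀ k ∈ S, G.Adj i j → G.Adj i k → ¬ G.Adj j k :=
    fun i hi j hj k hk e1 e2 e3 => h.triangle hi hj hk e1 e2 e3
  have far : ∀ w r, w ∈ S → r ∈ S → G.Adj a w → w ≠ p → G.Adj p r → r ≠ a →
      w ≠ r ∧ ¬ G.Adj w r := fun w r hw hr e1 n1 e2 n2 =>
    ⟨fun e => tf a ha p hp w hw ap e1 (e ▸ e2),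
      fun e => h.no4 e1 e e2.symm ap.symm (Ne.symm n2) n1⟩
  obtain ⟨f1, g1⟩ := far v q hv hq va.symm (Ne.symm hpF) pq hqF
  obtain ⟨f2, g2⟩ := far v s hv hs va.symm (Ne.symm hpF) ps hsF.1
  obtain ⟨f3, g3⟩ := far p' q hp' hq ap' hF'.2 pq hqF
  obtain ⟨f4, g4⟩ := far p' s hp' hs ap' hF'.2 ps hsF.1
  have := h.card_indep (L := [v, p', q, s]) (by simp [hv, hp', hq, hs])
    (by simp [Ne.symm hF'.1, tf a ha v hv p' hp' va.symm ap', f1, f2, f3, f4, g1, g2, g3, g4,
      Ne.symm hsF.2, tf p hp q hq s hs pq ps])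
  simp at this

theorem cliqueSpec_four : Full.CliqueSpec G 4 :=
  fun hnc _ hS ha => (crit_four_false hnc hS (by omega)).elim

theorem growthSpec_four : Full.GrowthSpec G 4 :=
  fun hnc _ hS _ ha _ => crit_four_false hnc hS (by omega)

end Vale.Agent.P048
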