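import Vale.Agent.P048.Alpha
import Vale.Agent.P048.Full.Spec

/-!
The five-cycle: a critical set with independence number at most four does not exist.
-/

namespace Vale.Agent.P048

open Finset

variable {V : Type*} [DecidableEq V] {G : SimpleGraph V} {S : Finset V}

/-- Standing hypotheses for the five-cycle. -/
structure Five (G : SimpleGraph V) (S : Finset V) : Prop where
  crit : Crit G S 4
  small : aNum G S ≤ 4
  free : ¬ HasCyc G 5

omit [DecidableEq V] in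
lemma hasCyc_five {a b c d e : V} (h1 : G.Adj a b) (h2 : G.Adj b c) (h3 : G.Adj c d)
    (h4 : G.Adj d e) (h5 : G.Adj e a) (hac : a ≠ c) (had : a ≠ d) (hbd : b ≠ d) (hbe : b ≠ e)
    (hce : c ≠ e) : HasCyc G 5 := by
  refine ⟨by norm_num, fun i => [a, b, c, d, e].getD i a, ?_, ?_, by simpa using h5⟩
  · have := h1.ne; have := h2.ne; have := h3.ne; have := h4.ne; have := h5.ne
    intro i hi j hj hij
    interval_cases i <;> interval_cases j <;> simp_all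
  · intro i hi
    have hi' : i < 4 := by omega
    interval_cases i <;> simpa

omit [DecidableEq V] in
lemma Five.no5 (h : Five G S) {a b c d e : V} (h1 : G.Adj a b) (h2 : G.Adj b c) (h3 : G.Adj c d)
    (h4 : G.Adj d e) (h5 : G.Adj e a) (hac : a ≠ c) (had : a ≠ d) (hbd : b ≠ d) (hbe : b ≠ e)
    (hce : c ≠ e) : False :=
  h.free (hasCyc_five h1 h2 h3 h4 h5 hac had hbd hbe hce)

lemma Five.indep (h : Five G S) {L : List V} (hS : ∀ x ∈ L, x ∈ S)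
    (hL : L.Pairwise (fun x y => x ≠ y ∧ ¬ G.Adj x y)) (h5 : L.length = 5) : False := by
  have hnd : L.Nodup := hL.imp fun hh => hh.1
  have := card_le_aNum (G := G) (S := S) (I := L.toFinset)
    (fun x hx => hS x (List.mem_toFinset.1 hx)) (by
      intro x hx y hy hne
      simp at hx hy
      have : Std.Symm (fun x y : V => ¬ G.Adj x y) := ⟨fun _ _ h' h'' => h' h''.symm⟩
      exact (hL.imp (S := fun x y => ¬ G.Adj x y) fun hh => hh.2).forall hx hy hne)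
  rw [List.toFinset_card_of_nodup hnd, h5] at this
  have := h.small
  omega

lemma Five.nbr (h : Five G S) {v : V} (hv : v ∈ S) (F : Finset V) (hF : F.card < 4) :
    ∃ w ∈ S, G.Adj v w ∧ w ∉ F := by
  obtain ⟨N, hNS, hNc, hN⟩ := h.crit.minDeg v hv
  obtain ⟨w, hw, hwF⟩ := Finset.exists_mem_notMem_of_card_lt_card (lt_of_lt_of_le hF hNc)
  exact ⟨w, hNS hw, hN w hw, hwF⟩

lemma Five.k4_exit (h : Five G S) {u p q r : V} (hu : u ∈ S) (hup : G.Adj u p) (huq : G.Adj u q)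
    (hur : G.Adj u r) (hpq : G.Adj p q) (hpr : G.Adj p r) (hqr : G.Adj q r) :
    ∃ x ∈ S, G.Adj u x ∧ x ≠ p ∧ x ≠ q ∧ x ≠ r ∧
      ¬ G.Adj x p ∧ ¬ G.Adj x q ∧ ¬ G.Adj x r := by
  obtain ⟨x, hx, hux, hxF⟩ := h.nbr hu {p, q, r} (lt_of_le_of_lt Finset.card_le_three (by norm_num))
  simp at hxF
  obtain ⟨hxp, hxq, hxr⟩ := hxF
  refine ⟨x, hx, hux, hxp, hxq, hxr, fun h' => ?_, fun h' => ?_, fun h' => ?_⟩
  · exact h.no5 hux h' hpq hqr hur.symm hup.ne huq.ne hxq hxr hpr.ne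
  · exact h.no5 hux h' hpq.symm hpr hur.symm huq.ne hup.ne hxp hxr hqr.ne
  · exact h.no5 hux h' hqr.symm hpq.symm hup.symm hur.ne huq.ne hxq hxp hpr.ne.symm

lemma Five.k4 (h : Five G S) {x y z t : V} (hx : x ∈ S) (hy : y ∈ S) (hz : z ∈ S) (ht : t ∈ S)
    (hxy : G.Adj x y) (hxz : G.Adj x z) (hxt : G.Adj x t) (hyz : G.Adj y z) (hyt : G.Adj y t)
    (hzt : G.Adj z t) : False := by
  obtain ⟨a, ha, hxa, hay, haz, hat, hnay, hnaz, hnat⟩ := h.k4_exit hx hxy hxz hxt hyz hyt hzt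
  obtain ⟨b, hb, hyb, hbx, hbz, hbt, hnbx, hnbz, hnbt⟩ :=
    h.k4_exit hy hxy.symm hyz hyt hxz hxt hzt
  obtain ⟨c, hc, hzc, hcx, hcy, hct, hncx, hncy, hnct⟩ :=
    h.k4_exit hz hxz.symm hyz.symm hzt hxy hxt hyt
  obtain ⟨d, hd, htd, hdx, hdy, hdz, hndx, hndy, hndz⟩ :=
    h.k4_exit ht hxt.symm hyt.symm hzt.symm hxy hxz hyz
  have hab : ¬ G.Adj a b := fun h' =>
    h.no5 hxa h' hyb.symm hyz hxz.symm hbx.symm hxy.ne hay haz hbz
  have hac : ¬ G.Adj a c := fun h' =>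
    h.no5 hxa h' hzc.symm hyz.symm hxy.symm hcx.symm hxz.ne haz hay hcy
  have had : ¬ G.Adj a d := fun h' =>
    h.no5 hxa h' htd.symm hyt.symm hxy.symm hdx.symm hxt.ne hat hay hdy
  have hbc : ¬ G.Adj b c := fun h' =>
    h.no5 hyb h' hzc.symm hxz.symm hxy hcy.symm hyz.ne hbz hbx hcx
  have hbd : ¬ G.Adj b d := fun h' =>
    h.no5 hyb h' htd.symm hxt.symm hxy hdy.symm hyt.ne hbt hbx hdx
  have hcd : ¬ G.Adj c d := fun h' =>
    h.no5 hzc h' htd.symm hxt.symm hxz hdz.symm hzt.ne hct hcx hdx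
  have nb : b ≠ c ∧ b ≠ d ∧ c ≠ d :=
    ⟨fun e => hnbz (e ▸ hzc.symm), fun e => hnbt (e ▸ htd.symm), fun e => hnct (e ▸ htd.symm)⟩
  have key : ∀ w ∈ S, G.Adj a w → w ≠ x →
      G.Adj x w ∧ w ≠ b ∧ w ≠ c ∧ w ≠ d ∧ ¬ G.Adj w b ∧ ¬ G.Adj w c ∧ ¬ G.Adj w d := by
    intro w hw haw hwx
    have hwb : w ≠ b := fun e => hab (e ▸ haw)
    have hwc : w ≠ c := fun e => hac (e ▸ haw)
    have hwd : w ≠ d := fun e => had (e ▸ haw)
    have nwb : ¬ G.Adj w b := fun h' =>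
      h.no5 hxa haw h' hyb.symm hxy.symm hwx.symm hbx.symm (fun e => hnbx (e ▸ hxa.symm)) hay
        (fun e => hnay (e ▸ haw))
    have nwc : ¬ G.Adj w c := fun h' =>
      h.no5 hxa haw h' hzc.symm hxz.symm hwx.symm hcx.symm (fun e => hncx (e ▸ hxa.symm)) haz
        (fun e => hnaz (e ▸ haw))
    have nwd : ¬ G.Adj w d := fun h' =>
      h.no5 hxa haw h' htd.symm hxt.symm hwx.symm hdx.symm (fun e => hndx (e ▸ hxa.symm)) hat
        (fun e => hnat (e ▸ haw))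
    refine ⟨?_, hwb, hwc, hwd, nwb, nwc, nwd⟩
    by_contra hxw
    exact h.indep (L := [x, w, b, c, d]) (by simp [hx, hw, hb, hc, hd])
      (by simp [hwx.symm, hbx.symm, hcx.symm, hdx.symm, hwb, hwc, hwd, nwb, nwc, nwd,
        hbc, hbd, hcd, nb, G.adj_comm x, hnbx, hncx, hndx, mt G.adj_symm hxw]) rfl
  obtain ⟨w1, hw1, hA1, hF1⟩ := h.nbr ha {x} (by simp)
  simp at hF1
  obtain ⟨w2, hw2, hA2, hF2⟩ := h.nbr ha {x, w1} (lt_of_le_of_lt Finset.card_le_two (by norm_num))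
  simp at hF2
  obtain ⟨w3, hw3, hA3, hF3⟩ :=
    h.nbr ha {x, w1, w2} (lt_of_le_of_lt Finset.card_le_three (by norm_num))
  simp at hF3
  obtain ⟨k1, k1'⟩ := key w1 hw1 hA1 hF1
  obtain ⟨k2, k2'⟩ := key w2 hw2 hA2 hF2.1
  obtain ⟨k3, k3'⟩ := key w3 hw3 hA3 hF3.1
  by_cases h12 : G.Adj w1 w2
  · by_cases h23 : G.Adj w2 w3
    · exact h.no5 hxa hA1 h12 h23 k3.symm k1.ne k2.ne hA2.ne hA3.ne (Ne.symm hF3.2.1)
    · exact h.indep (L := [w2, w3, b, c, d]) (by simp [hw2, hw3, hb, hc, hd])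
        (by simp [Ne.symm hF3.2.2, h23, k2', k3', hbc, hbd, hcd, nb]) rfl
  · exact h.indep (L := [w1, w2, b, c, d]) (by simp [hw1, hw2, hb, hc, hd])
      (by simp [Ne.symm hF2.2, h12, k1', k2', hbc, hbd, hcd, nb]) rfl

/-- An edge in two triangles. -/
lemma Five.diamond (h : Five G S) {x y a z : V} (hx : x ∈ S) (hy : y ∈ S) (ha : a ∈ S)
    (hz : z ∈ S) (hxy : G.Adj x y) (hxa : G.Adj x a) (hya : G.Adj y a) (hxz : G.Adj x z)
    (hyz : G.Adj y z) (haz : a ≠ z) : False := by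
  by_cases hadj : G.Adj a z
  · exact h.k4 hx hy ha hz hxy hxa hxz hya hyz hadj
  obtain ⟨x1, hx1, hxx1, hF⟩ :=
    h.nbr hx {y, a, z} (lt_of_le_of_lt Finset.card_le_three (by norm_num))
  simp at hF
  obtain ⟨hx1y, hx1a, hx1z⟩ := hF
  have nx1a : ¬ G.Adj a x1 := fun h' =>
    h.no5 hxx1 h'.symm hya.symm hyz hxz.symm hxa.ne hxy.ne hx1y hx1z haz
  have nx1z : ¬ G.Adj z x1 := fun h' =>
    h.no5 hxx1 h'.symm hyz.symm hya hxa.symm hxz.ne hxy.ne hx1y hx1a haz.symm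
  have fact : ∀ v ∈ S, G.Adj a v → v ≠ x → v ≠ y →
      ¬ G.Adj v x ∧ ¬ G.Adj v y ∧ ¬ G.Adj v z ∧ ¬ G.Adj v x1 ∧ v ≠ z ∧ v ≠ x1 := by
    intro v _ hav hvx hvy
    have hvz : v ≠ z := fun e => hadj (e ▸ hav)
    have hvx1 : v ≠ x1 := fun e => nx1a (e ▸ hav)
    have n1 : ¬ G.Adj v x := fun h' =>
      h.no5 h' hxz hyz.symm hya hav hvz hvy hxy.ne hxa.ne haz.symm
    have n2 : ¬ G.Adj v y := fun h' =>
      h.no5 h' hyz hxz.symm hxa hav hvz hvx hxy.ne.symm hya.ne haz.symm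
    have n3 : ¬ G.Adj v z := fun h' =>
      h.no5 h' hxz.symm hxy hya hav hvx hvy hyz.ne.symm haz.symm hxa.ne
    exact ⟨n1, n2, n3, fun h' => h.no5 h' hxx1.symm hxy hya hav hvx hvy hx1y hx1a hxa.ne, hvz,
      hvx1⟩
  -- leaves of a triangle at `a`
  have sub : ∀ v ∈ S, G.Adj a v → v ≠ x → v ≠ y → ∀ p ∈ S, ∀ q ∈ S, p ≠ q → G.Adj v p →
      G.Adj v q → G.Adj a p → G.Adj a q →
      ∀ r ∈ S, ∀ r' ∈ S, G.Adj p r → G.Adj p r' → G.Adj a r → G.Adj a r' → r = r' := by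
    intro v hv hav _ _ p hp q hq hpq hvp hvq hap haq
    have npq : ¬ G.Adj p q := fun h' => h.k4 ha hv hp hq hav hap haq hvp hvq h'
    suffices hh : ∀ r, G.Adj p r → G.Adj a r → r = v by
      intro r _ r' _ h1 h2 h3 h4
      rw [hh r h1 h3, hh r' h2 h4]
    intro r hpr har
    by_contra hrv
    exact h.no5 haq hvq.symm hvp hpr har.symm hav.ne hap.ne hpq.symm (fun e => npq (e ▸ hpr))
      (Ne.symm hrv)
  obtain ⟨a1, a2, ha1, ha2, h1, h2, h12, u1, u2⟩ : ∃ a1 a2, a1 ∈ S ∧ a2 ∈ S ∧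
      (G.Adj a a1 ∧ a1 ≠ x ∧ a1 ≠ y) ∧ (G.Adj a a2 ∧ a2 ≠ x ∧ a2 ≠ y) ∧ a1 ≠ a2 ∧
      (∀ r ∈ S, ∀ r' ∈ S, G.Adj a1 r → G.Adj a1 r' → G.Adj a r → G.Adj a r' → r = r') ∧
      (∀ r ∈ S, ∀ r' ∈ S, G.Adj a2 r → G.Adj a2 r' → G.Adj a r → G.Adj a r' → r = r') := by
    obtain ⟨a1, ha1, hA1, hF1⟩ :=
      h.nbr ha {x, y} (lt_of_le_of_lt Finset.card_le_two (by norm_num))
    simp at hF1
    obtain ⟨a2, ha2, hA2, hF2⟩ :=
      h.nbr ha {x, y, a1} (lt_of_le_of_lt Finset.card_le_three (by norm_num))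
    simp at hF2
    by_cases hu : ∀ v ∈ ({a1, a2} : Finset V),
        ∀ r ∈ S, ∀ r' ∈ S, G.Adj v r → G.Adj v r' → G.Adj a r → G.Adj a r' → r = r'
    · exact ⟨a1, a2, ha1, ha2, ⟨hA1, hF1⟩, ⟨hA2, hF2.1, hF2.2.1⟩, Ne.symm hF2.2.2,
        hu a1 (by simp), hu a2 (by simp)⟩
    · push Not at hu
      obtain ⟨v, hv, p, hp, q, hq, hvp, hvq, hap, haq, hpq⟩ := hu
      obtain ⟨hvS, hav, hvx, hvy⟩ : v ∈ S ∧ G.Adj a v ∧ v ≠ x ∧ v ≠ y := by
        simp at hv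
        rcases hv with rfl | rfl
        · exact ⟨ha1, hA1, hF1⟩
        · exact ⟨ha2, hA2, hF2.1, hF2.2.1⟩
      obtain ⟨n1, n2, -⟩ := fact v hvS hav hvx hvy
      exact ⟨p, q, hp, hq, ⟨hap, fun e => n1 (e ▸ hvp), fun e => n2 (e ▸ hvp)⟩,
        ⟨haq, fun e => n1 (e ▸ hvq), fun e => n2 (e ▸ hvq)⟩, hpq,
        sub v hvS hav hvx hvy p hp q hq hpq hvp hvq hap haq,
        sub v hvS hav hvx hvy q hq p hp hpq.symm hvq hvp haq hap⟩
  obtain ⟨n11, -, n13, n14, e13, -⟩ := fact a1 ha1 h1.1 h1.2.1 h1.2.2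
  obtain ⟨n21, -, n23, n24, e23, -⟩ := fact a2 ha2 h2.1 h2.2.1 h2.2.2
  have pick : ∀ v ∈ S, G.Adj a v →
      (∀ r ∈ S, ∀ r' ∈ S, G.Adj v r → G.Adj v r' → G.Adj a r → G.Adj a r' → r = r') →
      ∀ F : Finset V, F.card ≤ 1 → ∃ w ∈ S, G.Adj v w ∧ ¬ G.Adj a w ∧ w ≠ a ∧ w ∉ F := by
    intro v hv hav hu F hF
    by_cases hc : ∃ r ∈ S, G.Adj v r ∧ G.Adj a r
    · obtain ⟨r, hr, hvr, har⟩ := hc
      obtain ⟨w, hw, hvw, hwF⟩ := h.nbr hv (insert a (insert r F)) (by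
        have := Finset.card_insert_le a (insert r F)
        have := Finset.card_insert_le r F
        omega)
      simp at hwF
      exact ⟨w, hw, hvw, fun h' => hwF.2.1 (hu w hw r hr hvw hvr h' har), hwF.1, hwF.2.2⟩
    · obtain ⟨w, hw, hvw, hwF⟩ := h.nbr hv (insert a F) (by
        have := Finset.card_insert_le a F
        omega)
      simp at hwF
      exact ⟨w, hw, hvw, fun h' => hc ⟨w, hw, hvw, h'⟩, hwF⟩
  obtain ⟨w1, hw1, hA1, naw1, hw1a, -⟩ := pick a1 ha1 h1.1 u1 ∅ (by simp)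
  obtain ⟨w2, hw2, hA2, naw2, hw2a, hF⟩ := pick a2 ha2 h2.1 u2 {w1} (by simp)
  simp at hF
  have outer : ∀ v w, G.Adj a v → v ≠ x → ¬ G.Adj v x → ¬ G.Adj v z → ¬ G.Adj v x1 →
      v ≠ z → G.Adj v w → w ≠ a →
      w ≠ z ∧ w ≠ x1 ∧ ¬ G.Adj w z ∧ ¬ G.Adj w x1 := by
    intro v w hav hvx m1 m3 m4 hvz hvw hwa
    have hwz : w ≠ z := fun e => m3 (e ▸ hvw)
    have hwx1 : w ≠ x1 := fun e => m4 (e ▸ hvw)
    have hwx : w ≠ x := fun e => m1 (e ▸ hvw)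
    refine ⟨hwz, hwx1, fun h' => h.no5 h' hxz.symm hxa hav hvw hwx hwa haz.symm hvz.symm hvx.symm,
      fun h' => h.no5 h' hxx1.symm hxa hav hvw hwx hwa hx1a
        (fun e => nx1a (e ▸ hav)) hvx.symm⟩
  obtain ⟨o1, o2, o3, o4⟩ := outer a1 w1 h1.1 h1.2.1 n11 n13 n14 e13 hA1 hw1a
  obtain ⟨o5, o6, o7, o8⟩ := outer a2 w2 h2.1 h2.2.1 n21 n23 n24 e23 hA2 hw2a
  have n12 : ¬ G.Adj w1 w2 := fun h' =>
    h.no5 h' hA2.symm h2.1.symm h1.1 hA1 (fun e => naw1 (e ▸ h2.1)) hw1a hw2a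
      (fun e => naw2 (e ▸ h1.1)) h12.symm
  exact h.indep (L := [a, z, x1, w1, w2]) (by simp [ha, hz, hx1, hw1, hw2])
    (by simp [haz, hadj, Ne.symm hx1a, Ne.symm hx1z, nx1a, nx1z, Ne.symm hw1a, Ne.symm hw2a,
      naw1, naw2, Ne.symm o1, Ne.symm o2, Ne.symm o5, Ne.symm o6, G.adj_comm z, G.adj_comm x1,
      o3, o4, o7, o8, Ne.symm hF, n12]) rfl

lemma Five.tri_edge (h : Five G S) {x y z a a' b c : V} (hx : x ∈ S) (hy : y ∈ S) (hz : z ∈ S)
    (ha : a ∈ S) (ha' : a' ∈ S) (hb : b ∈ S) (hc : c ∈ S) (hxy : G.Adj x y) (hxz : G.Adj x z)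
    (hyz : G.Adj y z) (hxa : G.Adj x a) (hay : a ≠ y) (haz : a ≠ z) (hxa' : G.Adj x a')
    (ha'y : a' ≠ y) (ha'z : a' ≠ z) (haa : G.Adj a a') (hyb : G.Adj y b) (hbx : b ≠ x)
    (hbz : b ≠ z) (hzc : G.Adj z c) (hcx : c ≠ x) (hcy : c ≠ y) : False := by
  have uniq : ∀ u ∈ S, ∀ v ∈ S, ∀ p ∈ S, ∀ q ∈ S, G.Adj u v → G.Adj u p → G.Adj v p → G.Adj u q →
      G.Adj v q → p = q := fun u hu v hv p hp q hq e1 e2 e3 e4 e5 => by
    by_contra hne
    exact h.diamond hu hv hp hq e1 e2 e3 e4 e5 hne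
  have nxb : ¬ G.Adj x b := fun h' => hbz (uniq x hx y hy b hb z hz hxy h' hyb hxz hyz)
  have nxc : ¬ G.Adj x c := fun h' => hcy (uniq x hx z hz c hc y hy hxz h' hzc hxy hyz.symm)
  have nzb : ¬ G.Adj z b := fun h' => hbx (uniq y hy z hz b hb x hx hyz hyb h' hxy.symm hxz.symm)
  have hbc : b ≠ c := fun e => nzb (e ▸ hzc)
  have nbc : ¬ G.Adj b c := fun h' =>
    h.no5 hyb h' hzc.symm hxz.symm hxy hcy.symm hyz.ne hbz hbx hcx
  obtain ⟨w, hw, haw, hF⟩ := h.nbr ha {x, a'} (lt_of_le_of_lt Finset.card_le_two (by norm_num))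
  simp at hF
  obtain ⟨w', hw', haw', hF'⟩ :=
    h.nbr ha' {x, a} (lt_of_le_of_lt Finset.card_le_two (by norm_num))
  simp at hF'
  have side : ∀ v v' u, v ∈ S → v' ∈ S → u ∈ S → G.Adj x v → G.Adj x v' → G.Adj v v' → v ≠ y →
      v ≠ z → G.Adj v u → u ≠ x → u ≠ v' →
      ¬ G.Adj x u ∧ ¬ G.Adj u b ∧ ¬ G.Adj u c ∧ u ≠ b ∧ u ≠ c := by
    intro v v' u hv hv' hu hxv hxv' hvv hvy hvz hvu hux huv
    have nxu : ¬ G.Adj x u := fun h' => huv (uniq x hx v hv u hu v' hv' hxv h' hvu hxv' hvv)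
    have huy : u ≠ y := fun e => nxu (e ▸ hxy)
    have huz : u ≠ z := fun e => nxu (e ▸ hxz)
    have hvb : v ≠ b := fun e => nxb (e ▸ hxv)
    have hvc : v ≠ c := fun e => nxc (e ▸ hxv)
    have nvb : ¬ G.Adj v b := fun h' =>
      h.no5 hxv h' hyb.symm hyz hxz.symm hbx.symm hxy.ne hvy hvz hbz
    have nvc : ¬ G.Adj v c := fun h' =>
      h.no5 hxv h' hzc.symm hyz.symm hxy.symm hcx.symm hxz.ne hvz hvy hcy
    exact ⟨nxu, fun h' => h.no5 h' hyb.symm hxy.symm hxv hvu huy hux hbx hvb.symm hvy.symm,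
      fun h' => h.no5 h' hzc.symm hxz.symm hxv hvu huz hux hcx hvc.symm hvz.symm,
      fun e => nvb (e ▸ hvu), fun e => nvc (e ▸ hvu)⟩
  obtain ⟨p1, p2, p3, p4, p5⟩ := side a a' w ha ha' hw hxa hxa' haa hay haz haw hF.1 hF.2
  obtain ⟨q1, q2, q3, q4, q5⟩ :=
    side a' a w' ha' ha hw' hxa' hxa haa.symm ha'y ha'z haw' hF'.1 hF'.2
  have hww : w ≠ w' := fun e => by
    subst e
    exact hF.1 (uniq a ha a' ha' w hw x hx haa haw haw' hxa.symm hxa'.symm)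
  have nww : ¬ G.Adj w w' := fun h' =>
    h.no5 h' haw'.symm hxa'.symm hxa haw hF.2 hF.1 hF'.1 hF'.2 haa.ne.symm
  exact h.indep (L := [x, w, w', b, c]) (by simp [hx, hw, hw', hb, hc])
    (by simp [Ne.symm hF.1, Ne.symm hF'.1, hbx.symm, hcx.symm, p1, q1, nxb, nxc, hww, nww, p2, p3,
      p4, p5, q2, q3, q4, q5, hbc, nbc]) rfl

lemma Five.triangle (h : Five G S) {x y z : V} (hx : x ∈ S) (hy : y ∈ S) (hz : z ∈ S)
    (hxy : G.Adj x y) (hxz : G.Adj x z) (hyz : G.Adj y z) : False := by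
  have two : ∀ v ∈ S, ∀ p q : V, ∃ a ∈ S, ∃ a' ∈ S, G.Adj v a ∧ G.Adj v a' ∧ a ≠ p ∧ a ≠ q ∧
      a' ≠ p ∧ a' ≠ q ∧ a ≠ a' := by
    intro v hv p q
    obtain ⟨a, ha, hA, hF⟩ := h.nbr hv {p, q} (lt_of_le_of_lt Finset.card_le_two (by norm_num))
    simp at hF
    obtain ⟨a', ha', hA', hF'⟩ :=
      h.nbr hv {p, q, a} (lt_of_le_of_lt Finset.card_le_three (by norm_num))
    simp at hF'
    exact ⟨a, ha, a', ha', hA, hA', hF.1, hF.2, hF'.1, hF'.2.1, Ne.symm hF'.2.2⟩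
  obtain ⟨a, ha, a', ha', xa, xa', ay, az, a'y, a'z, aa⟩ := two x hx y z
  obtain ⟨b, hb, b', hb', yb, yb', bx, bz, b'x, b'z, bb⟩ := two y hy x z
  obtain ⟨c, hc, -, -, zc, -, cx, cy, -, -, -⟩ := two z hz x y
  have na : ¬ G.Adj a a' := fun e =>
    h.tri_edge hx hy hz ha ha' hb hc hxy hxz hyz xa ay az xa' a'y a'z e yb bx bz zc cx cy
  have nb : ¬ G.Adj b b' := fun e =>
    h.tri_edge hy hx hz hb hb' ha hc hxy.symm hyz hxz yb bx bz yb' b'x b'z e xa ay az zc cy cx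
  have uniq : ∀ u ∈ S, ∀ v ∈ S, ∀ p ∈ S, ∀ q ∈ S, G.Adj u v → G.Adj u p → G.Adj v p → G.Adj u q →
      G.Adj v q → p = q := fun u hu v hv p hp q hq e1 e2 e3 e4 e5 => by
    by_contra hne
    exact h.diamond hu hv hp hq e1 e2 e3 e4 e5 hne
  have cross : ∀ u v w p q, u ∈ S → v ∈ S → w ∈ S → p ∈ S → G.Adj u v → G.Adj u w → G.Adj v w →
      G.Adj u p → p ≠ v → p ≠ w → G.Adj v q → q ≠ u → q ≠ w → p ≠ q ∧ ¬ G.Adj p q := by
    intro u v w p q hu hv hw hp huv huw hvw hup hpv hpw hvq hqu hqw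
    exact ⟨fun e => by
      subst e
      exact hpw (uniq u hu v hv p hp w hw huv hup hvq huw hvw),
      fun e => h.no5 hup e hvq.symm hvw huw.symm hqu.symm huv.ne hpv hpw hqw⟩
  obtain ⟨e1, f1⟩ := cross x y z a b hx hy hz ha hxy hxz hyz xa ay az yb bx bz
  obtain ⟨e2, f2⟩ := cross x y z a b' hx hy hz ha hxy hxz hyz xa ay az yb' b'x b'z
  obtain ⟨e3, f3⟩ := cross x y z a' b hx hy hz ha' hxy hxz hyz xa' a'y a'z yb bx bz
  obtain ⟨e4, f4⟩ := cross x y z a' b' hx hy hz ha' hxy hxz hyz xa' a'y a'z yb' b'x b'z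
  obtain ⟨e5, f5⟩ := cross x z y a c hx hz hy ha hxz hxy hyz.symm xa az ay zc cx cy
  obtain ⟨e6, f6⟩ := cross x z y a' c hx hz hy ha' hxz hxy hyz.symm xa' a'z a'y zc cx cy
  obtain ⟨e7, f7⟩ := cross y z x b c hy hz hx hb hyz hxy.symm hxz.symm yb bz bx zc cy cx
  obtain ⟨e8, f8⟩ := cross y z x b' c hy hz hx hb' hyz hxy.symm hxz.symm yb' b'z b'x zc cy cx
  exact h.indep (L := [a, a', b, b', c]) (by simp [ha, ha', hb, hb', hc])
    (by simp [aa, bb, na, nb, e1, e2, e3, e4, e5, e6, e7, e8, f1, f2, f3, f4, f5, f6, f7, f8]) rfl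

/-- For the five-cycle no critical set has independence number at most four. -/
theorem crit_five_false (hnc : ¬ HasCyc G 5) (hS : Crit G S 4) (ha : aNum G S ≤ 4) : False := by
  classical
  have h : Five G S := ⟨hS, ha, hnc⟩
  obtain ⟨v, hv⟩ : S.Nonempty := Finset.card_pos.1 (by rw [hS.card_eq]; omega)
  set N := fun u => S.filter (G.Adj u) with hN
  have hNi : ∀ u ∈ S, G.IsIndepSet (N u : Set V) := by
    intro u hu p hp q hq _ hpq
    simp [hN] at hp hq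
    exact h.triangle hu hp.1 hq.1 hp.2 hq.2 hpq
  have hdeg : ∀ u ∈ S, (N u).card = 4 ∧ 4 ≤ aNum G S := by
    intro u hu
    have h1 := card_le_aNum (G := G) (S := S) (Finset.filter_subset _ _) (hNi u hu)
    obtain ⟨M, hMS, hMc, hM⟩ := hS.minDeg u hu
    have h2 : M.card ≤ (N u).card :=
      Finset.card_le_card fun w hw => Finset.mem_filter.2 ⟨hMS hw, hM w hw⟩
    simp only [hN] at *
    omega
  set L := S.filter (fun w => w ≠ v ∧ ¬ G.Adj v w ∧ ∃ p ∈ N v, G.Adj p w) with hL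
  have hLi : G.IsIndepSet (L : Set V) := by
    intro p hp q hq _ hpq
    simp [hL, hN] at hp hq
    obtain ⟨hpS, hpv, nvp, r, ⟨hr, hvr⟩, hrp⟩ := hp
    obtain ⟨hqS, hqv, nvq, s, ⟨hs, hvs⟩, hsq⟩ := hq
    by_cases e : r = s
    · subst e
      exact h.triangle hr hpS hqS hrp hsq hpq
    · exact h.no5 hvr hrp hpq hsq.symm hvs.symm (Ne.symm hpv) (Ne.symm hqv)
        (fun e' => nvq (e' ▸ hvr)) e (fun e' => nvp (e' ▸ hvs))
  have hL3 : L.card ≤ 3 := by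
    have h1 := card_le_aNum (G := G) (S := S) (I := insert v L)
      (Finset.insert_subset hv (Finset.filter_subset _ _)) (by
        rw [Finset.coe_insert]
        intro p hp q hq hne hpq
        rcases hp with rfl | hp <;> rcases hq with rfl | hq
        · exact hne rfl
        · exact (Finset.mem_filter.1 hq).2.2.1 hpq
        · exact (Finset.mem_filter.1 hp).2.2.1 hpq.symm
        · exact hLi hp hq hne hpq)
    rw [Finset.card_insert_of_notMem (by simp [hL])] at h1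
    omega
  have hfull : ∀ p ∈ N v, N p = insert v L := by
    intro p hp
    have hp' := Finset.mem_filter.1 hp
    refine Finset.eq_of_subset_of_card_le ?_ ?_
    · intro w hw
      obtain ⟨hwS, hpw⟩ := Finset.mem_filter.1 hw
      rw [Finset.mem_insert]
      by_cases e : w = v
      · exact Or.inl e
      · exact Or.inr (Finset.mem_filter.2
          ⟨hwS, e, fun e' => h.triangle hv hp'.1 hwS hp'.2 e' hpw, p, hp, hpw⟩)
    · have := (hdeg p hp'.1).1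
      have := Finset.card_insert_le v L
      omega
  have hLN : ∀ w ∈ L, N w = N v := by
    intro w hw
    have hwS := (Finset.mem_filter.1 hw).1
    refine (Finset.eq_of_subset_of_card_le ?_ ?_).symm
    · intro p hp
      have : w ∈ N p := by rw [hfull p hp]; exact Finset.mem_insert_of_mem hw
      exact Finset.mem_filter.2 ⟨(Finset.mem_filter.1 hp).1, (Finset.mem_filter.1 this).2.symm⟩
    · rw [(hdeg w hwS).1, (hdeg v hv).1]
  set C := insert v (N v ∪ L) with hC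
  have closed : ∀ p ∈ C, ∀ q ∈ S, G.Adj p q → q ∈ C := by
    intro p hp q hq hpq
    simp only [hC, Finset.mem_insert, Finset.mem_union] at hp ⊢
    rcases hp with rfl | hp | hp
    · exact Or.inr (Or.inl (Finset.mem_filter.2 ⟨hq, hpq⟩))
    · have : q ∈ insert v L := hfull p hp ▸ Finset.mem_filter.2 ⟨hq, hpq⟩
      simp at this
      tauto
    · exact Or.inr (Or.inl (hLN p hp ▸ Finset.mem_filter.2 ⟨hq, hpq⟩))
  have hsub : S ⊆ C := by
    intro u hu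
    obtain ⟨n, g, g0, gn, -, gadj, gm⟩ := hS.conn v hv u hu
    have key : ∀ i ≤ n, g i ∈ C := by
      intro i
      induction i with
      | zero => intro _; rw [g0]; exact Finset.mem_insert_self _ _
      | succ i ih =>
        intro hi
        exact closed _ (ih (by omega)) _ (by exact_mod_cast gm (i + 1) hi) (gadj i (by omega))
    exact gn ▸ key n le_rfl
  have := Finset.card_le_card hsub
  have := Finset.card_insert_le v (N v ∪ L)
  have := Finset.card_union_le (N v) L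
  have := hdeg v hv
  have := hS.card_eq
  simp only [hC] at *
  omega

theorem cliqueSpec_five : Full.CliqueSpec G 5 :=
  fun hnc _ hS ha => (crit_five_false hnc hS (by omega)).elim

theorem growthSpec_five : Full.GrowthSpec G 5 :=
  fun hnc _ hS _ ha _ => crit_five_false hnc hS (by omega)

end Vale.Agent.P048
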