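import Vale.Agent.P048.Full.Assembly
import Vale.Agent.P048.Full.Clique
import Vale.Agent.P048.Full.Cross
import Vale.Agent.P048.Full.Dense
import Vale.Agent.P048.Full.Exit
import Vale.Agent.P048.Full.Flex
import Vale.Agent.P048.Full.Growth
import Vale.Agent.P048.Full.Layer
import Vale.Agent.P048.Full.LongPath
import Vale.Agent.P048.Full.Small4
import Vale.Agent.P048.Full.Small5

/-!
Assembly: the clique exclusion and the growth for every cycle length, from exits and twins.
-/

namespace Vale.Agent.P048.Full

variable {V : Type*} [DecidableEq V] {G : SimpleGraph V}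

/-- Cores close up through tails. -/
theorem flexSpec_general {m : ℕ} (hm : 8 ≤ m) : FlexSpec G m :=
  flexSpec (by omega) (crossSpec (by omega)) (longPathSpec (by omega))

/-- Critical sets without big cliques are impossible. -/
theorem growthSpec_general {m : ℕ} (hm : 8 ≤ m) : GrowthSpec G m :=
  growthSpec (by omega) (layerSpec (by omega) (coreSpec (by omega)) (crossSpec (by omega))
    (longPathSpec (by omega)))

/-- Critical sets have no big clique, given exits and twins. -/
theorem cliqueSpec_general {m : ℕ} (hm : 8 ≤ m) (hexit : ExitSpec G m) (htwin : TwinSpec G m) :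
    CliqueSpec G m :=
  cliqueSpec (by omega) hexit (coreSpec (by omega)) (flexSpec_general hm) htwin

omit [DecidableEq V] in
/-- The identity for `8 ≤ m`, given exits and twins. -/
theorem ramsey_of_exit_twin {m n : ℕ} (hm : 8 ≤ m) (hn : 1 ≤ n) (hmn : n ≤ m)
    (hexit : ∀ N, ∀ G : SimpleGraph (Fin N), ExitSpec G m)
    (htwin : ∀ N, ∀ G : SimpleGraph (Fin N), TwinSpec G m) :
    IsLeast {N : ℕ | ∀ G : SimpleGraph (Fin N),
      (∃ v : Fin N, ∃ p : G.Walk v v, p.IsCycle ∧ p.length = m) ∨
      ∃ s : Finset (Fin N), G.IsNIndepSet n s} ((m - 1) * (n - 1) + 1) :=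
  ramsey_full_of_specs (by omega) hn hmn
    (fun N G => cliqueSpec_general hm (hexit N G) (htwin N G))
    (fun _ _ => growthSpec_general hm)

end Vale.Agent.P048.Full
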