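import Vale.Agent.P048.Full.Small7Layer
import Vale.Agent.P048.Full.Spec

/-!
The seven-cycle: a critical set with independence number at most six does not exist.
-/

namespace Vale.Agent.P048

open Finset

variable {V : Type*} [DecidableEq V] {G : SimpleGraph V} {S : Finset V}

/-- Standing hypotheses for the seven-cycle. -/
structure Seven (G : SimpleGraph V) (S : Finset V) : Prop where
  crit : Crit G S 6
  small : aNum G S ≤ 6
  free : ¬ HasCyc G 7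

omit [DecidableEq V] in
/-- A seven-cycle on a vertex followed by six distinct vertices. -/
lemma Seven.no7 (h : Seven G S) {a b c d e f g : V} (h1 : G.Adj a b) (h2 : G.Adj b c)
    (h3 : G.Adj c d) (h4 : G.Adj d e) (h5 : G.Adj e f) (h6 : G.Adj f g) (h7 : G.Adj g a)
    (hn : [a, b, c, d, e, f, g].Nodup) : False :=
  h.free (hasCyc_seven h1 h2 h3 h4 h5 h6 h7 hn)

lemma Seven.indep (h : Seven G S) {L : List V} (hS : ∀ x ∈ L, x ∈ S)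
    (hL : L.Pairwise (fun x y => x ≠ y ∧ ¬ G.Adj x y)) (h7 : L.length = 7) : False := by
  have hnd : L.Nodup := hL.imp fun hh => hh.1
  have := card_le_aNum (G := G) (S := S) (I := L.toFinset)
    (fun x hx => hS x (List.mem_toFinset.1 hx)) (by
      intro x hx y hy hne
      simp at hx hy
      have : Std.Symm (fun x y : V => ¬ G.Adj x y) := ⟨fun _ _ h' h'' => h' h''.symm⟩
      exact (hL.imp (S := fun x y => ¬ G.Adj x y) fun hh => hh.2).forall hx hy hne)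
  rw [List.toFinset_card_of_nodup hnd, h7] at this
  have := h.small
  omega

lemma Seven.nbr (h : Seven G S) {v : V} (hv : v ∈ S) (F : Finset V) (hF : F.card < 6) :
    ∃ w ∈ S, G.Adj v w ∧ w ∉ F := by
  obtain ⟨N, hNS, hNc, hN⟩ := h.crit.minDeg v hv
  obtain ⟨w, hw, hwF⟩ := Finset.exists_mem_notMem_of_card_lt_card (lt_of_lt_of_le hF hNc)
  exact ⟨w, hNS hw, hN w hw, hwF⟩

omit [DecidableEq V] in
/-- Attachments to two vertices `u, v` of a `K₅` on `u v p q o` are far apart. -/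
lemma Seven.cross (h : Seven G S) {u v p q o a b : V} (_huv : G.Adj u v) (hup : G.Adj u p)
    (huq : G.Adj u q) (huo : G.Adj u o) (hvp : G.Adj v p) (hpq : G.Adj p q) (hqo : G.Adj q o)
    (hua : G.Adj u a) (hvb : G.Adj v b) (hn : [u, v, p, q, o].Nodup) (hav : a ≠ v) (hap : a ≠ p)
    (haq : a ≠ q) (hao : a ≠ o) (hbu : b ≠ u) (hbp : b ≠ p) (hbq : b ≠ q) (hbo : b ≠ o)
    (hab : a ≠ b) :
    ¬ G.Adj a b ∧
    (∀ w, G.Adj a w → w ≠ u → w ≠ v → w ≠ p → w ≠ q → w ≠ b ∧ ¬ G.Adj w b) ∧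
    (∀ w w', G.Adj a w → w ≠ u → w ≠ v → w ≠ p → w ≠ q → G.Adj b w' → w' ≠ u → w' ≠ v → w' ≠ p →
      w ≠ w' ∧ ¬ G.Adj w w') := by
  simp at hn
  obtain ⟨⟨nuv, nup, nuq, nuo⟩, ⟨nvp, nvq, nvo⟩, ⟨npq, npo⟩, nqo⟩ := hn
  have h1 : ¬ G.Adj a b := fun e => h.no7 e hvb.symm hvp hpq hqo huo.symm hua (by
    simp [hab, hav, hap, haq, hao, hua.ne.symm, hvb.ne.symm, hbp, hbq, hbo, hbu, nvp, nvq, nvo,
      Ne.symm nuv, npq, npo, Ne.symm nup, nqo, Ne.symm nuq, Ne.symm nuo])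
  have h2 : ∀ w, G.Adj a w → w ≠ u → w ≠ v → w ≠ p → w ≠ q → w ≠ b ∧ ¬ G.Adj w b := by
    intro w haw hwu hwv hwp hwq
    have hwb : w ≠ b := fun e => h1 (e ▸ haw)
    exact ⟨hwb, fun e => h.no7 haw e hvb.symm hvp hpq huq.symm hua (by
      simp [haw.ne, hab, hav, hap, haq, hua.ne.symm, hwb, hwv, hwp, hwq, hwu, hvb.ne.symm, hbp,
        hbq, hbu, nvp, nvq, Ne.symm nuv, npq, Ne.symm nup, Ne.symm nuq])⟩
  refine ⟨h1, h2, fun w w' haw hwu hwv hwp hwq hbw hwu' hwv' hwp' => ?_⟩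
  obtain ⟨hwb, nwb⟩ := h2 w haw hwu hwv hwp hwq
  refine ⟨fun e => nwb (e ▸ hbw.symm), fun e => ?_⟩
  have hwa' : w' ≠ a := fun e' => h1 (e' ▸ hbw).symm
  have hww : w ≠ w' := e.ne
  exact h.no7 haw e hbw.symm hvb.symm hvp hup.symm hua (by
    simp [haw.ne, hwa'.symm, hab, hav, hap, hua.ne.symm, hww, hwb, hwv, hwp, hwu, hbw.ne.symm,
      hwv', hwp', hwu', hvb.ne.symm, hbp, hbu, nvp, Ne.symm nuv, Ne.symm nup])

omit [DecidableEq V] in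
/-- A six-clique. -/
def IsK6 (G : SimpleGraph V) (u p q r o s : V) : Prop :=
  G.Adj u p ∧ G.Adj u q ∧ G.Adj u r ∧ G.Adj u o ∧ G.Adj u s ∧ G.Adj p q ∧ G.Adj p r ∧ G.Adj p o ∧
  G.Adj p s ∧ G.Adj q r ∧ G.Adj q o ∧ G.Adj q s ∧ G.Adj r o ∧ G.Adj r s ∧ G.Adj o s

lemma Seven.exit6 (h : Seven G S) {u p q r o s : V} (hu : u ∈ S) (hK : IsK6 G u p q r o s) :
    ∃ a ∈ S, G.Adj u a ∧ a ≠ p ∧ a ≠ q ∧ a ≠ r ∧ a ≠ o ∧ a ≠ s ∧
      ¬ G.Adj a p ∧ ¬ G.Adj a q ∧ ¬ G.Adj a r ∧ ¬ G.Adj a o ∧ ¬ G.Adj a s := by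
  obtain ⟨up, uq, ur, uo, us, pq, pr, po, ps, qr, qo, qs, ro, rs, os⟩ := hK
  obtain ⟨a, ha, hua, hF⟩ := h.nbr hu {p, q, r, o, s} (lt_of_le_of_lt Finset.card_le_five (by norm_num))
  simp at hF
  obtain ⟨ap, aq, ar, ao, as⟩ := hF
  refine ⟨a, ha, hua, ap, aq, ar, ao, as, fun e => ?_, fun e => ?_, fun e => ?_, fun e => ?_,
    fun e => ?_⟩
  · exact h.no7 hua e pq qr ro os us.symm (by
      simp [hua.ne, up.ne, uq.ne, ur.ne, uo.ne, us.ne, ap, aq, ar, ao, as, pq.ne, pr.ne, po.ne,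
        ps.ne, qr.ne, qo.ne, qs.ne, ro.ne, rs.ne, os.ne])
  · exact h.no7 hua e pq.symm pr ro os us.symm (by
      simp [hua.ne, up.ne, uq.ne, ur.ne, uo.ne, us.ne, ap, aq, ar, ao, as, pq.ne.symm, pr.ne, po.ne,
        ps.ne, qr.ne, qo.ne, qs.ne, ro.ne, rs.ne, os.ne])
  · exact h.no7 hua e pr.symm pq qo os us.symm (by
      simp [hua.ne, up.ne, uq.ne, ur.ne, uo.ne, us.ne, ap, aq, ar, ao, as, pq.ne, pr.ne.symm, po.ne,
        ps.ne, qr.ne.symm, qo.ne, qs.ne, ro.ne, rs.ne, os.ne])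
  · exact h.no7 hua e po.symm pq qr rs us.symm (by
      simp [hua.ne, up.ne, uq.ne, ur.ne, uo.ne, us.ne, ap, aq, ar, ao, as, pq.ne, pr.ne, po.ne.symm,
        ps.ne, qr.ne, qo.ne.symm, qs.ne, ro.ne.symm, rs.ne, os.ne])
  · exact h.no7 hua e ps.symm pq qr ro uo.symm (by
      simp [hua.ne, up.ne, uq.ne, ur.ne, uo.ne, us.ne, ap, aq, ar, ao, as, pq.ne, pr.ne, po.ne,
        ps.ne.symm, qr.ne, qo.ne, qs.ne.symm, ro.ne, rs.ne.symm, os.ne.symm])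

omit [DecidableEq V] in
/-- Exits at two vertices of a six-clique are distinct and far apart. -/
lemma Seven.far6 (h : Seven G S) {u v p q o a b : V} (hK : [u, v, p, q, o].Pairwise G.Adj)
    (hua : G.Adj u a) (hvb : G.Adj v b) (hav : a ≠ v) (hap : a ≠ p) (haq : a ≠ q) (hao : a ≠ o)
    (hbu : b ≠ u) (hbp : b ≠ p) (hbq : b ≠ q) (hbo : b ≠ o) (nbu : ¬ G.Adj b u) :
    a ≠ b ∧ ¬ G.Adj a b ∧
      ∀ w, G.Adj a w → w ≠ u → w ≠ v → w ≠ p → w ≠ q → w ≠ b ∧ ¬ G.Adj w b := by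
  have hab : a ≠ b := fun e => nbu (e ▸ hua).symm
  have hn : [u, v, p, q, o].Nodup := hK.imp fun h' => h'.ne
  simp at hK
  obtain ⟨⟨huv, hup, huq, huo⟩, ⟨hvp, -, -⟩, ⟨hpq, -⟩, hqo⟩ := hK
  obtain ⟨c1, c2, -⟩ :=
    h.cross huv hup huq huo hvp hpq hqo hua hvb hn hav hap haq hao hbu hbp hbq hbo hab
  exact ⟨hab, c1, c2⟩

lemma Seven.k6 (h : Seven G S) {x y z t s k : V} (hx : x ∈ S) (hy : y ∈ S) (hz : z ∈ S)
    (ht : t ∈ S) (hs : s ∈ S) (hk : k ∈ S) (hK : IsK6 G x y z t s k) : False := by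
  obtain ⟨xy, xz, xt, xs, xk, yz, yt, ys, yk, zt, zs, zk, ts, tk, sk⟩ := hK
  obtain ⟨a, ha, xa, ay, az, at', as, ak, nay, naz, nat, nas, nak⟩ := h.exit6 hx
    (show IsK6 G x y z t s k from ⟨xy, xz, xt, xs, xk, yz, yt, ys, yk, zt, zs, zk, ts, tk, sk⟩)
  obtain ⟨b, hb, yb, bx, bz, bt, bs, bk, nbx, nbz, nbt, nbs, nbk⟩ := h.exit6 hy
    (show IsK6 G y x z t s k from
      ⟨xy.symm, yz, yt, ys, yk, xz, xt, xs, xk, zt, zs, zk, ts, tk, sk⟩)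
  obtain ⟨c, hc, zc, cx, cy, ct, cs, ck, ncx, ncy, nct, ncs, nck⟩ := h.exit6 hz
    (show IsK6 G z x y t s k from
      ⟨xz.symm, yz.symm, zt, zs, zk, xy, xt, xs, xk, yt, ys, yk, ts, tk, sk⟩)
  obtain ⟨d, hd, td, dx, dy, dz, ds, dk, ndx, ndy, ndz, nds, ndk⟩ := h.exit6 ht
    (show IsK6 G t x y z s k from
      ⟨xt.symm, yt.symm, zt.symm, ts, tk, xy, xz, xs, xk, yz, ys, yk, zs, zk, sk⟩)
  obtain ⟨f, hf, sf, fx, fy, fz, ft, fk, nfx, nfy, nfz, nft, nfk⟩ := h.exit6 hs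
    (show IsK6 G s x y z t k from
      ⟨xs.symm, ys.symm, zs.symm, ts.symm, sk, xy, xz, xt, xk, yz, yt, yk, zt, zk, tk⟩)
  obtain ⟨g, hg, kg, gx, gy, gz, gt, gs, ngx, ngy, ngz, ngt, ngs⟩ := h.exit6 hk
    (show IsK6 G k x y z t s from
      ⟨xk.symm, yk.symm, zk.symm, tk.symm, sk.symm, xy, xz, xt, xs, yz, yt, ys, zt, zs, ts⟩)
  obtain ⟨eab, nab, Fb⟩ := h.far6 (u := x) (v := y) (p := z) (q := t) (o := s)
    (by simp [xy, xz, xt, xs, yz, yt, ys, zt, zs, ts]) xa yb ay az at' as bx bz bt bs nbx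
  obtain ⟨eac, nac, Fc⟩ := h.far6 (u := x) (v := z) (p := y) (q := t) (o := s)
    (by simp [xy, xz, xt, xs, yz.symm, yt, ys, zt, zs, ts]) xa zc az ay at' as cx cy ct cs ncx
  obtain ⟨ead, nad, Fd⟩ := h.far6 (u := x) (v := t) (p := y) (q := z) (o := s)
    (by simp [xy, xz, xt, xs, yz, yt.symm, ys, zt.symm, zs, ts]) xa td at' ay az as dx dy dz ds ndx
  obtain ⟨eaf, naf, Ff⟩ := h.far6 (u := x) (v := s) (p := y) (q := z) (o := t)
    (by simp [xy, xz, xt, xs, yz, yt, ys.symm, zt, zs.symm, ts.symm]) xa sf as ay az at' fx fy fz ft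
    nfx
  obtain ⟨eag, nag, Fg⟩ := h.far6 (u := x) (v := k) (p := y) (q := z) (o := t)
    (by simp [xy, xz, xt, xk, yz, yt, yk.symm, zt, zk.symm, tk.symm]) xa kg ak ay az at' gx gy gz gt
    ngx
  obtain ⟨ebc, nbc, -⟩ := h.far6 (u := y) (v := z) (p := x) (q := t) (o := s)
    (by simp [xy.symm, xz.symm, xt, xs, yz, yt, ys, zt, zs, ts]) yb zc bz bx bt bs cy cx ct cs ncy
  obtain ⟨ebd, nbd, -⟩ := h.far6 (u := y) (v := t) (p := x) (q := z) (o := s)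
    (by simp [xy.symm, xz, xt.symm, xs, yz, yt, ys, zt.symm, zs, ts]) yb td bt bx bz bs dy dx dz ds
    ndy
  obtain ⟨ebf, nbf, -⟩ := h.far6 (u := y) (v := s) (p := x) (q := z) (o := t)
    (by simp [xy.symm, xz, xt, xs.symm, yz, yt, ys, zt, zs.symm, ts.symm]) yb sf bs bx bz bt fy fx
    fz ft nfy
  obtain ⟨ebg, nbg, -⟩ := h.far6 (u := y) (v := k) (p := x) (q := z) (o := t)
    (by simp [xy.symm, xz, xt, xk.symm, yz, yt, yk, zt, zk.symm, tk.symm]) yb kg bk bx bz bt gy gx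
    gz gt ngy
  obtain ⟨ecd, ncd, -⟩ := h.far6 (u := z) (v := t) (p := x) (q := y) (o := s)
    (by simp [xz.symm, yz.symm, xy, xs, xt.symm, yt.symm, ys, zt, zs, ts]) zc td ct cx cy cs dz dx
    dy ds ndz
  obtain ⟨ecf, ncf, -⟩ := h.far6 (u := z) (v := s) (p := x) (q := y) (o := t)
    (by simp [xz.symm, yz.symm, xy, xt, xs.symm, ys.symm, yt, zt, zs, ts.symm]) zc sf cs cx cy ct fz
    fx fy ft nfz
  obtain ⟨ecg, ncg, -⟩ := h.far6 (u := z) (v := k) (p := x) (q := y) (o := t)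
    (by simp [xz.symm, yz.symm, xy, xt, xk.symm, yk.symm, yt, zt, zk, tk.symm]) zc kg ck cx cy ct gz
    gx gy gt ngz
  obtain ⟨edf, ndf, -⟩ := h.far6 (u := t) (v := s) (p := x) (q := y) (o := z)
    (by simp [xt.symm, yt.symm, xy, xz, xs.symm, ys.symm, yz, zt.symm, zs.symm, ts]) td sf ds dx dy
    dz ft fx fy fz nft
  obtain ⟨edg, ndg, -⟩ := h.far6 (u := t) (v := k) (p := x) (q := y) (o := z)
    (by simp [xt.symm, yt.symm, xy, xz, xk.symm, yk.symm, yz, zt.symm, zk.symm, tk]) td kg dk dx dy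
    dz gt gx gy gz ngt
  obtain ⟨efg, nfg, -⟩ := h.far6 (u := s) (v := k) (p := x) (q := y) (o := z)
    (by simp [xs.symm, ys.symm, xy, xz, xk.symm, yk.symm, yz, zs.symm, zk.symm, sk]) sf kg fk fx fy
    fz gs gx gy gz ngs
  have key : ∀ w ∈ S, G.Adj a w → w ≠ x → G.Adj x w ∧ w ≠ b ∧ w ≠ c ∧ w ≠ d ∧ w ≠ f ∧ w ≠ g ∧
      ¬ G.Adj w b ∧ ¬ G.Adj w c ∧ ¬ G.Adj w d ∧ ¬ G.Adj w f ∧ ¬ G.Adj w g := by
    intro w hw haw hwx
    have wy : w ≠ y := fun e => nay (e ▸ haw)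
    have wz : w ≠ z := fun e => naz (e ▸ haw)
    have wt : w ≠ t := fun e => nat (e ▸ haw)
    have ws : w ≠ s := fun e => nas (e ▸ haw)
    have wk : w ≠ k := fun e => nak (e ▸ haw)
    obtain ⟨e1, g1⟩ := Fb w haw hwx wy wz wt
    obtain ⟨e2, g2⟩ := Fc w haw hwx wz wy wt
    obtain ⟨e3, g3⟩ := Fd w haw hwx wt wy wz
    obtain ⟨e4, g4⟩ := Ff w haw hwx ws wy wz
    obtain ⟨e5, g5⟩ := Fg w haw hwx wk wy wz
    refine ⟨?_, e1, e2, e3, e4, e5, g1, g2, g3, g4, g5⟩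
    by_contra hxw
    exact h.indep (L := [x, w, b, c, d, f, g]) (by simp [hx, hw, hb, hc, hd, hf, hg])
      (by simp [hwx.symm, bx.symm, cx.symm, dx.symm, fx.symm, gx.symm, e1, e2, e3, e4, e5, g1, g2,
        g3, g4, g5, ebc, ebd, ebf, ebg, ecd, ecf, ecg, edf, edg, efg, nbc, nbd, nbf, nbg, ncd, ncf,
        ncg, ndf, ndg, nfg, G.adj_comm x, nbx, ncx, ndx, nfx, ngx, mt G.adj_symm hxw]) rfl
  have pair : ∀ w w', w ∈ S → w' ∈ S → G.Adj a w → G.Adj a w' → w ≠ x → w' ≠ x → w ≠ w' →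
      G.Adj w w' := by
    intro w w' hw hw' e e' wx wx' hne
    by_contra hno
    obtain ⟨-, k1⟩ := key w hw e wx
    obtain ⟨-, k2⟩ := key w' hw' e' wx'
    exact h.indep (L := [w, w', b, c, d, f, g]) (by simp [hw, hw', hb, hc, hd, hf, hg])
      (by simp [hne, hno, k1, k2, ebc, ebd, ebf, ebg, ecd, ecf, ecg, edf, edg, efg, nbc, nbd, nbf,
        nbg, ncd, ncf, ncg, ndf, ndg, nfg]) rfl
  obtain ⟨w1, hw1, A1, F1⟩ := h.nbr ha {x} (by simp)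
  simp at F1
  obtain ⟨w2, hw2, A2, F2⟩ := h.nbr ha {x, w1} (lt_of_le_of_lt Finset.card_le_two (by norm_num))
  simp at F2
  obtain ⟨w3, hw3, A3, F3⟩ :=
    h.nbr ha {x, w1, w2} (lt_of_le_of_lt Finset.card_le_three (by norm_num))
  simp at F3
  obtain ⟨w4, hw4, A4, F4⟩ :=
    h.nbr ha {x, w1, w2, w3} (lt_of_le_of_lt Finset.card_le_four (by norm_num))
  simp at F4
  obtain ⟨w5, hw5, A5, F5⟩ :=
    h.nbr ha {x, w1, w2, w3, w4} (lt_of_le_of_lt Finset.card_le_five (by norm_num))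
  simp at F5
  exact h.no7 xa A1 (pair w1 w2 hw1 hw2 A1 A2 F1 F2.1 (Ne.symm F2.2))
    (pair w2 w3 hw2 hw3 A2 A3 F2.1 F3.1 (Ne.symm F3.2.2))
    (pair w3 w4 hw3 hw4 A3 A4 F3.1 F4.1 (Ne.symm F4.2.2.2))
    (pair w4 w5 hw4 hw5 A4 A5 F4.1 F5.1 (Ne.symm F5.2.2.2.2))
    (key w5 hw5 A5 F5.1).1.symm (by
      simp [xa.ne, Ne.symm F1, Ne.symm F2.1, Ne.symm F3.1, Ne.symm F4.1, Ne.symm F5.1, A1.ne, A2.ne,
        A3.ne, A4.ne, A5.ne, Ne.symm F2.2, Ne.symm F3.2.1, Ne.symm F3.2.2, Ne.symm F4.2.1,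
        Ne.symm F4.2.2.1, Ne.symm F4.2.2.2, Ne.symm F5.2.1, Ne.symm F5.2.2.1, Ne.symm F5.2.2.2.1,
        Ne.symm F5.2.2.2.2])

/-- An exit of a `K₅` vertex has two independent further neighbours. -/
lemma Seven.pair (h : Seven G S) {u a : V} (ha : a ∈ S) :
    ∃ p ∈ S, ∃ q ∈ S, G.Adj a p ∧ G.Adj a q ∧ p ≠ u ∧ q ≠ u ∧ p ≠ q ∧ ¬ G.Adj p q := by
  obtain ⟨w1, hw1, A1, F1⟩ := h.nbr ha {u} (by simp)
  simp at F1
  obtain ⟨w2, hw2, A2, F2⟩ := h.nbr ha {u, w1} (lt_of_le_of_lt Finset.card_le_two (by norm_num))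
  simp at F2
  obtain ⟨w3, hw3, A3, F3⟩ :=
    h.nbr ha {u, w1, w2} (lt_of_le_of_lt Finset.card_le_three (by norm_num))
  simp at F3
  obtain ⟨w4, hw4, A4, F4⟩ :=
    h.nbr ha {u, w1, w2, w3} (lt_of_le_of_lt Finset.card_le_four (by norm_num))
  simp at F4
  obtain ⟨w5, hw5, A5, F5⟩ :=
    h.nbr ha {u, w1, w2, w3, w4} (lt_of_le_of_lt Finset.card_le_five (by norm_num))
  simp at F5
  by_contra hno
  push Not at hno
  exact h.k6 ha hw1 hw2 hw3 hw4 hw5 ⟨A1, A2, A3, A4, A5,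
    hno w1 hw1 w2 hw2 A1 A2 F1 F2.1 (Ne.symm F2.2),
    hno w1 hw1 w3 hw3 A1 A3 F1 F3.1 (Ne.symm F3.2.1),
    hno w1 hw1 w4 hw4 A1 A4 F1 F4.1 (Ne.symm F4.2.1),
    hno w1 hw1 w5 hw5 A1 A5 F1 F5.1 (Ne.symm F5.2.1),
    hno w2 hw2 w3 hw3 A2 A3 F2.1 F3.1 (Ne.symm F3.2.2),
    hno w2 hw2 w4 hw4 A2 A4 F2.1 F4.1 (Ne.symm F4.2.2.1),
    hno w2 hw2 w5 hw5 A2 A5 F2.1 F5.1 (Ne.symm F5.2.2.1),
    hno w3 hw3 w4 hw4 A3 A4 F3.1 F4.1 (Ne.symm F4.2.2.2),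
    hno w3 hw3 w5 hw5 A3 A5 F3.1 F5.1 (Ne.symm F5.2.2.2.1),
    hno w4 hw4 w5 hw5 A4 A5 F4.1 F5.1 (Ne.symm F5.2.2.2.2)⟩

omit [DecidableEq V] in
/-- An exit at `z` of a `K₅` with a common neighbour `e` of `x, y` sees nothing else of the
clique. -/
lemma Seven.excl (h : Seven G S) {x y z t s e c : V} (hK : [x, y, z, t, s].Pairwise G.Adj)
    (hxe : G.Adj x e) (hye : G.Adj y e) (hzc : G.Adj z c) (hn : [x, y, z, t, s, e].Nodup)
    (hcx : c ≠ x) (hcy : c ≠ y) (hct : c ≠ t) (hcs : c ≠ s) (hce : c ≠ e) :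
    ¬ G.Adj c x ∧ ¬ G.Adj c y ∧ ¬ G.Adj c t ∧ ¬ G.Adj c s := by
  simp at hK hn
  obtain ⟨⟨xy, xz, xt, xs⟩, ⟨yz, yt, ys⟩, ⟨zt, zs⟩, ts⟩ := hK
  obtain ⟨⟨n1, n2, n3, n4, n5⟩, ⟨n6, n7, n8, n9⟩, ⟨n10, n11, n12⟩, ⟨n13, n14⟩, n15⟩ := hn
  have cz := hzc.ne.symm
  refine ⟨fun k => ?_, fun k => ?_, fun k => ?_, fun k => ?_⟩
  · exact h.no7 k hxe hye.symm yt ts zs.symm hzc (by
      simp [hcx, hce, hcy, hct, hcs, cz, n1, n2, n3, n4, n5, n7, n8, Ne.symm n9, Ne.symm n12,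
        Ne.symm n14, Ne.symm n15, n6, n13, Ne.symm n10, Ne.symm n11])
  · exact h.no7 k hye hxe.symm xt ts zs.symm hzc (by
      simp [hcx, hce, hcy, hct, hcs, cz, Ne.symm n1, n9, n6, n7, n8, Ne.symm n5, Ne.symm n14,
        Ne.symm n15, Ne.symm n12, n3, n4, n2, n13, Ne.symm n10, Ne.symm n11])
  · exact h.no7 k xt.symm hxe hye.symm ys zs.symm hzc (by
      simp [hcx, hce, hcy, hct, hcs, cz, Ne.symm n3, n14, Ne.symm n7, n13, Ne.symm n10, n5, n1, n4,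
        n2, Ne.symm n9, Ne.symm n15, Ne.symm n12, n8, n6, Ne.symm n11])
  · exact h.no7 k xs.symm hxe hye.symm yt zt.symm hzc (by
      simp [hcx, hce, hcy, hct, hcs, cz, Ne.symm n4, n15, Ne.symm n8, Ne.symm n13, Ne.symm n11, n5,
        n1, n3, n2, Ne.symm n9, Ne.symm n14, Ne.symm n12, n7, n6, Ne.symm n10])

lemma Seven.k5_common (h : Seven G S) {x y z t s e : V} (_hx : x ∈ S) (hz : z ∈ S) (ht : t ∈ S)
    (hs : s ∈ S) (he : e ∈ S) (hK : [x, y, z, t, s].Pairwise G.Adj) (hxe : G.Adj x e)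
    (hye : G.Adj y e) (hn : [x, y, z, t, s, e].Nodup) : False := by
  have hKK := hK
  have hn' := hn
  simp at hKK hn'
  obtain ⟨⟨xy, xz, xt, xs⟩, ⟨yz, yt, ys⟩, ⟨zt, zs⟩, ts⟩ := hKK
  obtain ⟨-, ⟨-, -, -, n9⟩, ⟨-, -, n12⟩, ⟨-, n14⟩, n15⟩ := hn'
  obtain ⟨c, hc, zc, hF⟩ :=
    h.nbr hz {x, y, t, s, e} (lt_of_le_of_lt Finset.card_le_five (by norm_num))
  obtain ⟨d, hd, td, hF'⟩ :=
    h.nbr ht {x, y, z, s, e} (lt_of_le_of_lt Finset.card_le_five (by norm_num))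
  obtain ⟨f, hf, sf, hF''⟩ :=
    h.nbr hs {x, y, z, t, e} (lt_of_le_of_lt Finset.card_le_five (by norm_num))
  obtain ⟨w, hw, ew, hFw⟩ :=
    h.nbr he {x, y, z, t, s} (lt_of_le_of_lt Finset.card_le_five (by norm_num))
  simp at hF hF' hF'' hFw
  obtain ⟨cx, cy, ct, cs, ce⟩ := hF
  obtain ⟨dx, dy, dz, ds, de⟩ := hF'
  obtain ⟨fx, fy, fz, ft, fe⟩ := hF''
  obtain ⟨wx, wy, wz, wt, ws⟩ := hFw
  obtain ⟨ncx, ncy, nct, ncs⟩ := h.excl hK hxe hye zc hn cx cy ct cs ce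
  have hnd : ∀ {u v : V}, G.Adj u v → u ≠ v := fun k => k.ne
  obtain ⟨ndx, ndy, ndz, nds⟩ := h.excl (x := x) (y := y) (z := t) (t := z) (s := s)
    (by simp [xy, xz, xt, xs, yz, yt, ys, zt.symm, zs, ts]) hxe hye td
    (by simp [xy.ne, xz.ne, xt.ne, xs.ne, hxe.ne, yz.ne, yt.ne, ys.ne, n9, zt.ne.symm, zs.ne, ts.ne,
      n12, n14, n15]) dx dy dz ds de
  obtain ⟨nfx, nfy, nfz, nft⟩ := h.excl (x := x) (y := y) (z := s) (t := z) (s := t)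
    (by simp [xy, xz, xt, xs, yz, yt, ys, zt, zs.symm, ts.symm]) hxe hye sf
    (by simp [xy.ne, xz.ne, xt.ne, xs.ne, hxe.ne, yz.ne, yt.ne, ys.ne, n9, zt.ne, zs.ne.symm,
      ts.ne.symm, n12, n14, n15]) fx fy fz ft fe
  have ecd : c ≠ d := fun e' => nct (e' ▸ td).symm
  have ecf : c ≠ f := fun e' => ncs (e' ▸ sf).symm
  have edf : d ≠ f := fun e' => nds (e' ▸ sf).symm
  have fec := h.cross (u := x) (v := z) (p := y) (q := t) (o := s) xz xy xt xs yz.symm yt ts hxe zc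
    (by simp [xy.ne, xz.ne, xt.ne, xs.ne, yz.ne.symm, yt.ne, ys.ne, zt.ne, zs.ne, ts.ne])
    (Ne.symm n12) (Ne.symm n9) (Ne.symm n14) (Ne.symm n15) cx cy ct cs (Ne.symm ce)
  have fed := h.cross (u := x) (v := t) (p := y) (q := z) (o := s) xt xy xz xs yt.symm yz zs hxe td
    (by simp [xy.ne, xz.ne, xt.ne, xs.ne, yz.ne, yt.ne.symm, ys.ne, zt.ne.symm, zs.ne, ts.ne])
    (Ne.symm n14) (Ne.symm n9) (Ne.symm n12) (Ne.symm n15) dx dy dz ds (Ne.symm de)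
  have fef := h.cross (u := x) (v := s) (p := y) (q := z) (o := t) xs xy xz xt ys.symm yz zt hxe sf
    (by simp [xy.ne, xz.ne, xt.ne, xs.ne, yz.ne, yt.ne, ys.ne.symm, zt.ne, zs.ne.symm, ts.ne.symm])
    (Ne.symm n15) (Ne.symm n9) (Ne.symm n12) (Ne.symm n14) fx fy fz ft (Ne.symm fe)
  have fcd := h.cross (u := z) (v := t) (p := x) (q := y) (o := s) zt xz.symm yz.symm zs xt.symm xy
    ys zc td
    (by simp [xy.ne, xz.ne.symm, xt.ne.symm, xs.ne, yz.ne.symm, yt.ne.symm, ys.ne, zt.ne, zs.ne,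
      ts.ne]) ct cx cy cs dz dx dy ds ecd
  have fcf := h.cross (u := z) (v := s) (p := x) (q := y) (o := t) zs xz.symm yz.symm zt xs.symm xy
    yt zc sf
    (by simp [xy.ne, xz.ne.symm, xt.ne, xs.ne.symm, yz.ne.symm, yt.ne, ys.ne.symm, zt.ne, zs.ne,
      ts.ne.symm]) cs cx cy ct fz fx fy ft ecf
  have fdf := h.cross (u := t) (v := s) (p := x) (q := y) (o := z) ts xt.symm yt.symm zt.symm
    xs.symm xy yz td sf
    (by simp [xy.ne, xz.ne, xt.ne.symm, xs.ne.symm, yz.ne, yt.ne.symm, ys.ne.symm, zt.ne.symm,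
      zs.ne.symm, ts.ne]) ds dx dy dz ft fx fy fz edf
  obtain ⟨p, hp, q, hq, cp, cq, pz, qz, epq, npq⟩ := h.pair (u := z) hc
  obtain ⟨p', hp', q', hq', dp, dq, pt, qt, epq', npq'⟩ := h.pair (u := t) hd
  obtain ⟨p'', hp'', q'', hq'', fp, fq, ps, qs, epq'', npq''⟩ := h.pair (u := s) hf
  have cn : ∀ r, G.Adj c r → r ≠ x ∧ r ≠ y ∧ r ≠ t ∧ r ≠ s := fun r k =>
    ⟨fun e' => ncx (e' ▸ k), fun e' => ncy (e' ▸ k), fun e' => nct (e' ▸ k),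
      fun e' => ncs (e' ▸ k)⟩
  have dn : ∀ r, G.Adj d r → r ≠ x ∧ r ≠ y ∧ r ≠ z ∧ r ≠ s := fun r k =>
    ⟨fun e' => ndx (e' ▸ k), fun e' => ndy (e' ▸ k), fun e' => ndz (e' ▸ k),
      fun e' => nds (e' ▸ k)⟩
  have fn : ∀ r, G.Adj f r → r ≠ x ∧ r ≠ y ∧ r ≠ z ∧ r ≠ t := fun r k =>
    ⟨fun e' => nfx (e' ▸ k), fun e' => nfy (e' ▸ k), fun e' => nfz (e' ▸ k),
      fun e' => nft (e' ▸ k)⟩
  have wc : ∀ r, G.Adj c r → r ≠ z → w ≠ r ∧ ¬ G.Adj w r := fun r k rz =>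
    fec.2.2 w r ew wx wz wy wt k (cn r k).1 rz (cn r k).2.1
  have wd : ∀ r, G.Adj d r → r ≠ t → w ≠ r ∧ ¬ G.Adj w r := fun r k rt =>
    fed.2.2 w r ew wx wt wy wz k (dn r k).1 rt (dn r k).2.1
  have wf : ∀ r, G.Adj f r → r ≠ s → w ≠ r ∧ ¬ G.Adj w r := fun r k rs =>
    fef.2.2 w r ew wx ws wy wz k (fn r k).1 rs (fn r k).2.1
  have cd : ∀ r r', G.Adj c r → r ≠ z → G.Adj d r' → r' ≠ t → r ≠ r' ∧ ¬ G.Adj r r' :=
    fun r r' k rz k' rt => fcd.2.2 r r' k rz (cn r k).2.2.1 (cn r k).1 (cn r k).2.1 k'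
      (dn r' k').2.2.1 rt (dn r' k').1
  have cf : ∀ r r', G.Adj c r → r ≠ z → G.Adj f r' → r' ≠ s → r ≠ r' ∧ ¬ G.Adj r r' :=
    fun r r' k rz k' rs => fcf.2.2 r r' k rz (cn r k).2.2.2 (cn r k).1 (cn r k).2.1 k'
      (fn r' k').2.2.1 rs (fn r' k').1
  have df : ∀ r r', G.Adj d r → r ≠ t → G.Adj f r' → r' ≠ s → r ≠ r' ∧ ¬ G.Adj r r' :=
    fun r r' k rt k' rs => fdf.2.2 r r' k rt (dn r k).2.2.2 (dn r k).1 (dn r k).2.1 k'
      (fn r' k').2.2.2 rs (fn r' k').1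
  exact h.indep (L := [w, p, q, p', q', p'', q'']) (by simp [hw, hp, hq, hp', hq', hp'', hq''])
    (by simp [wc p cp pz, wc q cq qz, wd p' dp pt, wd q' dq qt, wf p'' fp ps, wf q'' fq qs, epq,
      npq, epq', npq', epq'', npq'', cd p p' cp pz dp pt, cd p q' cp pz dq qt, cd q p' cq qz dp pt,
      cd q q' cq qz dq qt, cf p p'' cp pz fp ps, cf p q'' cp pz fq qs, cf q p'' cq qz fp ps,
      cf q q'' cq qz fq qs, df p' p'' dp pt fp ps, df p' q'' dp pt fq qs, df q' p'' dq qt fp ps,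
      df q' q'' dq qt fq qs]) rfl

lemma Seven.k5 (h : Seven G S) {x y z t s : V} (hx : x ∈ S) (hy : y ∈ S) (hz : z ∈ S) (ht : t ∈ S)
    (hs : s ∈ S) (hK : [x, y, z, t, s].Pairwise G.Adj) : False := by
  have hKK := hK
  simp at hKK
  obtain ⟨⟨xy, xz, xt, xs⟩, ⟨yz, yt, ys⟩, ⟨zt, zs⟩, ts⟩ := hKK
  -- no vertex outside sees two vertices of the clique
  have one : ∀ u v p q o a, [u, v, p, q, o].Pairwise G.Adj → u ∈ S → p ∈ S → q ∈ S → o ∈ S →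
      a ∈ S → G.Adj u a → a ≠ v → a ≠ p → a ≠ q → a ≠ o → ¬ G.Adj v a := by
    intro u v p q o a hP hu hp hq ho ha hua nv np nq no' hva
    have hnd : [u, v, p, q, o].Nodup := hP.imp fun h' => h'.ne
    exact h.k5_common hu hp hq ho ha hP hua hva (by
      have : ([u, v, p, q, o] ++ [a]).Nodup := List.nodup_append.2 ⟨hnd, by simp, by
        intro r hr r' hr'
        simp at hr hr'
        subst hr'
        rcases hr with rfl | rfl | rfl | rfl | rfl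
        exacts [hua.ne, nv.symm, np.symm, nq.symm, no'.symm]⟩
      simpa using this)
  obtain ⟨a, ha, xa, hF⟩ := h.nbr hx {y, z, t, s} (lt_of_le_of_lt Finset.card_le_four (by norm_num))
  obtain ⟨b, hb, yb, hFb⟩ := h.nbr hy {x, z, t, s} (lt_of_le_of_lt Finset.card_le_four (by norm_num))
  obtain ⟨c, hc, zc, hFc⟩ := h.nbr hz {x, y, t, s} (lt_of_le_of_lt Finset.card_le_four (by norm_num))
  obtain ⟨d, hd, td, hFd⟩ := h.nbr ht {x, y, z, s} (lt_of_le_of_lt Finset.card_le_four (by norm_num))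
  obtain ⟨f, hf, sf, hFf⟩ := h.nbr hs {x, y, z, t} (lt_of_le_of_lt Finset.card_le_four (by norm_num))
  simp at hF hFb hFc hFd hFf
  obtain ⟨ay, az, at', as⟩ := hF
  obtain ⟨bx, bz, bt, bs⟩ := hFb
  obtain ⟨cx, cy, ct, cs⟩ := hFc
  obtain ⟨dx, dy, dz, ds⟩ := hFd
  obtain ⟨fx, fy, fz, ft⟩ := hFf
  have nay : ¬ G.Adj y a := one x y z t s a hK hx hz ht hs ha xa ay az at' as
  have naz : ¬ G.Adj z a := one x z y t s a
    (by simp [xy, xz, xt, xs, yz.symm, yt, ys, zt, zs, ts]) hx hy ht hs ha xa az ay at' as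
  have nat : ¬ G.Adj t a := one x t y z s a
    (by simp [xy, xz, xt, xs, yz, yt.symm, ys, zt.symm, zs, ts]) hx hy hz hs ha xa at' ay az as
  have nas : ¬ G.Adj s a := one x s y z t a
    (by simp [xy, xz, xt, xs, yz, yt, ys.symm, zt, zs.symm, ts.symm]) hx hy hz ht ha xa as ay az at'
  have nbx : ¬ G.Adj x b := one y x z t s b
    (by simp [xy.symm, xz, xt, xs, yz, yt, ys, zt, zs, ts]) hy hz ht hs hb yb bx bz bt bs
  have nbz : ¬ G.Adj z b := one y z x t s b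
    (by simp [xy.symm, xz.symm, xt, xs, yz, yt, ys, zt, zs, ts]) hy hx ht hs hb yb bz bx bt bs
  have nbt : ¬ G.Adj t b := one y t x z s b
    (by simp [xy.symm, xz, xt.symm, xs, yz, yt, ys, zt.symm, zs, ts]) hy hx hz hs hb yb bt bx bz bs
  have nbs : ¬ G.Adj s b := one y s x z t b
    (by simp [xy.symm, xz, xt, xs.symm, yz, yt, ys, zt, zs.symm, ts.symm]) hy hx hz ht hb yb bs bx bz
    bt
  have nct : ¬ G.Adj t c := one z t x y s c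
    (by simp [xz.symm, yz.symm, xy, xs, xt.symm, yt.symm, ys, zt, zs, ts]) hz hx hy hs hc zc ct cx
    cy cs
  have ncs : ¬ G.Adj s c := one z s x y t c
    (by simp [xz.symm, yz.symm, xy, xt, xs.symm, ys.symm, yt, zt, zs, ts.symm]) hz hx hy ht hc zc cs
    cx cy ct
  have nds : ¬ G.Adj s d := one t s x y z d
    (by simp [xt.symm, yt.symm, xy, xz, xs.symm, ys.symm, yz, zt.symm, zs.symm, ts]) ht hx hy hz hd
    td ds dx dy dz
  have eab : a ≠ b := fun e => nay (e ▸ yb)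
  have eac : a ≠ c := fun e => naz (e ▸ zc)
  have ead : a ≠ d := fun e => nat (e ▸ td)
  have eaf : a ≠ f := fun e => nas (e ▸ sf)
  have ebc : b ≠ c := fun e => nbz (e ▸ zc)
  have ebd : b ≠ d := fun e => nbt (e ▸ td)
  have ebf : b ≠ f := fun e => nbs (e ▸ sf)
  have ecd : c ≠ d := fun e => nct (e ▸ td)
  have ecf : c ≠ f := fun e => ncs (e ▸ sf)
  have edf : d ≠ f := fun e => nds (e ▸ sf)
  have fab := h.cross xy xz xt xs yz zt ts xa yb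
    (hK.imp fun h' => h'.ne) ay az at' as bx bz bt bs eab
  have fac := h.cross xz xy xt xs yz.symm yt ts xa zc
    (by simp [xy.ne, xz.ne, xt.ne, xs.ne, yz.ne.symm, yt.ne, ys.ne, zt.ne, zs.ne, ts.ne])
    az ay at' as cx cy ct cs eac
  have fad := h.cross xt xy xz xs yt.symm yz zs xa td
    (by simp [xy.ne, xz.ne, xt.ne, xs.ne, yz.ne, yt.ne.symm, ys.ne, zt.ne.symm, zs.ne, ts.ne])
    at' ay az as dx dy dz ds ead
  have faf := h.cross xs xy xz xt ys.symm yz zt xa sf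
    (by simp [xy.ne, xz.ne, xt.ne, xs.ne, yz.ne, yt.ne, ys.ne.symm, zt.ne, zs.ne.symm, ts.ne.symm])
    as ay az at' fx fy fz ft eaf
  have fbc := h.cross yz xy.symm yt ys xz.symm xt ts yb zc
    (by simp [xy.ne.symm, xz.ne.symm, xt.ne, xs.ne, yz.ne, yt.ne, ys.ne, zt.ne, zs.ne, ts.ne])
    bz bx bt bs cy cx ct cs ebc
  have fbd := h.cross yt xy.symm yz ys xt.symm xz zs yb td
    (by simp [xy.ne.symm, xz.ne, xt.ne.symm, xs.ne, yz.ne, yt.ne, ys.ne, zt.ne.symm, zs.ne, ts.ne])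
    bt bx bz bs dy dx dz ds ebd
  have fbf := h.cross ys xy.symm yz yt xs.symm xz zt yb sf
    (by simp [xy.ne.symm, xz.ne, xt.ne, xs.ne.symm, yz.ne, yt.ne, ys.ne, zt.ne, zs.ne.symm,
      ts.ne.symm]) bs bx bz bt fy fx fz ft ebf
  have fcd := h.cross zt xz.symm yz.symm zs xt.symm xy ys zc td
    (by simp [xy.ne, xz.ne.symm, xt.ne.symm, xs.ne, yz.ne.symm, yt.ne.symm, ys.ne, zt.ne, zs.ne,
      ts.ne]) ct cx cy cs dz dx dy ds ecd
  have fcf := h.cross zs xz.symm yz.symm zt xs.symm xy yt zc sf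
    (by simp [xy.ne, xz.ne.symm, xt.ne, xs.ne.symm, yz.ne.symm, yt.ne, ys.ne.symm, zt.ne, zs.ne,
      ts.ne.symm]) cs cx cy ct fz fx fy ft ecf
  have fdf := h.cross ts xt.symm yt.symm zt.symm xs.symm xy yz td sf
    (by simp [xy.ne, xz.ne, xt.ne.symm, xs.ne.symm, yz.ne, yt.ne.symm, ys.ne.symm, zt.ne.symm,
      zs.ne.symm, ts.ne]) ds dx dy dz ft fx fy fz edf
  obtain ⟨p, hp, q, hq, ap, aq, px, qx, epq, npq⟩ := h.pair (u := x) ha
  obtain ⟨p', hp', q', hq', bp, bq, py, qy, epq', npq'⟩ := h.pair (u := y) hb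
  have an : ∀ r, G.Adj a r → r ≠ y ∧ r ≠ z ∧ r ≠ t ∧ r ≠ s := fun r k =>
    ⟨fun e => nay (e ▸ k).symm, fun e => naz (e ▸ k).symm, fun e => nat (e ▸ k).symm,
      fun e => nas (e ▸ k).symm⟩
  have bn : ∀ r, G.Adj b r → r ≠ x ∧ r ≠ z ∧ r ≠ t ∧ r ≠ s := fun r k =>
    ⟨fun e => nbx (e ▸ k).symm, fun e => nbz (e ▸ k).symm, fun e => nbt (e ▸ k).symm,
      fun e => nbs (e ▸ k).symm⟩
  have A : ∀ r, G.Adj a r → r ≠ x → (r ≠ c ∧ ¬ G.Adj r c) ∧ (r ≠ d ∧ ¬ G.Adj r d) ∧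
      (r ≠ f ∧ ¬ G.Adj r f) := fun r k rx =>
    ⟨fac.2.1 r k rx (an r k).2.1 (an r k).1 (an r k).2.2.1,
      fad.2.1 r k rx (an r k).2.2.1 (an r k).1 (an r k).2.1,
      faf.2.1 r k rx (an r k).2.2.2 (an r k).1 (an r k).2.1⟩
  have B : ∀ r, G.Adj b r → r ≠ y → (r ≠ c ∧ ¬ G.Adj r c) ∧ (r ≠ d ∧ ¬ G.Adj r d) ∧
      (r ≠ f ∧ ¬ G.Adj r f) := fun r k ry =>
    ⟨fbc.2.1 r k ry (bn r k).2.1 (bn r k).1 (bn r k).2.2.1,
      fbd.2.1 r k ry (bn r k).2.2.1 (bn r k).1 (bn r k).2.1,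
      fbf.2.1 r k ry (bn r k).2.2.2 (bn r k).1 (bn r k).2.1⟩
  have AB : ∀ r r', G.Adj a r → r ≠ x → G.Adj b r' → r' ≠ y → r ≠ r' ∧ ¬ G.Adj r r' :=
    fun r r' k rx k' ry => fab.2.2 r r' k rx (an r k).1 (an r k).2.1 (an r k).2.2.1 k'
      (bn r' k').1 ry (bn r' k').2.1
  exact h.indep (L := [p, q, p', q', c, d, f]) (by simp [hp, hq, hp', hq', hc, hd, hf])
    (by simp [epq, npq, epq', npq', A p ap px, A q aq qx, B p' bp py, B q' bq qy,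
      AB p p' ap px bp py, AB p q' ap px bq qy, AB q p' aq qx bp py, AB q q' aq qx bq qy,
      ecd, ecf, edf, fcd.1, fcf.1, fdf.1]) rfl

/-- A vertex whose neighbourhood contains two disjoint triangles. -/
def Centre (G : SimpleGraph V) (S : Finset V) (r : V) : Prop :=
  ∃ T : Finset V, T ⊆ S ∧ (∀ v ∈ T, G.Adj r v) ∧ TwoTriangles G T

omit [DecidableEq V] in
/-- Two disjoint triangles around one vertex are not joined by an edge. -/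
lemma Seven.apart (h : Seven G S) {v p p' p'' q q' q'' : V} (hp' : G.Adj v p') (hq'' : G.Adj v q'')
    (h1 : G.Adj p p'') (h2 : G.Adj p' p'') (h4 : G.Adj q q') (h5 : G.Adj q' q'')
    (hn : [v, p', p'', p, q, q', q''].Nodup) : ¬ G.Adj p q :=
  fun e => h.no7 hp' h2 h1.symm e h4 h5 hq''.symm hn

omit [DecidableEq V] in
lemma Seven.apart_all (h : Seven G S) {v a b c a' b' c' : V} (va : G.Adj v a) (vb : G.Adj v b)
    (va' : G.Adj v a') (vb' : G.Adj v b') (vc : G.Adj v c) (vc' : G.Adj v c') (ab : G.Adj a b)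
    (ac : G.Adj a c) (bc : G.Adj b c) (ab' : G.Adj a' b') (ac' : G.Adj a' c') (bc' : G.Adj b' c')
    (hn : [a, b, c, a', b', c'].Nodup) :
    ∀ u ∈ [a, b, c], ∀ w ∈ [a', b', c'], u ≠ w ∧ ¬ G.Adj u w := by
  simp at hn
  obtain ⟨⟨-, -, n1, n2, n3⟩, ⟨-, n4, n5, n6⟩, ⟨n7, n8, n9⟩, -⟩ := hn
  intro u hu w hw
  simp at hu hw
  rcases hu with rfl | rfl | rfl <;> rcases hw with rfl | rfl | rfl
  · exact ⟨n1, h.apart vb vc' ac bc ab' bc' (by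
      simp [va.ne, vb.ne, vc.ne, va'.ne, vb'.ne, vc'.ne, bc.ne, ab.ne.symm, n4, n5, n6, ac.ne.symm,
        n7, n8, n9, n1, n2, n3, ab'.ne, ac'.ne, bc'.ne])⟩
  · exact ⟨n2, h.apart vb vc' ac bc ab'.symm ac' (by
      simp [va.ne, vb.ne, vc.ne, va'.ne, vb'.ne, vc'.ne, bc.ne, ab.ne.symm, n4, n5, n6, ac.ne.symm,
        n7, n8, n9, n1, n2, n3, ab'.ne.symm, ac'.ne, bc'.ne])⟩
  · exact ⟨n3, h.apart vb vb' ac bc ac'.symm ab' (by
      simp [va.ne, vb.ne, vc.ne, va'.ne, vb'.ne, vc'.ne, bc.ne, ab.ne.symm, n4, n5, n6, ac.ne.symm,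
        n7, n8, n9, n1, n2, n3, ab'.ne, ac'.ne.symm, bc'.ne.symm])⟩
  · exact ⟨n4, h.apart va vc' bc ac ab' bc' (by
      simp [va.ne, vb.ne, vc.ne, va'.ne, vb'.ne, vc'.ne, bc.ne.symm, ab.ne, n4, n5, n6, ac.ne,
        n7, n8, n9, n1, n2, n3, ab'.ne, ac'.ne, bc'.ne])⟩
  · exact ⟨n5, h.apart va vc' bc ac ab'.symm ac' (by
      simp [va.ne, vb.ne, vc.ne, va'.ne, vb'.ne, vc'.ne, bc.ne.symm, ab.ne, n4, n5, n6, ac.ne,
        n7, n8, n9, n1, n2, n3, ab'.ne.symm, ac'.ne, bc'.ne])⟩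
  · exact ⟨n6, h.apart va vb' bc ac ac'.symm ab' (by
      simp [va.ne, vb.ne, vc.ne, va'.ne, vb'.ne, vc'.ne, bc.ne.symm, ab.ne, n4, n5, n6, ac.ne,
        n7, n8, n9, n1, n2, n3, ab'.ne, ac'.ne.symm, bc'.ne.symm])⟩
  · exact ⟨n7, h.apart va vc' bc.symm ab ab' bc' (by
      simp [va.ne, vb.ne, vc.ne, va'.ne, vb'.ne, vc'.ne, bc.ne, ab.ne, n4, n5, n6, ac.ne,
        n7, n8, n9, n1, n2, n3, ab'.ne, ac'.ne, bc'.ne])⟩
  · exact ⟨n8, h.apart va vc' bc.symm ab ab'.symm ac' (by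
      simp [va.ne, vb.ne, vc.ne, va'.ne, vb'.ne, vc'.ne, bc.ne, ab.ne, n4, n5, n6, ac.ne,
        n7, n8, n9, n1, n2, n3, ab'.ne.symm, ac'.ne, bc'.ne])⟩
  · exact ⟨n9, h.apart va vb' bc.symm ab ac'.symm ab' (by
      simp [va.ne, vb.ne, vc.ne, va'.ne, vb'.ne, vc'.ne, bc.ne, ab.ne, n4, n5, n6, ac.ne,
        n7, n8, n9, n1, n2, n3, ab'.ne, ac'.ne.symm, bc'.ne.symm])⟩

/-- A centre in a `K₄` has a triangle away from it. -/
lemma Seven.exit (h : Seven G S) {a r b c : V} (ha : Centre G S a) (har : G.Adj a r)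
    (hab : G.Adj a b) (hac : G.Adj a c) (hrb : G.Adj r b) (hrc : G.Adj r c) (hbc : G.Adj b c) :
    ∃ g g' : V, g ∈ S ∧ G.Adj a g ∧ G.Adj a g' ∧ G.Adj g g' ∧
      (∀ u ∈ [r, b, c], g ≠ u ∧ ¬ G.Adj g u ∧ g' ≠ u ∧ ¬ G.Adj g' u) := by
  obtain ⟨T, hTS, hTa, p, q, o, p', q', o', m1, m2, m3, m4, m5, m6, e1, e2, e3, e4, e5, e6, hn⟩ := ha
  have hap := h.apart_all (hTa p m1) (hTa q m2) (hTa p' m4) (hTa q' m5) (hTa o m3) (hTa o' m6)
    e1 e2 e3 e4 e5 e6 hn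
  have hcl : ∀ u ∈ [r, b, c], ∀ w ∈ [r, b, c], u ≠ w → G.Adj u w := by
    intro u hu w hw hne
    simp at hu hw
    rcases hu with rfl | rfl | rfl <;> rcases hw with rfl | rfl | rfl
    · exact absurd rfl hne
    · exact hrb
    · exact hrc
    · exact hrb.symm
    · exact absurd rfl hne
    · exact hbc
    · exact hrc.symm
    · exact hbc.symm
    · exact absurd rfl hne
  have away : (∀ u ∈ [p, q, o], u ∉ [r, b, c]) ∨ (∀ u ∈ [p', q', o'], u ∉ [r, b, c]) := by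
    by_contra hno
    push Not at hno
    obtain ⟨⟨u, hu, hu'⟩, w, hw, hw'⟩ := hno
    obtain ⟨n, k⟩ := hap u hu w hw
    exact k (hcl u hu' w hw' n)
  have main : ∀ p q o, p ∈ S → G.Adj a p → G.Adj a q → G.Adj a o → G.Adj p q → G.Adj p o →
      G.Adj q o → (∀ u ∈ [p, q, o], u ∉ [r, b, c]) → ∃ g g' : V, g ∈ S ∧ G.Adj a g ∧ G.Adj a g' ∧
        G.Adj g g' ∧ ∀ u ∈ [r, b, c], g ≠ u ∧ ¬ G.Adj g u ∧ g' ≠ u ∧ ¬ G.Adj g' u := by
    intro p q o hp ap aq ao pq po qo hout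
    simp at hout
    obtain ⟨⟨pr, pb, pc⟩, ⟨qr, qb, qc⟩, or', ob, oc⟩ := hout
    have hh := h.apart_all ap aq har hab ao hac pq po qo hrb hrc hbc (by
      simp [pq.ne, po.ne, qo.ne, pr, pb, pc, qr, qb, qc, or', ob, oc, hrb.ne, hrc.ne, hbc.ne])
    exact ⟨p, q, hp, ap, aq, pq, fun u hu => ⟨(hh p (by simp) u hu).1, (hh p (by simp) u hu).2,
      (hh q (by simp) u hu).1, (hh q (by simp) u hu).2⟩⟩
  rcases away with hw | hw
  · exact main p q o (hTS m1) (hTa p m1) (hTa q m2) (hTa o m3) e1 e2 e3 hw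
  · exact main p' q' o' (hTS m4) (hTa p' m4) (hTa q' m5) (hTa o' m6) e4 e5 e6 hw

omit [DecidableEq V] in
/-- Exits of two vertices of one triangle around `r` are independent. -/
lemma Seven.same_side (h : Seven G S) {r a a' a'' g g' k : V} (ra : G.Adj r a) (ra'' : G.Adj r a'')
    (haa' : G.Adj a' a'') (hag : G.Adj a g) (hag' : G.Adj a g') (hgg : G.Adj g g')
    (hak : G.Adj a' k)
    (hg : ∀ u ∈ [r, a', a''], g ≠ u ∧ ¬ G.Adj g u ∧ g' ≠ u ∧ ¬ G.Adj g' u)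
    (hk : ∀ u ∈ [r, a, a''], k ≠ u ∧ ¬ G.Adj k u) (haa : a ≠ a') (haa2 : a ≠ a'')
    (ra' : r ≠ a') : g ≠ k ∧ ¬ G.Adj g k := by
  obtain ⟨gr, -, g'r, -⟩ := hg r (by simp)
  obtain ⟨ga', nga', g'a', -⟩ := hg a' (by simp)
  obtain ⟨ga'', -, g'a'', -⟩ := hg a'' (by simp)
  obtain ⟨kr, -⟩ := hk r (by simp)
  obtain ⟨ka, nka⟩ := hk a (by simp)
  obtain ⟨ka'', -⟩ := hk a'' (by simp)
  have hgk : g ≠ k := fun e => nga' (e ▸ hak.symm)
  have hg'k : g' ≠ k := fun e => nka (e ▸ hag'.symm)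
  refine ⟨hgk, fun e => h.no7 hag' hgg.symm e hak.symm haa' ra''.symm ra ?_⟩
  simp [hag'.ne, hag.ne, ka.symm, haa, haa2, ra.ne.symm, hgg.ne.symm, hg'k, g'a', g'a'', g'r, hgk,
    ga', ga'', gr, hak.ne.symm, ka'', kr, haa'.ne, ra'.symm, ra''.ne.symm]

omit [DecidableEq V] in
/-- Exits at the two triangles around `r` are independent. -/
lemma Seven.other_side (h : Seven G S) {r a a' a'' b b' g k : V} (ra' : G.Adj r a')
    (ra'' : G.Adj r a'') (ra : G.Adj r a) (rb : G.Adj r b) (rb' : G.Adj r b')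
    (haa : G.Adj a a'') (haa' : G.Adj a' a'') (hne : a ≠ a') (hbb : G.Adj b b')
    (hag : G.Adj a g) (hbk : G.Adj b k) (hg : ∀ u ∈ [r, a', a''], g ≠ u ∧ ¬ G.Adj g u)
    (hk : k ≠ r ∧ ¬ G.Adj k r) (hsep : ∀ u ∈ [a, a', a''], ∀ w ∈ [b, b'], u ≠ w) :
    g ≠ k ∧ ¬ G.Adj g k := by
  obtain ⟨gr, ngr⟩ := hg r (by simp)
  obtain ⟨ga', -⟩ := hg a' (by simp)
  obtain ⟨ga'', -⟩ := hg a'' (by simp)
  obtain ⟨kr, nkr⟩ := hk
  have s1 : a ≠ b := hsep _ (by simp) _ (by simp)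
  have s2 : a ≠ b' := hsep _ (by simp) _ (by simp)
  have s4 : a' ≠ b := hsep _ (by simp) _ (by simp)
  have s5 : a' ≠ b' := hsep _ (by simp) _ (by simp)
  have s7 : a'' ≠ b := hsep _ (by simp) _ (by simp)
  have s8 : a'' ≠ b' := hsep _ (by simp) _ (by simp)
  have kn : ∀ u, G.Adj r u → k ≠ u := fun u hu e => nkr (e ▸ hu.symm)
  have gn : ∀ u, G.Adj r u → g ≠ u := fun u hu e => ngr (e ▸ hu.symm)
  have gb' := gn b' rb'
  have gb := gn b rb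
  have ka := kn a ra
  have ka' := kn a' ra'
  have ka'' := kn a'' ra''
  have hgk : g ≠ k := by
    intro e
    subst e
    exact h.no7 hag hbk.symm hbb rb'.symm ra' haa' haa.symm (by
      simp [hag.ne, s1, s2, ra.ne.symm, hne, haa.ne, gb, gb', gr, ga', ga'', hbb.ne, rb.ne.symm,
        s4.symm, s7.symm, rb'.ne.symm, s5.symm, s8.symm, ra'.ne, ra''.ne, haa'.ne])
  refine ⟨hgk, fun e => ?_⟩
  exact h.no7 hag e hbk.symm rb.symm ra' haa' haa.symm (by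
    simp [hag.ne, ka.symm, s1, ra.ne.symm, hne, haa.ne, hgk, gb, gr, ga', ga'', hbk.ne.symm, kr,
      ka', ka'', rb.ne.symm, s4.symm, s7.symm, ra'.ne, ra''.ne, haa'.ne])

/-- For the seven-cycle no critical set has independence number at most six. -/
theorem crit_seven_false (hnc : ¬ HasCyc G 7) (hS : Crit G S 6) (ha : aNum G S ≤ 6) : False := by
  classical
  have h : Seven G S := ⟨hS, ha, hnc⟩
  have hK5 : ∀ p ∈ S, ∀ a ∈ S, ∀ b ∈ S, ∀ c ∈ S, ∀ e ∈ S, G.Adj p a → G.Adj p b → G.Adj p c →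
      G.Adj p e → G.Adj a b → G.Adj a c → G.Adj a e → G.Adj b c → G.Adj b e → G.Adj c e → False :=
    fun p hp a ha b hb c hc e he e1 e2 e3 e4 e5 e6 e7 e8 e9 e10 =>
      h.k5 hp ha hb hc he (by simp [e1, e2, e3, e4, e5, e6, e7, e8, e9, e10])
  by_cases hall : ∃ r ∈ S, ¬ Centre G S r
  · obtain ⟨r, hr, hrc⟩ := hall
    exact growth_seven hnc hS ha hK5 hr (fun T hT hTr hTT => hrc ⟨T, hT, hTr, hTT⟩)
  push Not at hall
  obtain ⟨r, hr⟩ : S.Nonempty := Finset.card_pos.1 (by rw [hS.card_eq]; omega)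
  obtain ⟨T, hTS, hTr, a, a', a'', b, b', b'', m1, m2, m3, m4, m5, m6, e1, e2, e3, e4, e5, e6, hn⟩ :=
    hall r hr
  have ra := hTr a m1; have ra' := hTr a' m2; have ra'' := hTr a'' m3
  have rb := hTr b m4; have rb' := hTr b' m5; have rb'' := hTr b'' m6
  have sep := h.apart_all ra ra' rb rb' ra'' rb'' e1 e2 e3 e4 e5 e6 hn
  have exitAt : ∀ u v w, u ∈ T → G.Adj u v → G.Adj u w → G.Adj v w → G.Adj r v → G.Adj r w →
      ∃ g g' : V, g ∈ S ∧ G.Adj u g ∧ G.Adj u g' ∧ G.Adj g g' ∧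
        (∀ x ∈ [r, v, w], g ≠ x ∧ ¬ G.Adj g x ∧ g' ≠ x ∧ ¬ G.Adj g' x) :=
    fun u v w hu h1 h2 h3 h4 h5 =>
      h.exit (hall u (hTS hu)) (hTr u hu).symm h1 h2 h4 h5 h3
  obtain ⟨g1, g1', s1, q1, q1', p1, f1⟩ := exitAt a a' a'' m1 e1 e2 e3 ra' ra''
  obtain ⟨g2, g2', s2, q2, q2', p2, f2⟩ := exitAt a' a a'' m2 e1.symm e3 e2 ra ra''
  obtain ⟨g3, g3', s3, q3, q3', p3, f3⟩ := exitAt a'' a a' m3 e2.symm e3.symm e1 ra ra'
  obtain ⟨k1, k1', t1, u1, u1', o1, j1⟩ := exitAt b b' b'' m4 e4 e5 e6 rb' rb''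
  obtain ⟨k2, k2', t2, u2, u2', o2, j2⟩ := exitAt b' b b'' m5 e4.symm e6 e5 rb rb''
  obtain ⟨k3, k3', t3, u3, u3', o3, j3⟩ := exitAt b'' b b' m6 e5.symm e6.symm e4 rb rb'
  have w : ∀ {g g' : V} {L : List V}, (∀ x ∈ L, g ≠ x ∧ ¬ G.Adj g x ∧ g' ≠ x ∧ ¬ G.Adj g' x) →
      ∀ x ∈ L, g ≠ x ∧ ¬ G.Adj g x := fun hh x hx => ⟨(hh x hx).1, (hh x hx).2.1⟩
  have A12 := h.same_side ra ra'' e3 q1 q1' p1 q2 f1 (w f2) e1.ne e2.ne ra'.ne
  have A13 := h.same_side ra ra' e3.symm q1 q1' p1 q3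
    (fun x hx => f1 x (by simp at hx ⊢; tauto)) (w f3) e2.ne e1.ne ra''.ne
  have A23 := h.same_side ra' ra e2.symm q2 q2' p2 q3
    (fun x hx => f2 x (by simp at hx ⊢; tauto)) (fun x hx => w f3 x (by simp at hx ⊢; tauto))
    e3.ne e1.ne.symm ra''.ne
  have B12 := h.same_side rb rb'' e6 u1 u1' o1 u2 j1 (w j2) e4.ne e5.ne rb'.ne
  have B13 := h.same_side rb rb' e6.symm u1 u1' o1 u3
    (fun x hx => j1 x (by simp at hx ⊢; tauto)) (w j3) e5.ne e4.ne rb''.ne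
  have B23 := h.same_side rb' rb e5.symm u2 u2' o2 u3
    (fun x hx => j2 x (by simp at hx ⊢; tauto)) (fun x hx => w j3 x (by simp at hx ⊢; tauto))
    e6.ne e4.ne.symm rb''.ne
  have sne : ∀ {u v}, u ∈ [a, a', a''] → v ∈ [b, b', b''] → u ≠ v := fun hu hv =>
    (sep _ hu _ hv).1
  have X : ∀ (x x' x'' g y y' k : V), G.Adj r x → G.Adj r x' → G.Adj r x'' → G.Adj x x'' →
      G.Adj x' x'' → x ≠ x' → x ∈ [a, a', a''] → x' ∈ [a, a', a''] → x'' ∈ [a, a', a''] →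
      y ∈ [b, b', b''] → y' ∈ [b, b', b''] → G.Adj r y → G.Adj r y' → G.Adj y y' →
      G.Adj x g → G.Adj y k → (∀ u ∈ [r, x', x''], g ≠ u ∧ ¬ G.Adj g u) →
      k ≠ r ∧ ¬ G.Adj k r → g ≠ k ∧ ¬ G.Adj g k := by
    intro x x' x'' g y y' k c1 c2 c3 c4 c5 c6 i1 i2 i3 i4 i5 c7 c8 c9 c10 c11 hg hk
    refine h.other_side c2 c3 c1 c7 c8 c4 c5 c6 c9 c10 c11 hg hk ?_
    intro u hu v hv
    simp at hu hv
    rcases hu with rfl | rfl | rfl <;> rcases hv with rfl | rfl <;> exact sne ‹_› ‹_›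
  have C11 := X a a' a'' g1 b b' k1 ra ra' ra'' e2 e3 e1.ne (by simp) (by simp) (by simp) (by simp)
    (by simp) rb rb' e4 q1 u1 (w f1) (w j1 r (by simp))
  have C12 := X a a' a'' g1 b' b k2 ra ra' ra'' e2 e3 e1.ne (by simp) (by simp) (by simp) (by simp)
    (by simp) rb' rb e4.symm q1 u2 (w f1) (w j2 r (by simp))
  have C13 := X a a' a'' g1 b'' b k3 ra ra' ra'' e2 e3 e1.ne (by simp) (by simp) (by simp) (by simp)
    (by simp) rb'' rb e5.symm q1 u3 (w f1) (w j3 r (by simp))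
  have C21 := X a' a a'' g2 b b' k1 ra' ra ra'' e3 e2 e1.ne.symm (by simp) (by simp) (by simp)
    (by simp) (by simp) rb rb' e4 q2 u1 (w f2) (w j1 r (by simp))
  have C22 := X a' a a'' g2 b' b k2 ra' ra ra'' e3 e2 e1.ne.symm (by simp) (by simp) (by simp)
    (by simp) (by simp) rb' rb e4.symm q2 u2 (w f2) (w j2 r (by simp))
  have C23 := X a' a a'' g2 b'' b k3 ra' ra ra'' e3 e2 e1.ne.symm (by simp) (by simp) (by simp)
    (by simp) (by simp) rb'' rb e5.symm q2 u3 (w f2) (w j3 r (by simp))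
  have C31 := X a'' a a' g3 b b' k1 ra'' ra ra' e3.symm e1 e2.ne.symm (by simp) (by simp) (by simp)
    (by simp) (by simp) rb rb' e4 q3 u1 (w f3) (w j1 r (by simp))
  have C32 := X a'' a a' g3 b' b k2 ra'' ra ra' e3.symm e1 e2.ne.symm (by simp) (by simp) (by simp)
    (by simp) (by simp) rb' rb e4.symm q3 u2 (w f3) (w j2 r (by simp))
  have C33 := X a'' a a' g3 b'' b k3 ra'' ra ra' e3.symm e1 e2.ne.symm (by simp) (by simp) (by simp)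
    (by simp) (by simp) rb'' rb e5.symm q3 u3 (w f3) (w j3 r (by simp))
  exact h.indep (L := [g1, g2, g3, k1, k2, k3, r]) (by simp [s1, s2, s3, t1, t2, t3, hr])
    (by simp [A12, A13, A23, B12, B13, B23, C11, C12, C13, C21, C22, C23, C31, C32, C33,
      w f1 r (by simp), w f2 r (by simp), w f3 r (by simp), w j1 r (by simp), w j2 r (by simp),
      w j3 r (by simp)]) rfl

theorem cliqueSpec_seven : Full.CliqueSpec G 7 :=
  fun hnc _ hS ha => (crit_seven_false hnc hS (by omega)).elim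

theorem growthSpec_seven : Full.GrowthSpec G 7 :=
  fun hnc _ hS _ ha _ => crit_seven_false hnc hS (by omega)

end Vale.Agent.P048
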