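import Vale.Agent.P048.Full.GrowthStep

/-!
The seven-cycle: the first three layers of a critical set without `K₅`.
-/

namespace Vale.Agent.P048

open Finset

variable {V : Type*} [DecidableEq V] {G : SimpleGraph V} {S : Finset V}

omit [DecidableEq V] in
lemma hasCyc_seven {a b c d e f g : V} (h1 : G.Adj a b) (h2 : G.Adj b c) (h3 : G.Adj c d)
    (h4 : G.Adj d e) (h5 : G.Adj e f) (h6 : G.Adj f g) (h7 : G.Adj g a)
    (h : [a, b, c, d, e, f, g].Nodup) : HasCyc G 7 := by
  have h' := List.nodup_iff_injective_get.1 h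
  refine ⟨by norm_num, fun i => [a, b, c, d, e, f, g].getD i a, ?_, ?_, by simpa using h7⟩
  · intro i hi j hj hij
    have hi' : i < [a, b, c, d, e, f, g].length := by simpa using hi
    have hj' : j < [a, b, c, d, e, f, g].length := by simpa using hj
    have := @h' ⟨i, hi'⟩ ⟨j, hj'⟩ (by
      simpa [List.getD_eq_getElem?_getD, List.getElem?_eq_getElem hi',
        List.getElem?_eq_getElem hj'] using hij)
    exact congrArg Fin.val this
  · intro i hi
    have hi' : i < 6 := by omega
    interval_cases i <;> simpa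

omit [DecidableEq V] in
lemma nodup_seven {a b c d e f g : V} (h1 : [a, b, c, d, e, f].Nodup)
    (h2 : ∀ v ∈ [a, b, c, d, e, f], v ≠ g) : [a, b, c, d, e, f, g].Nodup := by
  have : ([a, b, c, d, e, f] ++ [g]).Nodup :=
    List.nodup_append.2 ⟨h1, by simp, fun v hv w hw => by simp at hw; subst hw; exact h2 v hv⟩
  simpa using this

/-- A labelled `K₄`-free set in which three-edge paths join equal labels and no six-vertex path
has a single label. -/
structure Sparse7 (G : SimpleGraph V) (π : V → V) (Z : Finset V) : Prop where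
  three : ∀ a ∈ Z, ∀ b ∈ Z, ∀ c ∈ Z, ∀ d ∈ Z, G.Adj a b → G.Adj b c → G.Adj c d → a ≠ c → a ≠ d →
    b ≠ d → π a = π d
  k4free : ∀ a ∈ Z, ∀ b ∈ Z, ∀ c ∈ Z, ∀ d ∈ Z, G.Adj a b → G.Adj a c → G.Adj a d → G.Adj b c →
    G.Adj b d → G.Adj c d → False
  six : ∀ a b c d e f : V, a ∈ Z → b ∈ Z → c ∈ Z → d ∈ Z → e ∈ Z → f ∈ Z → G.Adj a b → G.Adj b c →
    G.Adj c d → G.Adj d e → G.Adj e f → [a, b, c, d, e, f].Nodup →
    (∀ v ∈ [a, b, c, d, e, f], π v = π a) → False

omit [DecidableEq V] in
lemma Sparse7.mono {π : V → V} {Z W : Finset V} (h : Sparse7 G π Z) (hW : W ⊆ Z) :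
    Sparse7 G π W :=
  ⟨fun a ha b hb c hc d hd => h.three a (hW ha) b (hW hb) c (hW hc) d (hW hd),
    fun a ha b hb c hc d hd => h.k4free a (hW ha) b (hW hb) c (hW hc) d (hW hd),
    fun a b c d e f ha hb hc hd he hf =>
      h.six a b c d e f (hW ha) (hW hb) (hW hc) (hW hd) (hW he) (hW hf)⟩

/-- A sparse set has a vertex with at most two neighbours or a closed piece of five vertices. -/
lemma Sparse7.low_or_five {π : V → V} {Z : Finset V} (h : Sparse7 G π Z) (hne : Z.Nonempty) :
    (∃ v ∈ Z, ∀ F : Finset V, F ⊆ Z → (∀ w ∈ F, G.Adj v w) → F.card ≤ 2) ∨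
    ∃ C : Finset V, C ⊆ Z ∧ C.card = 5 ∧ 2 ≤ aNum G C ∧
      ∀ u ∈ C, ∀ w ∈ Z, G.Adj u w → w ∈ C := by
  classical
  refine or_iff_not_imp_left.2 fun hno => ?_
  push Not at hno
  have pick : ∀ v ∈ Z, ∀ p q : V, ∃ w ∈ Z, G.Adj v w ∧ w ≠ p ∧ w ≠ q := by
    intro v hv p q
    obtain ⟨F, hFZ, hFv, hFc⟩ := hno v hv
    obtain ⟨w, hw, hw'⟩ := Finset.exists_mem_notMem_of_card_lt_card (s := {p, q}) (t := F)
      (lt_of_le_of_lt Finset.card_le_two hFc)
    simp at hw'
    exact ⟨w, hFZ hw, hFv w hw, hw'⟩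
  have tri : ∀ a ∈ Z, ∀ b ∈ Z, ∀ c ∈ Z, G.Adj a b → G.Adj b c → G.Adj a c → π a = π b := by
    intro a ha b hb c hc hab hbc hac
    obtain ⟨d, hd, hcd, hda, hdb⟩ := pick c hc a b
    exact (h.three a ha b hb c hc d hd hab hbc hcd hac.ne hda.symm hdb.symm).trans
      (h.three b hb a ha c hc d hd hab.symm hac hcd hbc.ne hdb.symm hda.symm).symm
  have side : ∀ a ∈ Z, ∀ b ∈ Z, G.Adj a b → (¬ ∃ s ∈ Z, G.Adj a s ∧ G.Adj b s) →
      ∀ c ∈ Z, G.Adj a c → c ≠ b → π b = π c := by
    intro a ha b hb hab hno' c hc hac hcb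
    obtain ⟨c2, hc2, hac2, hc2b, hc2c⟩ := pick a ha b c
    obtain ⟨d, hd, hbd, hda, -⟩ := pick b hb a a
    have e1 := h.three c hc a ha b hb d hd hac.symm hab hbd hcb
      (fun e => hno' ⟨c, hc, hac, e ▸ hbd⟩) hda.symm
    have e2 := h.three c2 hc2 a ha b hb d hd hac2.symm hab hbd hc2b
      (fun e => hno' ⟨c2, hc2, hac2, e ▸ hbd⟩) hda.symm
    by_cases hs : ∃ s ∈ Z, G.Adj a s ∧ G.Adj c s
    · obtain ⟨s, hs, has, hcs⟩ := hs
      have e3 := h.three b hb a ha c hc s hs hab.symm hac hcs hcb.symm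
        (fun e => hno' ⟨c, hc, hac, (e ▸ hcs).symm⟩) has.ne
      exact e3.trans (tri c hc s hs a ha hcs has.symm hac.symm).symm
    · obtain ⟨c', hc', hcc', hc'a, -⟩ := pick c hc a a
      have e3 := h.three b hb a ha c hc c' hc' hab.symm hac hcc' hcb.symm
        (fun e => hs ⟨b, hb, hab, e ▸ hcc'⟩) hc'a.symm
      have e4 := h.three c2 hc2 a ha c hc c' hc' hac2.symm hac hcc' hc2c
        (fun e => hs ⟨c2, hc2, hac2, e ▸ hcc'⟩) hc'a.symm
      exact e3.trans (e4.symm.trans (e2.trans e1.symm))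
  have mono : ∀ a ∈ Z, ∀ b ∈ Z, G.Adj a b → π a = π b := by
    intro a ha b hb hab
    by_cases hs : ∃ s ∈ Z, G.Adj a s ∧ G.Adj b s
    · obtain ⟨s, hs, has, hbs⟩ := hs
      exact tri a ha b hb s hs hab hbs has
    obtain ⟨c, hc, hac, hcb, -⟩ := pick a ha b b
    obtain ⟨d, hd, hbd, hda, -⟩ := pick b hb a a
    have f1 := side a ha b hb hab hs c hc hac hcb
    have f2 := side b hb a ha hab.symm (fun ⟨s, hs', h1, h2⟩ => hs ⟨s, hs', h2, h1⟩) d hd hbd hda
    have e1 := h.three c hc a ha b hb d hd hac.symm hab hbd hcb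
      (fun e => hs ⟨c, hc, hac, e ▸ hbd⟩) hda.symm
    exact f2.trans (e1.symm.trans f1.symm)
  have six : ∀ a b c d e f : V, a ∈ Z → b ∈ Z → c ∈ Z → d ∈ Z → e ∈ Z → f ∈ Z → G.Adj a b →
      G.Adj b c → G.Adj c d → G.Adj d e → G.Adj e f → [a, b, c, d, e, f].Nodup → False := by
    intro a b c d e f ha hb hc hd he hf h1 h2 h3 h4 h5 hnd
    refine h.six a b c d e f ha hb hc hd he hf h1 h2 h3 h4 h5 hnd ?_
    have m1 := mono a ha b hb h1
    have m2 := mono b hb c hc h2
    have m3 := mono c hc d hd h3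
    have m4 := mono d hd e he h4
    have m5 := mono e he f hf h5
    intro v hv
    simp at hv
    rcases hv with rfl | rfl | rfl | rfl | rfl | rfl
    · rfl
    · exact m1.symm
    · exact (m1.trans m2).symm
    · exact ((m1.trans m2).trans m3).symm
    · exact (((m1.trans m2).trans m3).trans m4).symm
    · exact ((((m1.trans m2).trans m3).trans m4).trans m5).symm
  -- a path on five vertices with a triangle in the middle is a closed piece
  have five : ∀ p q r s t : V, p ∈ Z → q ∈ Z → r ∈ Z → s ∈ Z → t ∈ Z → G.Adj p q → G.Adj q r →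
      G.Adj r s → G.Adj s t → G.Adj q s → [p, q, r, s, t].Nodup →
      ∃ C : Finset V, C ⊆ Z ∧ C.card = 5 ∧ 2 ≤ aNum G C ∧
        ∀ u ∈ C, ∀ w ∈ Z, G.Adj u w → w ∈ C := by
    intro p q r s t hp hq hr hs ht hpq hqr hrs hst hqs hnd
    have hnd' := hnd
    simp at hnd'
    obtain ⟨⟨npq, npr, nps, npt⟩, ⟨nqr, nqs, nqt⟩, ⟨nrs, nrt⟩, nst⟩ := hnd'
    set C : Finset V := {p, q, r, s, t} with hC
    have hCZ : C ⊆ Z := by
      intro x hx
      simp [hC] at hx
      rcases hx with rfl | rfl | rfl | rfl | rfl <;> assumption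
    have ends : ∀ a b c d e : V, a ∈ C → b ∈ C → c ∈ C → d ∈ C → e ∈ C → G.Adj a b → G.Adj b c →
        G.Adj c d → G.Adj d e → [a, b, c, d, e].Nodup → ∀ w ∈ Z, G.Adj a w → w ∈ C := by
      intro a b c d e ha hb hc hd he h1 h2 h3 h4 hnd2 w hw haw
      by_contra hwC
      refine six w a b c d e hw (hCZ ha) (hCZ hb) (hCZ hc) (hCZ hd) (hCZ he) haw.symm h1 h2 h3 h4
        (List.nodup_cons.2 ⟨?_, hnd2⟩)
      intro hm
      simp at hm
      rcases hm with rfl | rfl | rfl | rfl | rfl <;> contradiction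
    have cp : p ∈ C := by simp [hC]
    have cq : q ∈ C := by simp [hC]
    have cr : r ∈ C := by simp [hC]
    have cs : s ∈ C := by simp [hC]
    have ct : t ∈ C := by simp [hC]
    have hclose : G.Adj p t := by
      by_contra hpt
      obtain ⟨F, hFZ, hFv, hFc⟩ := hno p hp
      have hsub : F ⊆ {q, r, s} := by
        intro w hw
        have hw' := ends p q r s t cp cq cr cs ct hpq hqr hrs hst hnd w (hFZ hw) (hFv w hw)
        have hwp := (hFv w hw).ne'
        simp [hC] at hw' ⊢
        rcases hw' with rfl | rfl | rfl | rfl | rfl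
        · exact absurd rfl hwp
        · exact Or.inl rfl
        · exact Or.inr (Or.inl rfl)
        · exact Or.inr (Or.inr rfl)
        · exact absurd (hFv _ hw) hpt
      have heq : F = {q, r, s} := Finset.eq_of_subset_of_card_le hsub
        (Finset.card_le_three.trans (by omega))
      exact h.k4free p hp q hq r hr s hs (hFv q (by simp [heq])) (hFv r (by simp [heq]))
        (hFv s (by simp [heq])) hqr hqs hrs
    refine ⟨C, hCZ, ?_, ?_, ?_⟩
    · simp [hC, npq, npr, nps, npt, nqr, nqs, nqt, nrs, nrt, nst]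
    · by_contra hlt
      have hcl : G.IsClique (C : Set V) := eq_clique_of_aNum_le_one (by omega)
      exact h.k4free p hp q hq r hr s hs (hcl cp cq npq) (hcl cp cr npr) (hcl cp cs nps) hqr hqs hrs
    · intro u hu
      simp [hC] at hu
      rcases hu with rfl | rfl | rfl | rfl | rfl
      · exact ends _ _ _ _ _ cp cq cr cs ct hpq hqr hrs hst hnd
      · exact ends _ _ _ _ _ cq cr cs ct cp hqr hrs hst hclose.symm (by
          simp [nqr, nqs, nqt, Ne.symm npq, nrs, nrt, Ne.symm npr, nst, Ne.symm nps, Ne.symm npt])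
      · exact ends _ _ _ _ _ cr cs ct cp cq hrs hst hclose.symm hpq (by
          simp [nrs, nrt, Ne.symm npr, Ne.symm nqr, nst, Ne.symm nps, Ne.symm nqs, Ne.symm npt,
            Ne.symm nqt, npq])
      · exact ends _ _ _ _ _ cs ct cp cq cr hst hclose.symm hpq hqr (by
          simp [nst, Ne.symm nps, Ne.symm nqs, Ne.symm nrs, Ne.symm npt, Ne.symm nqt, Ne.symm nrt,
            npq, npr, nqr])
      · exact ends _ _ _ _ _ ct cp cq cr cs hclose.symm hpq hqr hrs (by
          simp [Ne.symm npt, Ne.symm nqt, Ne.symm nrt, Ne.symm nst, npq, npr, nps, nqr, nqs, nrs])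
  by_cases htf : ∃ a ∈ Z, ∃ b ∈ Z, ∃ c ∈ Z, G.Adj a b ∧ G.Adj b c ∧ G.Adj a c
  · obtain ⟨a, ha, b, hb, c, hc, hab, hbc, hac⟩ := htf
    obtain ⟨d, hd, had, hdb, hdc⟩ := pick a ha b c
    obtain ⟨e, he, hbe, hea, hec⟩ := pick b hb a c
    by_cases hde : d = e
    · subst hde
      obtain ⟨f, hf, hcf, hfa, hfb⟩ := pick c hc a b
      have hfd : f ≠ d := fun k => h.k4free a ha b hb c hc d hd hab hac had hbc hbe (k ▸ hcf)
      exact five d a b c f hd ha hb hc hf had.symm hab hbc hcf hac (by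
        simp [hdb, hdc, hfd.symm, had.ne.symm, hab.ne, hac.ne, hfa.symm, hbc.ne, hfb.symm, hcf.ne])
    · exact five d a c b e hd ha hc hb he had.symm hac hbc.symm hbe hab (by
        simp [hdb, hdc, hde, had.ne.symm, hac.ne, hab.ne, hea.symm, hbc.ne.symm, hec.symm, hbe.ne])
  · exfalso
    push Not at htf
    obtain ⟨a, ha⟩ := hne
    obtain ⟨b, hb, hab, -, -⟩ := pick a ha a a
    obtain ⟨c, hc, hac, hcb, -⟩ := pick a ha b b
    obtain ⟨e, he, hbe, hea, -⟩ := pick b hb a a
    have hce : c ≠ e := fun k => htf a ha b hb c hc hab (k ▸ hbe) hac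
    obtain ⟨x, hx, hcx, hxa, hxe⟩ := pick c hc a e
    have hxb : x ≠ b := fun k => htf a ha c hc b hb hac (k ▸ hcx) hab
    obtain ⟨y, hy, hey, hyb, hyc, hyx⟩ : ∃ y ∈ Z, G.Adj e y ∧ y ≠ b ∧ y ≠ c ∧ y ≠ x := by
      by_cases hadj : G.Adj c e
      · obtain ⟨y, hy, hey, h1, h2⟩ := pick e he b c
        exact ⟨y, hy, hey, h1, h2, fun k => htf c hc e he x hx hadj (k ▸ hey) hcx⟩
      · obtain ⟨y, hy, hey, h1, h2⟩ := pick e he b x
        exact ⟨y, hy, hey, h1, fun k => hadj (k ▸ hey).symm, h2⟩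
    have hya : y ≠ a := fun k => htf a ha b hb e he hab hbe (k ▸ hey).symm
    exact six x c a b e y hx hc ha hb he hy hcx.symm hac.symm hab hbe hey (by
      simp [hcx.ne.symm, hxa, hxb, hxe, hyx.symm, hac.ne.symm, hcb, hce, hyc.symm, hab.ne,
        hea.symm, hya.symm, hbe.ne, hyb.symm, hey.ne])

/-- A sparse set has at most `3 α` vertices. -/
lemma Sparse7.card_le {π : V → V} : ∀ Z : Finset V, Sparse7 G π Z → Z.card ≤ 3 * aNum G Z := by
  intro Z
  induction Z using Finset.strongInduction with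
  | H Z ih =>
    intro h
    classical
    by_cases hne : Z.Nonempty
    swap
    · rw [Finset.not_nonempty_iff_eq_empty.1 hne]; simp
    rcases h.low_or_five hne with ⟨v, hv, hdeg⟩ | ⟨C, hCZ, hC5, hCa, hcl⟩
    · set R := Z.filter (fun w => w ≠ v ∧ ¬ G.Adj v w) with hR
      have hsub : R ⊆ Z := Finset.filter_subset _ _
      have h1 := ih R ⟨hsub, fun hh => by simpa [hR] using hh hv⟩ (h.mono hsub)
      have h2 := aNum_add_le (G := G) (S := Z) (A := {v}) (B := R) (by simpa using hv) hsub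
        (by simp [hR]) (by
          intro a ha b hb
          simp at ha
          subst ha
          simp [hR] at hb
          exact hb.2.2)
      have h3 := aNum_pos (G := G) (Finset.singleton_nonempty v)
      set N := Z.filter (G.Adj v) with hN
      have hN2 : N.card ≤ 2 :=
        hdeg N (Finset.filter_subset _ _) fun w hw => (Finset.mem_filter.1 hw).2
      have hcov : Z ⊆ {v} ∪ N ∪ R := by
        intro w hw
        simp [hR, hN]
        tauto
      have h4 := Finset.card_le_card hcov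
      have h5 := Finset.card_union_le ({v} ∪ N) R
      have h6 := Finset.card_union_le {v} N
      rw [Finset.card_singleton] at h6
      omega
    · have h1 := ih (Z \ C) (Finset.sdiff_ssubset hCZ (Finset.card_pos.1 (by omega)))
        (h.mono Finset.sdiff_subset)
      have h2 := aNum_add_le (G := G) (S := Z) (A := C) (B := Z \ C) hCZ Finset.sdiff_subset
        Finset.disjoint_sdiff (fun u hu w hw e =>
          (Finset.mem_sdiff.1 hw).2 (hcl u hu w (Finset.mem_sdiff.1 hw).1 e))
      have h3 := Finset.card_sdiff_add_card_eq_card hCZ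
      omega

/-- Two disjoint triangles inside `Z`. -/
def TwoTriangles (G : SimpleGraph V) (Z : Finset V) : Prop :=
  ∃ a b c a' b' c', a ∈ Z ∧ b ∈ Z ∧ c ∈ Z ∧ a' ∈ Z ∧ b' ∈ Z ∧ c' ∈ Z ∧
    G.Adj a b ∧ G.Adj a c ∧ G.Adj b c ∧ G.Adj a' b' ∧ G.Adj a' c' ∧ G.Adj b' c' ∧
    [a, b, c, a', b', c'].Nodup

omit [DecidableEq V] in
lemma TwoTriangles.mono {W Z : Finset V} (h : TwoTriangles G W) (hW : W ⊆ Z) :
    TwoTriangles G Z := by
  obtain ⟨a, b, c, a', b', c', h1, h2, h3, h4, h5, h6, h7⟩ := h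
  exact ⟨a, b, c, a', b', c', hW h1, hW h2, hW h3, hW h4, hW h5, hW h6, h7⟩

/-- The tight case: a vertex with two neighbours and a triangle outside them. -/
lemma Sparse7.tight {π : V → V} {Z : Finset V} (h : Sparse7 G π Z) (hπ : ∀ v w, π v = π w)
    {v : V} (hv : v ∈ Z) {N R : Finset V} [DecidablePred (G.Adj v)] (_hsub : R ⊆ Z)
    (hN2 : N.card = 2) (hR3 : R.card = 3) (hN : Z.filter (G.Adj v) = N)
    (hR : Z.filter (fun w => w ≠ v ∧ ¬ G.Adj v w) = R) (hRa : aNum G R ≤ 1) (hZa : aNum G Z ≤ 2) :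
    TwoTriangles G Z := by
  obtain ⟨u, w, huw, hNe⟩ := Finset.card_eq_two.1 hN2
  have hu : u ∈ Z ∧ G.Adj v u := Finset.mem_filter.1 (by rw [hN, hNe]; simp)
  have hw : w ∈ Z ∧ G.Adj v w := Finset.mem_filter.1 (by rw [hN, hNe]; simp)
  obtain ⟨x, y, z, hxy, hxz, hyz, hRe⟩ := Finset.card_eq_three.1 hR3
  have hcl : G.IsClique (R : Set V) := eq_clique_of_aNum_le_one hRa
  have mR : ∀ q, q ∈ R → q ∈ Z ∧ q ≠ v ∧ ¬ G.Adj v q := fun q hq =>
    Finset.mem_filter.1 (by rw [hR]; exact hq)
  have hx := mR x (by simp [hRe])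
  have hy := mR y (by simp [hRe])
  have hz := mR z (by simp [hRe])
  have exy : G.Adj x y := hcl (by simp [hRe]) (by simp [hRe]) hxy
  have exz : G.Adj x z := hcl (by simp [hRe]) (by simp [hRe]) hxz
  have eyz : G.Adj y z := hcl (by simp [hRe]) (by simp [hRe]) hyz
  have ne : ∀ n q, G.Adj v n → ¬ G.Adj v q → n ≠ q := fun n q h1 h2 e => h2 (e ▸ h1)
  have ux := ne u x hu.2 hx.2.2
  have uy := ne u y hu.2 hy.2.2
  have uz := ne u z hu.2 hz.2.2
  have wx := ne w x hw.2 hx.2.2
  have wy := ne w y hw.2 hy.2.2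
  have wz := ne w z hw.2 hz.2.2
  have vx := Ne.symm hx.2.1
  have vy := Ne.symm hy.2.1
  have vz := Ne.symm hz.2.1
  by_cases euw : G.Adj u w
  · exact ⟨v, u, w, x, y, z, hv, hu.1, hw.1, hx.1, hy.1, hz.1, hu.2, hw.2, euw, exy, exz, eyz, by
      simp [hu.2.ne, hw.2.ne, vx, vy, vz, huw, ux, uy, uz, wx, wy, wz, hxy, hxz, hyz]⟩
  exfalso
  by_cases e1 : G.Adj u x
  · exact h.six w v u x y z hw.1 hv hu.1 hx.1 hy.1 hz.1 hw.2.symm hu.2 e1 exy eyz
      (by simp [hw.2.ne.symm, huw.symm, wx, wy, wz, hu.2.ne, vx, vy, vz, ux, uy, uz, hxy, hxz, hyz])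
      (fun _ _ => hπ _ _)
  by_cases e2 : G.Adj w x
  · exact h.six u v w x y z hu.1 hv hw.1 hx.1 hy.1 hz.1 hu.2.symm hw.2 e2 exy eyz
      (by simp [hu.2.ne.symm, huw, ux, uy, uz, hw.2.ne, vx, vy, vz, wx, wy, wz, hxy, hxz, hyz])
      (fun _ _ => hπ _ _)
  have := card_le_aNum (G := G) (S := Z) (I := {u, w, x})
    (by simp [Finset.insert_subset_iff, hu.1, hw.1, hx.1]) (by
      intro p hp q hq hne'
      simp at hp hq
      rcases hp with rfl | rfl | rfl <;> rcases hq with rfl | rfl | rfl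
      · exact absurd rfl hne'
      · exact euw
      · exact e1
      · exact fun k => euw k.symm
      · exact absurd rfl hne'
      · exact e2
      · exact fun k => e1 k.symm
      · exact fun k => e2 k.symm
      · exact absurd rfl hne')
  have hc : ({u, w, x} : Finset V).card = 3 := by simp [huw, ux, wx]
  omega

/-- With a single label, `3 α` is attained only by cliques and two disjoint triangles. -/
lemma Sparse7.card_lt {π : V → V} : ∀ Z : Finset V, Sparse7 G π Z → (∀ v w, π v = π w) →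
    Z.card + 1 ≤ 3 * aNum G Z ∨ aNum G Z ≤ 1 ∨ TwoTriangles G Z := by
  intro Z
  induction Z using Finset.strongInduction with
  | H Z ih =>
    intro h hπ
    classical
    by_cases hα : aNum G Z ≤ 1
    · exact Or.inr (Or.inl hα)
    have hne : Z.Nonempty := by
      by_contra hne
      rw [Finset.not_nonempty_iff_eq_empty.1 hne] at hα
      obtain ⟨I, hI, -, hIc⟩ := exists_max_indep (G := G) (∅ : Finset V)
      have := Finset.card_le_card hI
      rw [Finset.card_empty] at this
      omega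
    rcases h.low_or_five hne with ⟨v, hv, hdeg⟩ | ⟨C, hCZ, hC5, hCa, hcl⟩
    · set R := Z.filter (fun w => w ≠ v ∧ ¬ G.Adj v w) with hR
      have hsub : R ⊆ Z := Finset.filter_subset _ _
      have h1 := Sparse7.card_le R (h.mono hsub)
      have h2 := aNum_add_le (G := G) (S := Z) (A := {v}) (B := R) (by simpa using hv) hsub
        (by simp [hR]) (by
          intro a ha b hb
          simp at ha
          subst ha
          simp [hR] at hb
          exact hb.2.2)
      have h3 := aNum_pos (G := G) (Finset.singleton_nonempty v)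
      set N := Z.filter (G.Adj v) with hN
      have hN2 : N.card ≤ 2 :=
        hdeg N (Finset.filter_subset _ _) fun w hw => (Finset.mem_filter.1 hw).2
      have hcov : Z ⊆ {v} ∪ N ∪ R := by
        intro w hw
        simp [hR, hN]
        tauto
      have h4 := Finset.card_le_card hcov
      have h5 := Finset.card_union_le ({v} ∪ N) R
      have h6 := Finset.card_union_le {v} N
      rw [Finset.card_singleton] at h6
      rcases ih R ⟨hsub, fun hh => by simpa [hR] using hh hv⟩ (h.mono hsub) hπ with g | g | g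
      · exact Or.inl (by omega)
      swap
      · exact Or.inr (Or.inr (g.mono hsub))
      by_cases hbig : Z.card + 1 ≤ 3 * aNum G Z
      · exact Or.inl hbig
      exact Or.inr (Or.inr (h.tight (fun x y => hπ x y) hv hsub (by omega) (by omega) hN.symm hR.symm g
        (by omega)))
    · have h1 := Sparse7.card_le (Z \ C) (h.mono Finset.sdiff_subset)
      have h2 := aNum_add_le (G := G) (S := Z) (A := C) (B := Z \ C) hCZ Finset.sdiff_subset
        Finset.disjoint_sdiff (fun u hu w hw e =>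
          (Finset.mem_sdiff.1 hw).2 (hcl u hu w (Finset.mem_sdiff.1 hw).1 e))
      have h3 := Finset.card_sdiff_add_card_eq_card hCZ
      exact Or.inl (by omega)

/-- The first three layers are sparse without `K₅`. -/
lemma layers_seven (hnc : ¬ HasCyc G 7)
    (hK5 : ∀ p ∈ S, ∀ a ∈ S, ∀ b ∈ S, ∀ c ∈ S, ∀ e ∈ S, G.Adj p a → G.Adj p b → G.Adj p c →
      G.Adj p e → G.Adj a b → G.Adj a c → G.Adj a e → G.Adj b c → G.Adj b e → G.Adj c e → False)
    {r : V} {d : V → ℕ} {par : V → V} (hB : BFS G S r d par) {k : ℕ} (hk1 : 1 ≤ k) (hk3 : k ≤ 3) :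
    Sparse7 G par (S.filter (fun v => d v = k)) := by
  classical
  set Z := S.filter (fun v => d v = k) with hZ
  have mem : ∀ v ∈ Z, v ∈ S ∧ d v = k := fun v hv => Finset.mem_filter.1 hv
  have st : ∀ v ∈ S, 0 < d v → par v ∈ S ∧ d (par v) + 1 = d v ∧ G.Adj v (par v) := hB.step
  have neq : ∀ u w, d u ≠ d w → u ≠ w := fun u w h e => h (e ▸ rfl)
  have hcase : k = 1 ∨ k = 2 ∨ k = 3 := by omega
  have h1 : ∀ v ∈ Z, par v ∈ S ∧ d (par v) + 1 = k ∧ G.Adj v (par v) := fun v hv => by
    obtain ⟨a, b, c⟩ := st v (mem v hv).1 (by rw [(mem v hv).2]; omega)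
    exact ⟨a, by rw [b, (mem v hv).2], c⟩
  have hP : ∀ a ∈ Z, ∀ b ∈ Z, ∀ c ∈ Z, ∀ e ∈ Z, G.Adj a b → G.Adj b c → G.Adj c e → a ≠ c →
      a ≠ e → b ≠ e → par a = par e := by
    intro a ha b hb c hc e he hab hbc hce nac nae nbe
    by_contra hne
    obtain ⟨pa, la, aa⟩ := h1 a ha
    obtain ⟨pe, le', ae⟩ := h1 e he
    have lb := (mem b hb).2; have lc := (mem c hc).2
    have lA := (mem a ha).2; have lE := (mem e he).2
    rcases hcase with rfl | rfl | rfl
    · exact hne ((hB.eq_root _ pa (by omega)).trans (hB.eq_root _ pe (by omega)).symm)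
    · obtain ⟨ga, la2, aa2⟩ := st _ pa (by omega)
      obtain ⟨ge', le2, ae2⟩ := st _ pe (by omega)
      rw [hB.eq_root _ ga (by omega)] at aa2
      rw [hB.eq_root _ ge' (by omega)] at ae2
      have l0 := hB.root_zero
      exact hnc (hasCyc_seven hab hbc hce ae ae2 aa2.symm aa.symm (by
        simp [hab.ne, nac, nae, hbc.ne, nbe, hce.ne, neq a (par e) (by omega),
          neq a r (by omega), aa.ne, neq b (par e) (by omega), neq b r (by omega),
          neq b (par a) (by omega), neq c (par e) (by omega), neq c r (by omega),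
          neq c (par a) (by omega), ae.ne, neq e r (by omega), neq e (par a) (by omega),
          ae2.ne, Ne.symm hne, aa2.ne.symm]))
    · obtain ⟨ga, la2, aa2⟩ := st _ pa (by omega)
      obtain ⟨ge', le2, ae2⟩ := st _ pe (by omega)
      -- all grandparents along the path agree
      have grand : ∀ u ∈ Z, ∀ w ∈ Z, G.Adj u w → par (par u) = par (par w) := by
        intro u hu w hw huw
        by_contra hg
        obtain ⟨pu, lu, au⟩ := h1 u hu
        obtain ⟨pw, lw, aw⟩ := h1 w hw
        obtain ⟨gu, lu2, au2⟩ := st _ pu (by omega)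
        obtain ⟨gw, lw2, aw2⟩ := st _ pw (by omega)
        obtain ⟨ru, lu3, au3⟩ := st _ gu (by omega)
        obtain ⟨rw', lw3, aw3⟩ := st _ gw (by omega)
        rw [hB.eq_root _ ru (by omega)] at au3
        rw [hB.eq_root _ rw' (by omega)] at aw3
        have l0 := hB.root_zero
        have lU := (mem u hu).2; have lW := (mem w hw).2
        have hpp : ¬ par w = par u := fun k => hg (congrArg par k).symm
        exact hnc (hasCyc_seven huw aw aw2 aw3 au3.symm au2.symm au.symm (by
          simp [huw.ne, neq u (par w) (by omega), neq u (par (par w)) (by omega),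
            neq u r (by omega), neq u (par (par u)) (by omega), au.ne, aw.ne,
            neq w (par (par w)) (by omega), neq w r (by omega), neq w (par (par u)) (by omega),
            neq w (par u) (by omega), aw2.ne, neq (par w) r (by omega),
            neq (par w) (par (par u)) (by omega),
            hpp,
            aw3.ne, Ne.symm hg, neq (par (par w)) (par u) (by omega),
            au3.ne.symm, neq r (par u) (by omega), au2.ne.symm]))
      have e1 : par (par a) = par (par e) :=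
        (grand a ha b hb hab).trans ((grand b hb c hc hbc).trans (grand c hc e he hce))
      exact hnc (hasCyc_seven hab hbc hce ae ae2 (e1 ▸ aa2.symm) aa.symm (by
        simp [hab.ne, nac, nae, hbc.ne, nbe, hce.ne, neq a (par e) (by omega),
          neq a (par (par e)) (by omega), aa.ne, neq b (par e) (by omega),
          neq b (par (par e)) (by omega), neq b (par a) (by omega), neq c (par e) (by omega),
          neq c (par (par e)) (by omega), neq c (par a) (by omega), ae.ne,
          neq e (par (par e)) (by omega), neq e (par a) (by omega), ae2.ne, Ne.symm hne,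
          neq (par (par e)) (par a) (by omega)]))
  refine ⟨hP, ?_, ?_⟩
  · intro a ha b hb c hc e he hab hac hae hbc hbe hce
    have e1 : par a = par b :=
      hP a ha c hc e he b hb hac hce hbe.symm hae.ne hab.ne hbc.ne.symm
    have e2 : par a = par c :=
      hP a ha b hb e he c hc hab hbe hce.symm hae.ne hac.ne hbc.ne
    have e3 : par a = par e :=
      hP a ha b hb c hc e he hab hbc hce hac.ne hae.ne hbe.ne
    exact hK5 _ (h1 a ha).1 a (mem a ha).1 b (mem b hb).1 c (mem c hc).1 e (mem e he).1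
      (h1 a ha).2.2.symm (e1 ▸ (h1 b hb).2.2.symm) (e2 ▸ (h1 c hc).2.2.symm)
      (e3 ▸ (h1 e he).2.2.symm) hab hac hae hbc hbe hce
  · intro a b c e f g ha hb hc he hf hg c1 c2 c3 c4 c5 hnd hpar
    obtain ⟨-, la, aa⟩ := h1 a ha
    have hag : G.Adj g (par a) := by
      rw [← hpar g (by simp)]
      exact (h1 g hg).2.2
    refine hnc (hasCyc_seven c1 c2 c3 c4 c5 hag aa.symm (nodup_seven hnd ?_))
    intro v hv
    refine neq _ _ ?_
    have : d v = k := by
      simp at hv
      rcases hv with rfl | rfl | rfl | rfl | rfl | rfl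
      exacts [(mem _ ha).2, (mem _ hb).2, (mem _ hc).2, (mem _ he).2, (mem _ hf).2, (mem _ hg).2]
    omega

/-- Three shallow layers around a root that is not the common vertex of two `K₄`. -/
theorem growth_seven (hnc : ¬ HasCyc G 7) (hS : Crit G S 6) (ha : aNum G S ≤ 6)
    (hK5 : ∀ p ∈ S, ∀ a ∈ S, ∀ b ∈ S, ∀ c ∈ S, ∀ e ∈ S, G.Adj p a → G.Adj p b → G.Adj p c →
      G.Adj p e → G.Adj a b → G.Adj a c → G.Adj a e → G.Adj b c → G.Adj b e → G.Adj c e → False)
    {r : V} (hr : r ∈ S)
    (hcentre : ∀ T : Finset V, T ⊆ S → (∀ v ∈ T, G.Adj r v) → ¬ TwoTriangles G T) : False := by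
  classical
  obtain ⟨d, par, hB, -⟩ := exists_bfs (G := G) (H := S) (r := r) (a := S.card) hr (fun v hv => by
    obtain ⟨n, hn⟩ := hS.conn r hr v hv
    exact ⟨n, by have := hn.le_card; omega, hn⟩)
  set L : ℕ → Finset V := fun h => S.filter (fun v => d v = h) with hL
  have hL0 : (L 0).card ≤ 1 := by
    refine (Finset.card_le_card (t := {r}) ?_).trans (by simp)
    intro v hv
    simp [hL] at hv
    simp [hB.eq_root v hv.1 hv.2]
  have hball : ∀ q, ((S.filter (fun v => d v ≤ q))).card ≤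
      ∑ h ∈ Finset.range (q + 1), (L h).card := by
    intro q
    refine (Finset.card_le_card (t := (Finset.range (q + 1)).biUnion L) ?_).trans
      Finset.card_biUnion_le
    intro v hv
    simp at hv
    simp [hL, hv.1]
    omega
  have step : ∀ q, 6 * aNum G (S.filter (fun v => d v ≤ q)) + 1 ≤
      ∑ h ∈ Finset.range (q + 2), (L h).card := by
    intro q
    refine ((hS.closedNbr_card (Finset.filter_subset _ _)
      ⟨r, Finset.mem_filter.2 ⟨hr, by rw [hB.root_zero]; omega⟩⟩).trans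
        (Finset.card_le_card ?_)).trans (hball (q + 1))
    intro v hv
    rw [mem_closedNbr] at hv
    simp only [Finset.mem_filter] at hv
    refine Finset.mem_filter.2 ⟨hv.1, ?_⟩
    rcases hv.2 with h | ⟨x, hx, hxv⟩
    · omega
    · have := hB.edge v hv.1 x hx.1 hxv.symm
      omega
  have par2 : ∀ i j, i + 2 = j → ∀ T : Finset V, L i ⊆ T → L j ⊆ T →
      aNum G (L i) + aNum G (L j) ≤ aNum G T := by
    intro i j hij T h1 h2
    refine aNum_add_le h1 h2 ?_ ?_
    · rw [Finset.disjoint_left]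
      intro v hv hv'
      simp [hL] at hv hv'
      omega
    · intro u hu v hv huv
      simp [hL] at hu hv
      have := hB.edge v hv.1 u hu.1 huv.symm
      omega
  have hr0 : r ∈ L 0 := Finset.mem_filter.2 ⟨hr, hB.root_zero⟩
  have a0 : 1 ≤ aNum G (L 0) := aNum_pos ⟨r, hr0⟩
  have b0 : aNum G (L 0) ≤ aNum G (S.filter (fun v => d v ≤ 0)) :=
    aNum_mono (fun v hv => by simp [hL] at hv ⊢; exact ⟨hv.1, by omega⟩)
  have b1 : aNum G (L 1) ≤ aNum G (S.filter (fun v => d v ≤ 1)) :=
    aNum_mono (fun v hv => by simp [hL] at hv ⊢; exact ⟨hv.1, by omega⟩)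
  have b2 := par2 0 2 rfl (S.filter (fun v => d v ≤ 2))
    (fun v hv => by simp [hL] at hv ⊢; exact ⟨hv.1, by omega⟩) (fun v hv => by simp [hL] at hv ⊢; exact ⟨hv.1, by omega⟩)
  have b3 := par2 1 3 rfl S (Finset.filter_subset _ _) (Finset.filter_subset _ _)
  have s0 := step 0
  have s1 := step 1
  have s2 := step 2
  simp only [Finset.sum_range_succ, Finset.sum_range_zero, zero_add] at s0 s1 s2
  have g2 := Sparse7.card_le _ (layers_seven hnc hK5 hB (k := 2) (by norm_num) (by norm_num))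
  have g3 := Sparse7.card_le _ (layers_seven hnc hK5 hB (k := 3) (by norm_num) le_rfl)
  have sp1 := layers_seven hnc hK5 hB (k := 1) le_rfl (by norm_num)
  have g0 := Sparse7.card_le _ sp1
  have root : ∀ v ∈ L 1, par v = r := fun v hv => by
    obtain ⟨hvS, hv1⟩ := Finset.mem_filter.1 hv
    obtain ⟨p1, p2, -⟩ := hB.step v hvS (by omega)
    exact hB.eq_root _ p1 (by omega)
  have sp : Sparse7 G (fun _ => r) (L 1) :=
    ⟨fun _ _ _ _ _ _ _ _ _ _ _ _ _ _ => rfl, sp1.k4free,
      fun a b c e f g m1 m2 m3 m4 m5 m6 e1 e2 e3 e4 e5 hnd _ =>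
        sp1.six a b c e f g m1 m2 m3 m4 m5 m6 e1 e2 e3 e4 e5 hnd (fun v hv => by
          rw [root a m1]
          refine root v ?_
          simp at hv
          rcases hv with rfl | rfl | rfl | rfl | rfl | rfl <;> assumption)⟩
  rcases Sparse7.card_lt _ sp (fun _ _ => rfl) with g1 | g1 | g1
  · simp only [hL, Nat.reduceAdd] at *
    omega
  · simp only [hL, Nat.reduceAdd] at *
    omega
  · refine hcentre (L 1) (Finset.filter_subset _ _) (fun v hv => ?_) g1
    obtain ⟨hvS, hv1⟩ := Finset.mem_filter.1 hv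
    have := (hB.step v hvS (by omega)).2.2
    rw [root v hv] at this
    exact this.symm

end Vale.Agent.P048
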