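import Vale.Agent.P048.Full.Spec
import Vale.Agent.P048.Full.KPath

/-!
Two maximum cliques joined by a short connection.

Every short connection that avoids the given one closes a cycle of length `m` through both
cliques, so the exits of the two cliques grow into two anticomplete sparse sets, and their
independence numbers add up to more than `m - 1`.
-/

namespace Vale.Agent.P048.Full

open Finset

variable {V : Type*} [DecidableEq V] {G : SimpleGraph V} {S K T g KA TB IA IB : Finset V} {m : ℕ}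

/-! ### Cycles through cliques -/

omit [DecidableEq V] in
lemma isChain_of_isClique (hK : G.IsClique (K : Set V)) {L : List V} (hL : L.Nodup)
    (hs : ∀ z ∈ L, z ∈ K) : L.IsChain G.Adj := by
  refine List.Pairwise.isChain ((List.nodup_iff_pairwise_ne.1 hL).imp_of_mem ?_)
  intro p q hp hq hne
  exact hK (by exact_mod_cast hs p hp) (by exact_mod_cast hs q hq) hne

/-- A path outside a clique whose ends see two members of it closes to every length in a range. -/
lemma cyc_closeT (hT : G.IsClique (T : Set V)) {L : List V} {a b x y : V} (hL : L.Nodup)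
    (hch : L.IsChain G.Adj) (hout : ∀ z ∈ L, z ∉ T) (ha : L.head? = some a)
    (hb : L.getLast? = some b) (hx : x ∈ T) (hy : y ∈ T) (hxy : x ≠ y) (hbx : G.Adj b x)
    (hya : G.Adj y a) (h1 : L.length + 2 ≤ m) (h2 : m ≤ L.length + T.card) : HasCyc G m := by
  have hc : ((T.erase x).erase y).card + 2 = T.card := by
    rw [← card_erase_add_one hx, ← card_erase_add_one (mem_erase.2 ⟨hxy.symm, hy⟩)]
  obtain ⟨B, hB, hBc⟩ := Finset.exists_subset_card_eq
    (show m - L.length - 2 ≤ ((T.erase x).erase y).card by omega)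
  have hBm : ∀ z ∈ B, z ≠ y ∧ z ≠ x ∧ z ∈ T := fun z hz => by
    simpa [mem_erase] using hB hz
  set R : List V := x :: (B.toList ++ [y]) with hR
  have hRT : ∀ z ∈ R, z ∈ T := by
    intro z hz
    simp [hR] at hz
    rcases hz with rfl | hz | rfl
    exacts [hx, (hBm z hz).2.2, hy]
  have hRn : R.Nodup := by
    rw [hR, List.nodup_cons, List.nodup_append]
    refine ⟨?_, B.nodup_toList, List.nodup_singleton y, ?_⟩
    · simp [hxy]
      exact fun h => (hBm x h).2.1 rfl
    · intro p hp q hq e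
      simp at hp hq
      exact (hBm p hp).1 (e.trans hq)
  have hnd : (L ++ R).Nodup :=
    List.nodup_append.2 ⟨hL, hRn, fun p hp q hq e => hout p hp (e ▸ hRT q hq)⟩
  have hch' : (L ++ R).IsChain G.Adj := List.isChain_append.2
    ⟨hch, isChain_of_isClique hT hRn hRT, by
      intro p hp q hq
      rw [hb] at hp
      simp [hR] at hp hq
      subst hp hq
      exact hbx⟩
  have hlen : (L ++ R).length = m := by simp [hR, hBc]; omega
  have := List.length_pos_of_mem (List.mem_of_mem_head? ha)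
  obtain ⟨f, hf, -⟩ := exists_zcyc hnd hch' (by omega) (fun p q hp hq => by
    rw [List.head?_append, ha] at hq
    rw [List.getLast?_append] at hp
    simp [hR, List.getLast?_cons] at hp hq
    subst hp hq
    exact hya)
  rw [hlen] at hf
  exact hf.hasCyc

/-- Two disjoint cliques, everything shared by both sides of the argument. -/
structure Pair (G : SimpleGraph V) (S K T : Finset V) (m : ℕ) : Prop where
  subK : K ⊆ S
  subT : T ⊆ S
  cliqueK : G.IsClique (K : Set V)
  cliqueT : G.IsClique (T : Set V)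
  disj : Disjoint K T
  card_eq : T.card = K.card
  big : m / 2 ≤ K.card
  max : ∀ L : Finset V, L ⊆ S → G.IsClique (L : Set V) → L.card ≤ K.card

omit [DecidableEq V] in
lemma Pair.symm (h : Pair G S K T m) : Pair G S T K m :=
  ⟨h.subT, h.subK, h.cliqueT, h.cliqueK, h.disj.symm, h.card_eq.symm, h.card_eq ▸ h.big,
    h.card_eq ▸ h.max⟩

/-- Two disjoint connections close to a cycle of length `m`. -/
lemma Pair.cyc_two (h : Pair G S K T m) {u v x y : V} {M N : List V} (hu : u ∈ K) (hv : v ∈ K)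
    (huv : u ≠ v) (hx : x ∈ T) (hy : y ∈ T) (hxy : x ≠ y) (hM : M.Nodup) (hN : N.Nodup)
    (hMN : ∀ z ∈ M, z ∉ N) (hMout : ∀ z ∈ M, z ∉ K ∧ z ∉ T) (hNout : ∀ z ∈ N, z ∉ K ∧ z ∉ T)
    (hchM : (v :: (M ++ [x])).IsChain G.Adj) (hchN : (y :: (N ++ [u])).IsChain G.Adj)
    (h1 : M.length + N.length + 4 ≤ m) (h2 : m ≤ M.length + N.length + 2 * K.card) :
    HasCyc G m := by
  have hc : ((K.erase u).erase v).card + 2 = K.card := by
    rw [← card_erase_add_one hu, ← card_erase_add_one (mem_erase.2 ⟨huv.symm, hv⟩)]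
  obtain ⟨A, hA, hAc⟩ := Finset.exists_subset_card_eq
    (show m - (M.length + N.length + 2 + K.card) ≤ ((K.erase u).erase v).card by omega)
  have hAm : ∀ z ∈ A, z ≠ v ∧ z ≠ u ∧ z ∈ K := fun z hz => by
    simpa [mem_erase] using hA hz
  set Q : List V := u :: (A.toList ++ [v]) with hQ
  have hQK : ∀ z ∈ Q, z ∈ K := by
    intro z hz
    simp [hQ] at hz
    rcases hz with rfl | hz | rfl
    exacts [hu, (hAm z hz).2.2, hv]
  have hQn : Q.Nodup := by
    rw [hQ, List.nodup_cons, List.nodup_append]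
    refine ⟨?_, A.nodup_toList, List.nodup_singleton v, ?_⟩
    · simp [huv]
      exact fun h => (hAm u h).2.1 rfl
    · intro p hp q hq e
      simp at hp hq
      exact (hAm p hp).1 (e.trans hq)
  have hQlast : Q.getLast? = some v := by simp [hQ, List.getLast?_cons]
  have hchQ := isChain_of_isClique h.cliqueK hQn hQK
  -- the list from the first vertex after `y` to the last before `x`
  obtain ⟨hvM, hMx⟩ : (v :: M).IsChain G.Adj ∧
      ∀ b ∈ (v :: M).getLast?, G.Adj b x := by
    rw [← List.cons_append, List.isChain_append] at hchM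
    exact ⟨hchM.1, fun b hb => hchM.2.2 b hb x rfl⟩
  obtain ⟨hyN, hNu⟩ : (y :: N).IsChain G.Adj ∧
      ∀ b ∈ (y :: N).getLast?, G.Adj b u := by
    rw [← List.cons_append, List.isChain_append] at hchN
    exact ⟨hchN.1, fun b hb => hchN.2.2 b hb u rfl⟩
  set L : List V := N ++ (Q ++ M) with hL
  have hLn : L.Nodup := by
    rw [hL, List.nodup_append, List.nodup_append]
    refine ⟨hN, ⟨hQn, hM, fun p hp q hq e => (hMout q hq).1 (e ▸ hQK p hp)⟩, ?_⟩
    intro p hp q hq e
    subst e
    rcases List.mem_append.1 hq with hq | hq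
    · exact (hNout p hp).1 (hQK p hq)
    · exact hMN p hq hp
  have hQM : (Q ++ M).IsChain G.Adj := by
    refine List.isChain_append.2 ⟨hchQ, hvM.tail, ?_⟩
    intro p hp q hq
    rw [hQlast] at hp
    simp at hp
    subst hp
    cases M with
    | nil => simp at hq
    | cons c M => simp at hq; subst hq; exact hvM.rel
  have hLc : L.IsChain G.Adj := by
    refine List.isChain_append.2 ⟨hyN.tail, hQM, ?_⟩
    intro p hp q hq
    rw [List.head?_append] at hq
    simp [hQ] at hq
    subst hq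
    cases N with
    | nil => simp at hp
    | cons c N => exact hNu p (by rw [List.getLast?_cons_cons]; exact hp)
  obtain ⟨a, ha⟩ : ∃ a, L.head? = some a := ⟨_, List.head?_eq_some_head (by simp [hL, hQ])⟩
  obtain ⟨b, hb⟩ : ∃ b, L.getLast? = some b :=
    ⟨_, List.getLast?_eq_some_getLast (by simp [hL, hQ])⟩
  have hlen : L.length = M.length + N.length + 2 + A.card := by simp [hL, hQ]; omega
  refine cyc_closeT h.cliqueT hLn hLc ?_ ha hb hx hy hxy ?_ ?_ (by omega)
    (by rw [h.card_eq]; omega)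
  · intro z hz
    simp only [hL, List.mem_append] at hz
    rcases hz with hz | hz | hz
    · exact (hNout z hz).2
    · exact disjoint_left.1 h.disj (hQK z hz)
    · exact (hMout z hz).2
  · cases M with
    | nil =>
      simp [hL, List.getLast?_append, hQlast] at hb
      subst hb
      exact hMx v rfl
    | cons c M =>
      simp [hL, List.getLast?_append] at hb
      exact hMx b (by rw [List.getLast?_cons_cons]; simpa [List.getLast?_cons] using hb)
  · cases N with
    | nil =>
      simp [hL, hQ] at ha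
      subst ha
      exact hNu y rfl
    | cons c N =>
      simp [hL] at ha
      subst ha
      exact hyN.rel

/-- An outside path between two members of `K` can be inserted in the long cycle of two
disjoint edges. -/
lemma Pair.cyc_insert (h : Pair G S K T m) {u v t y p q : V} {M : List V} (hu : u ∈ K)
    (hv : v ∈ K) (huv : u ≠ v) (ht : t ∈ T) (hy : y ∈ T) (hty : t ≠ y) (hut : G.Adj u t)
    (hvy : G.Adj v y) (hp : p ∈ K) (hq : q ∈ K) (hpu : p ≠ u) (hqu : q ≠ u) (hpq : p ≠ q)
    (hpv : p ≠ v) (hM : M.Nodup) (hMout : ∀ z ∈ M, z ∉ K ∧ z ∉ T)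
    (hch : (p :: (M ++ [q])).IsChain G.Adj) (h1 : M.length + K.card + 2 ≤ m)
    (h2 : m ≤ M.length + 2 * K.card) : HasCyc G m := by
  classical
  set R : List V := u :: ((((K.erase u).erase v).erase p).erase q).toList with hR
  set E : List V := if q = v then [q] else [q, v] with hE
  have hRm : ∀ z ∈ R, z ∈ K ∧ z ≠ v ∧ z ≠ p ∧ z ≠ q := by
    intro z hz
    simp [hR] at hz
    rcases hz with rfl | hz
    · exact ⟨hu, huv, hpu.symm, hqu.symm⟩
    · exact ⟨hz.2.2.2.2, hz.2.2.1, hz.2.1, hz.1⟩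
  have hRn : R.Nodup := by
    rw [hR, List.nodup_cons]
    exact ⟨by simp, Finset.nodup_toList _⟩
  have hEm : ∀ z ∈ E, z ∈ K ∧ (z = q ∨ z = v) := by
    intro z hz
    by_cases e : q = v
    · simp [hE, e] at hz; subst hz; exact ⟨hv, Or.inr rfl⟩
    · simp [hE, e] at hz
      rcases hz with rfl | rfl
      exacts [⟨hq, Or.inl rfl⟩, ⟨hv, Or.inr rfl⟩]
  have hEn : E.Nodup := by
    by_cases e : q = v <;> simp [hE, e]
  have hElast : E.getLast? = some v := by
    by_cases e : q = v <;> simp [hE, e]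
  have hEhead : E.head? = some q := by
    by_cases e : q = v <;> simp [hE, e]
  set L : List V := R ++ (p :: (M ++ E)) with hL
  have hLn : L.Nodup := by
    rw [hL]
    refine List.nodup_append.2
      ⟨hRn, List.nodup_cons.2 ⟨?_, List.nodup_append.2 ⟨hM, hEn, ?_⟩⟩, ?_⟩
    · simp only [List.mem_append, not_or]
      refine ⟨fun hh => (hMout p hh).1 hp, fun hh => ?_⟩
      rcases (hEm p hh).2 with e | e
      exacts [hpq e, hpv e]
    · intro z hz w hw e
      exact (hMout z hz).1 (e ▸ (hEm w hw).1)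
    · intro z hz w hw e
      subst e
      obtain ⟨hzK, hzv, hzp, hzq⟩ := hRm z hz
      simp only [List.mem_cons, List.mem_append] at hw
      rcases hw with hw | hw | hw
      · exact hzp hw
      · exact (hMout z hw).1 hzK
      · rcases (hEm z hw).2 with e | e
        exacts [hzq e, hzv e]
  obtain ⟨hpM, hMq⟩ : (p :: M).IsChain G.Adj ∧ ∀ b ∈ (p :: M).getLast?, G.Adj b q := by
    rw [← List.cons_append, List.isChain_append] at hch
    exact ⟨hch.1, fun b hb => hch.2.2 b hb q rfl⟩
  have hLc : L.IsChain G.Adj := by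
    refine List.isChain_append.2 ⟨isChain_of_isClique h.cliqueK hRn fun z hz => (hRm z hz).1,
      ?_, ?_⟩
    · rw [← List.cons_append, List.isChain_append]
      refine ⟨hpM, isChain_of_isClique h.cliqueK hEn fun z hz => (hEm z hz).1, ?_⟩
      intro b hb w hw
      rw [hEhead] at hw
      simp at hw
      subst hw
      exact hMq b hb
    · intro b hb w hw
      simp at hw
      subst hw
      obtain ⟨hbK, -, hbp, -⟩ := hRm b (List.mem_of_mem_getLast? hb)
      exact h.cliqueK (by exact_mod_cast hbK) (by exact_mod_cast hp) hbp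
  have hlen : L.length = M.length + K.card := by
    have hKv := card_erase_add_one (mem_erase.2 ⟨huv.symm, hv⟩)
    have hKp := card_erase_add_one (s := (K.erase u).erase v) (a := p)
      (by simp [hpv, hpu, hp])
    have := card_erase_add_one hu
    by_cases e : q = v
    · have hnot : q ∉ ((K.erase u).erase v).erase p := by simp [e]
      simp [hL, hR, hE, e, Finset.length_toList] at *
      omega
    · have hKq := card_erase_add_one (s := ((K.erase u).erase v).erase p) (a := q)
        (by simp [hpq.symm, e, hqu, hq])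
      simp [hL, hR, hE, e, Finset.length_toList] at *
      omega
  refine cyc_closeT h.cliqueT hLn hLc ?_ (a := u) (b := v) ?_ ?_ hy ht hty.symm hvy hut.symm
    (by omega) (by rw [h.card_eq]; omega)
  · intro z hz
    simp only [hL, List.mem_append, List.mem_cons] at hz
    rcases hz with hz | rfl | hz | hz
    · exact disjoint_left.1 h.disj (hRm z hz).1
    · exact disjoint_left.1 h.disj hp
    · exact (hMout z hz).2
    · exact disjoint_left.1 h.disj (hEm z hz).1
  · simp [hL, hR]
  · simp [hL, List.getLast?_append, List.getLast?_cons, hElast]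

/-! ### Counting -/

/-- No connection with at most four interior vertices outside `g`. -/
def NoConn (G : SimpleGraph V) (K T g KA TB : Finset V) : Prop :=
  ∀ v ∈ KA, ∀ x ∈ TB, ∀ M : List V, M ≠ [] → M.length ≤ 4 → M.Nodup →
    (∀ z ∈ M, z ∉ K ∧ z ∉ T ∧ z ∉ g) → (v :: (M ++ [x])).IsChain G.Adj → False

omit [DecidableEq V] in
lemma NoConn.symm (h : NoConn G K T g KA TB) : NoConn G T K g TB KA := by
  intro x hx v hv M hne hlen hnd hout hch
  refine h v hv x hx M.reverse (by simpa using hne) (by simpa using hlen)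
    (List.nodup_reverse.2 hnd) (fun z hz => ?_) ?_
  · obtain ⟨h1, h2, h3⟩ := hout z (List.mem_reverse.1 hz)
    exact ⟨h2, h1, h3⟩
  · have e : v :: (M.reverse ++ [x]) = (x :: (M ++ [v])).reverse := by simp
    rw [e, List.isChain_reverse]
    exact hch.imp fun _ _ hab => hab.symm

/-- Exits of `K` towards `KA`. -/
structure Side (G : SimpleGraph V) (S K T g KA I : Finset V) : Prop where
  sub : I ⊆ S
  out : ∀ i ∈ I, i ∉ K ∧ i ∉ T ∧ i ∉ g
  indep : G.IsIndepSet (I : Set V)
  root : ∀ i ∈ I, ∃ v ∈ KA, G.Adj v i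
  subKA : KA ⊆ K
  card : K.card ≤ I.card + 1

open scoped Classical in
/-- The members of the excluded set with a neighbour among the exits. -/
noncomputable def hit (G : SimpleGraph V) (W I : Finset V) : Finset V :=
  W.filter (fun z => ∃ i ∈ I, G.Adj i z)

open scoped Classical in
/-- The neighbours of the exits outside both cliques and `g`. -/
noncomputable def beyond (G : SimpleGraph V) (S W I : Finset V) : Finset V :=
  closedNbr G S I \ (I ∪ W)

lemma mem_beyond {W I : Finset V} {y : V} (h : y ∈ beyond G S W I) :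
    y ∈ S ∧ y ∉ I ∧ y ∉ W ∧ ∃ i ∈ I, G.Adj i y := by
  simp only [beyond, mem_sdiff, mem_closedNbr, mem_union, not_or] at h
  exact ⟨h.1.1, h.2.1, h.2.2, h.1.2.resolve_left h.2.1⟩

lemma beyond_card {W I : Finset V} (hS : Crit G S (m - 1)) (hI : I ⊆ S)
    (hIi : G.IsIndepSet (I : Set V)) (hne : I.Nonempty) :
    (m - 1) * I.card + 1 ≤ (beyond G S W I).card + I.card + (hit G W I).card := by
  classical
  refine (hS.closedNbr_card_indep hI hIi hne).trans ?_
  refine le_trans (card_le_card (show closedNbr G S I ⊆ (beyond G S W I ∪ I) ∪ hit G W I from ?_)) ?_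
  · intro z hz
    by_cases hzI : z ∈ I
    · simp [hzI]
    by_cases hzW : z ∈ W
    · obtain ⟨-, h | h⟩ := mem_closedNbr.1 hz
      · exact absurd h hzI
      · simp [hit, hzW, h]
    · simp [beyond, hz, hzI, hzW]
  · exact (card_union_le _ _).trans (Nat.add_le_add_right (card_union_le _ _) _)

lemma beyond_le (hnc : ¬ HasCyc G m) (hm : m ≤ 2 * K.card + 2)
    (hcore : CoreSpec G m) (hflex : FlexSpec G m) (hKS : K ⊆ S)
    (hK : G.IsClique (K : Set V)) (hbig : m / 2 ≤ K.card)
    (hmax : ∀ L : Finset V, L ⊆ S → G.IsClique (L : Set V) → L.card ≤ K.card)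
    (hI : Side G S K T g KA IA) :
    (beyond G S (K ∪ T ∪ g) IA).card ≤
      K.card * aNum G (beyond G S (K ∪ T ∪ g) IA) := by
  classical
  by_contra hlt
  push Not at hlt
  set Y := beyond G S (K ∪ T ∪ g) IA with hY
  obtain ⟨Z, hZ, c, f, hC⟩ := hcore (2 * K.card) Y (by omega)
    (by rw [Nat.mul_assoc]; omega)
    (fun L hL hLc => by
      have := hmax L (fun z hz => (mem_beyond (hL hz)).1) hLc
      omega)
  refine hflex hnc S K IA ∅ Z c f ?_ hbig hC
  refine ⟨hKS, hI.sub, by simp, fun z hz => (mem_beyond (hZ hz)).1, hK, ?_, ?_, ?_, by simp,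
    by simp, fun z hz => Or.inl (mem_beyond (hZ hz)).2.2.2⟩
  · exact disjoint_left.2 fun z hz hz' => (hI.out z hz').1 hz
  · refine disjoint_left.2 fun z hz hz' => ?_
    obtain ⟨-, h1, h2, -⟩ := mem_beyond (hZ hz)
    simp only [mem_union, not_or] at h2 hz'
    rcases hz' with (h | h) | h
    exacts [h2.1.1 h, h1 h, by simp at h]
  · intro j hj
    obtain ⟨v, hv, hvj⟩ := hI.root j hj
    exact ⟨v, hI.subKA hv, hvj⟩

omit [DecidableEq V] in
lemma NoConn.side_disjoint (hNC : NoConn G K T g KA TB) (hA : Side G S K T g KA IA)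
    (hB : Side G S T K g TB IB) {i : V} (hi : i ∈ IA) (hi' : i ∈ IB) : False := by
  obtain ⟨v, hv, h1⟩ := hA.root i hi
  obtain ⟨x, hx, h2⟩ := hB.root i hi'
  exact hNC v hv x hx [i] (by simp) (by simp) (by simp) (by simpa using hA.out i hi)
    (by simp [h1, h2.symm])

lemma NoConn.beyond_side (hNC : NoConn G K T g KA TB) (hA : Side G S K T g KA IA)
    (hB : Side G S T K g TB IB) {i : V} (hi : i ∈ beyond G S (K ∪ T ∪ g) IA) (hi' : i ∈ IB) :
    False := by
  obtain ⟨-, -, -, i₁, hi₁, ha⟩ := mem_beyond hi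
  obtain ⟨v, hv, h1⟩ := hA.root i₁ hi₁
  obtain ⟨x, hx, h2⟩ := hB.root i hi'
  refine hNC v hv x hx [i₁, i] (by simp) (by simp) (by simp [ha.ne]) ?_
    (by simp [h1, ha, h2.symm])
  intro z hz
  simp at hz
  rcases hz with rfl | rfl
  · exact hA.out z hi₁
  · obtain ⟨h3, h4, h5⟩ := hB.out z hi'
    exact ⟨h4, h3, h5⟩

lemma count_arith {a k iA iB yA yB sA sB eA eB : ℕ} (h4 : 4 ≤ a) (h8 : 8 ≤ k) (hcA : a ≤ iA + 1)
    (hcB : a ≤ iB + 1) (hA1 : yA ≤ a * sA) (hB1 : yB ≤ a * sB)
    (hA2 : k * iA + 1 ≤ yA + iA + eA) (hB2 : k * iB + 1 ≤ yB + iB + eB)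
    (he : eA + eB ≤ 2 * a + 3) (hs : a * sA + a * sB ≤ a * k) : False := by
  obtain ⟨k, rfl⟩ : ∃ k', k = k' + 1 := ⟨k - 1, by omega⟩
  have h1 : k * a ≤ k * iA + k := by nlinarith
  have h2 : k * a ≤ k * iB + k := by nlinarith
  nlinarith [Nat.mul_le_mul (show 1 ≤ k - 6 by omega) h4]

/-- The counting contradiction. -/
lemma Pair.count (h : Pair G S K T m) (hm : 9 ≤ m) (hnc : ¬ HasCyc G m)
    (hS : Crit G S (m - 1)) (ha : aNum G S + 1 ≤ m) (hcore : CoreSpec G m)
    (hflex : FlexSpec G m) (hNC : NoConn G K T g KA TB) (hA : Side G S K T g KA IA)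
    (hB : Side G S T K g TB IB)
    (hhit : (hit G (K ∪ T ∪ g) IA).card + (hit G (K ∪ T ∪ g) IB).card ≤ 2 * K.card + 3) :
    False := by
  classical
  have hbig := h.big
  have hsum : (K ∪ T ∪ g) = (T ∪ K ∪ g) := by rw [union_comm K T]
  have hA1 := beyond_le hnc (by omega) hcore hflex h.subK h.cliqueK hbig h.max hA
  have hB1 := beyond_le hnc (by have := h.card_eq; omega) hcore hflex h.subT
    h.cliqueT h.symm.big h.symm.max hB
  rw [← hsum, h.card_eq] at hB1
  set W := K ∪ T ∪ g with hW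
  have hcA := hA.card
  have hcB := hB.card
  rw [h.card_eq] at hcB
  have hA2 := beyond_card (W := W) hS hA.sub hA.indep (card_pos.1 (by omega))
  have hB2 := beyond_card (W := W) hS hB.sub hB.indep (card_pos.1 (by omega))
  have hout : ∀ z, z ∉ W → z ∉ K ∧ z ∉ T ∧ z ∉ g := fun z hz => by
    simp only [hW, mem_union, not_or] at hz
    exact ⟨hz.1.1, hz.1.2, hz.2⟩
  have hadd : aNum G (beyond G S W IA) + aNum G (beyond G S W IB) ≤ aNum G S := by
    refine aNum_add_le (fun z hz => (mem_beyond hz).1) (fun z hz => (mem_beyond hz).1) ?_ ?_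
    · refine disjoint_left.2 fun y hy hy' => ?_
      obtain ⟨-, hy1, hyW, i, hi, hiy⟩ := mem_beyond hy
      obtain ⟨-, hy2, -, i', hi', hiy'⟩ := mem_beyond hy'
      obtain ⟨v, hv, h1⟩ := hA.root i hi
      obtain ⟨x, hx, h2⟩ := hB.root i' hi'
      have hii : i ≠ i' := fun e => hNC.side_disjoint hA hB hi (e ▸ hi')
      refine hNC v hv x hx [i, y, i'] (by simp) (by simp)
        (by simp [hiy.ne, hii, hiy'.ne.symm]) ?_ (by simp [h1, hiy, hiy'.symm, h2.symm])
      intro z hz
      simp at hz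
      rcases hz with rfl | rfl | rfl
      · exact hA.out z hi
      · exact hout z hyW
      · obtain ⟨p1, p2, p3⟩ := hB.out z hi'
        exact ⟨p2, p1, p3⟩
    · intro y hy y' hy' hyy
      obtain ⟨-, hy1, hyW, i, hi, hiy⟩ := mem_beyond hy
      obtain ⟨-, hy2, hyW', i', hi', hiy'⟩ := mem_beyond hy'
      obtain ⟨v, hv, h1⟩ := hA.root i hi
      obtain ⟨x, hx, h2⟩ := hB.root i' hi'
      have hii : i ≠ i' := fun e => hNC.side_disjoint hA hB hi (e ▸ hi')
      have hyi' : y ≠ i' := fun e => hNC.beyond_side hA hB hy (e ▸ hi')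
      have hy'' : y' ∈ beyond G S (T ∪ K ∪ g) IB := by rw [← hsum]; exact hy'
      have hiy2 : i ≠ y' := fun e => hNC.symm.beyond_side hB hA hy'' (e ▸ hi)
      refine hNC v hv x hx [i, y, y', i'] (by simp) (by simp)
        (by simp [hiy.ne, hii, hiy2, hyy.ne, hyi', hiy'.ne.symm]) ?_
        (by simp [h1, hiy, hyy, hiy'.symm, h2.symm])
      intro z hz
      simp at hz
      rcases hz with rfl | rfl | rfl | rfl
      · exact hA.out z hi
      · exact hout z hyW
      · exact hout z hyW'
      · obtain ⟨p1, p2, p3⟩ := hB.out z hi'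
        exact ⟨p2, p1, p3⟩
  have hsumα : K.card * (aNum G (beyond G S W IA) + aNum G (beyond G S W IB)) ≤
      K.card * (m - 1) := Nat.mul_le_mul_left _ (by omega)
  have hK4 : 4 ≤ K.card := by omega
  rw [Nat.mul_add] at hsumα
  exact count_arith (k := m - 1) hK4 (by omega) hcA hcB hA1 hB1 hA2 hB2 hhit hsumα

/-! ### The cases -/

omit [DecidableEq V] in
/-- What the hit set can contain. -/
lemma hit_card_le {W X I : Finset V} (h : ∀ z ∈ hit G W I, z ∈ X) : (hit G W I).card ≤ X.card :=
  card_le_card h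

omit [DecidableEq V] in
lemma mem_hit {W I : Finset V} {z : V} (h : z ∈ hit G W I) : z ∈ W ∧ ∃ i ∈ I, G.Adj i z := by
  simpa [hit] using h

omit [DecidableEq V] in
/-- An exit of the first side sees only the vertices of `T` outside `TB`. -/
lemma NoConn.not_hit (hNC : NoConn G K T g KA TB) (hA : Side G S K T g KA IA) {z : V}
    (hz : z ∈ TB) {i : V} (hi : i ∈ IA) : ¬ G.Adj i z := by
  intro hiz
  obtain ⟨v, hv, h1⟩ := hA.root i hi
  exact hNC v hv z hz [i] (by simp) (by simp) (by simp) (by simpa using hA.out i hi)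
    (by simp [h1, hiz])

/-- The exits of a clique that avoid a vertex `j` outside it. -/
lemma exists_side (hnc : ¬ HasCyc G m) (hexit : ExitSpec G m) (havoid : AvoidSpec G m)
    (hS : MinDeg G S (m - 1)) (hKS : K ⊆ S) (hK : G.IsClique (K : Set V)) (hbig : m / 2 ≤ K.card)
    {j u : V} (hu : u ∈ K) (hju : G.Adj u j)
    (hedge : ∀ v ∈ K, ∀ x ∈ T, G.Adj v x → x = j) :
    ∃ KA IA, Side G S K T {j} KA IA ∧ K \ KA ⊆ {u} ∧
      ∀ v ∈ KA, ∃ u' ∈ K, u' ≠ v ∧ G.Adj u' j := by
  classical
  by_cases h2 : ∃ u' ∈ K, u' ≠ u ∧ G.Adj u' j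
  · obtain ⟨u', hu', hne, hu'j⟩ := h2
    obtain ⟨I, hI, hIi, hIc⟩ := exists_max_indep (G := G) (nbrOut G S K K)
    have hmem : ∀ i ∈ I.erase j, i ∈ S ∧ i ∉ K ∧ i ≠ j ∧ ∃ v ∈ K, G.Adj v i := by
      intro i hi
      obtain ⟨hij, hi⟩ := mem_erase.1 hi
      have := hI hi
      simp [nbrOut] at this
      exact ⟨this.1.1, this.1.2, hij, this.2⟩
    refine ⟨K, I.erase j, ⟨fun i hi => (hmem i hi).1, ?_, hIi.mono (by exact_mod_cast erase_subset j I),
      fun i hi => (hmem i hi).2.2.2, subset_rfl, ?_⟩, by simp, fun v hv => ?_⟩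
    · intro i hi
      obtain ⟨-, h1, h2, v, hv, hvi⟩ := hmem i hi
      exact ⟨h1, fun hT => h2 (hedge v hv i hT hvi), by simpa using h2⟩
    · have h1 := hexit hnc S K hS hKS hK hbig
      have h2 := Finset.pred_card_le_card_erase (a := j) (s := I)
      omega
    · by_cases e : u = v
      · exact ⟨u', hu', e ▸ hne, hu'j⟩
      · exact ⟨u, hu, e, hju⟩
  · push Not at h2
    obtain ⟨I, hI, hIi, hIc⟩ := exists_max_indep (G := G) (nbrOut G S K (K.erase u))
    have hmem : ∀ i ∈ I, i ∈ S ∧ i ∉ K ∧ i ≠ j ∧ ∃ v ∈ K.erase u, G.Adj v i := by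
      intro i hi
      have := hI hi
      simp only [nbrOut, mem_filter, mem_sdiff] at this
      obtain ⟨⟨h1, h1'⟩, v, hv, hvi⟩ := this
      refine ⟨h1, h1', fun e => ?_, v, hv, hvi⟩
      obtain ⟨hvu, hvK⟩ := mem_erase.1 hv
      exact h2 v hvK hvu (e ▸ hvi)
    refine ⟨K.erase u, I, ⟨fun i hi => (hmem i hi).1, ?_, hIi, fun i hi => (hmem i hi).2.2.2,
      erase_subset u K, ?_⟩, ?_, fun v hv => ⟨u, hu, (mem_erase.1 hv).1.symm, hju⟩⟩
    · intro i hi
      obtain ⟨-, h1, h3, v, hv, hvi⟩ := hmem i hi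
      exact ⟨h1, fun hT => h3 (hedge v (mem_erase.1 hv).2 i hT hvi), by simpa using h3⟩
    · have h1 := havoid hnc S K hS hKS hK hbig u hu
      omega
    · intro z hz
      simp [mem_sdiff] at hz ⊢
      by_contra hne
      exact (hz.2 hne) hz.1

lemma card_union_single_le {A : Finset V} {z : V} : (A ∪ {z}).card ≤ A.card + 1 :=
  (card_union_le _ _).trans (by simp)

/-- All edges between the cliques pass through `u`. -/
lemma Pair.case_star (h : Pair G S K T m) (hm : 9 ≤ m) (hnc : ¬ HasCyc G m)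
    (hS : Crit G S (m - 1)) (ha : aNum G S + 1 ≤ m) (hcore : CoreSpec G m)
    (hflex : FlexSpec G m) (hexit : ExitSpec G m) (havoid : AvoidSpec G m) {u t : V}
    (hu : u ∈ K) (ht : t ∈ T) (hut : G.Adj u t)
    (hall : ∀ v ∈ K, ∀ x ∈ T, G.Adj v x → v = u) : False := by
  classical
  have hbig := h.big
  obtain ⟨TB, IB, hB, hTB, hflexB⟩ := exists_side (T := K) hnc hexit havoid hS.minDeg h.subT
    h.cliqueT h.symm.big ht hut.symm (fun x hx v hv hxv => hall v hv x hx hxv.symm)
  have hB' : Side G S T K ∅ TB IB :=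
    ⟨hB.sub, fun i hi => ⟨(hB.out i hi).1, (hB.out i hi).2.1, by simp⟩, hB.indep, hB.root,
      hB.subKA, hB.card⟩
  obtain ⟨I, hI, hIi, hIc⟩ := exists_max_indep (G := G) (nbrOut G S K (K.erase u))
  have hmem : ∀ i ∈ I, i ∈ S ∧ i ∉ K ∧ ∃ v ∈ K.erase u, G.Adj v i := by
    intro i hi
    have := hI hi
    simp only [nbrOut, mem_filter, mem_sdiff] at this
    exact ⟨this.1.1, this.1.2, this.2⟩
  have hA : Side G S K T ∅ (K.erase u) I := by
    refine ⟨fun i hi => (hmem i hi).1, fun i hi => ⟨(hmem i hi).2.1, ?_, by simp⟩, hIi,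
      fun i hi => (hmem i hi).2.2, erase_subset u K, ?_⟩
    · intro hT
      obtain ⟨v, hv, hvi⟩ := (hmem i hi).2.2
      exact (mem_erase.1 hv).1 (hall v (mem_erase.1 hv).2 i hT hvi)
    · have h1 := havoid hnc S K hS.minDeg h.subK h.cliqueK h.big u hu
      omega
  have hNC : NoConn G K T ∅ (K.erase u) TB := by
    intro v hv x hx M hne hlen hnd hout hch
    obtain ⟨y, hy, hyx, hyu⟩ := hflexB x hx
    exact hnc (h.cyc_two (N := []) hu (mem_erase.1 hv).2 (mem_erase.1 hv).1.symm
      (hB.subKA hx) hy hyx.symm hnd List.nodup_nil (by simp)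
      (fun z hz => ⟨(hout z hz).1, (hout z hz).2.1⟩) (by simp) hch (by simpa using hyu)
      (by simp; omega) (by
        have := List.length_pos_of_ne_nil hne
        simp; omega))
  refine h.count hm hnc hS ha hcore hflex hNC hA hB' ?_
  have e1 : (hit G (K ∪ T ∪ ∅) I).card ≤ K.card + 1 := by
    refine le_trans (hit_card_le (X := K ∪ {t}) fun z hz => ?_) card_union_single_le
    obtain ⟨hzW, i, hi, hiz⟩ := mem_hit hz
    simp at hzW ⊢
    rcases hzW with hz | hz
    · exact Or.inr hz
    · refine Or.inl (by_contra fun hne => hNC.not_hit hA ?_ hi hiz)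
      by_contra hzB
      have := hTB (mem_sdiff.2 ⟨hz, hzB⟩)
      simp at this
      exact hne this
  have e2 : (hit G (K ∪ T ∪ ∅) IB).card ≤ K.card + 1 := by
    refine le_trans (hit_card_le (X := T ∪ {u}) fun z hz => ?_)
      (h.card_eq ▸ card_union_single_le)
    obtain ⟨hzW, i, hi, hiz⟩ := mem_hit hz
    simp at hzW ⊢
    rcases hzW with hz | hz
    · exact Or.inl (by_contra fun hne =>
        hNC.symm.not_hit hB' (mem_erase.2 ⟨hne, hz⟩) hi hiz)
    · exact Or.inr hz
  omega

/-- One exit for each member of `K` other than `u`, next to two disjoint edges. -/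
lemma Pair.exists_groups (h : Pair G S K T m) (hm : 9 ≤ m) (hnc : ¬ HasCyc G m)
    (hdeg : MinDeg G S (m - 1)) (h2a : m = 2 * K.card + 1) {u v t y : V} (hu : u ∈ K)
    (hv : v ∈ K) (huv : u ≠ v) (ht : t ∈ T) (hy : y ∈ T) (hty : t ≠ y) (hut : G.Adj u t)
    (hvy : G.Adj v y) :
    ∃ I, Side G S K T ∅ (K.erase u) I := by
  classical
  have hex : ∀ p ∈ K, ∃ z, z ∈ S ∧ z ∉ K ∧ z ∉ T ∧ G.Adj p z := by
    intro p hp
    obtain ⟨N, hN, hNc, hNa⟩ := hdeg p (h.subK hp)
    by_contra hno
    push Not at hno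
    have hsub : N ⊆ (K ∪ T).erase p := fun z hz => mem_erase.2 ⟨(hNa z hz).ne.symm, by
      by_contra hz'
      simp only [mem_union, not_or] at hz'
      exact hno z (hN hz) hz'.1 hz'.2 (hNa z hz)⟩
    have := card_le_card hsub
    rw [card_erase_of_mem (mem_union_left _ hp), card_union_of_disjoint h.disj, h.card_eq] at this
    omega
  choose! g hgS hgK hgT hgA using hex
  have hfar : ∀ p ∈ K, ∀ q ∈ K, p ≠ u → q ≠ u → p ≠ q → g p ≠ g q ∧ ¬ G.Adj (g p) (g q) := by
    have key : ∀ p ∈ K, ∀ q ∈ K, p ≠ u → q ≠ u → p ≠ q → p ≠ v →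
        g p ≠ g q ∧ ¬ G.Adj (g p) (g q) := by
      intro p hp q hq hpu hqu hpq hpv
      refine ⟨fun e => hnc ?_, fun e => hnc ?_⟩
      · exact h.cyc_insert hu hv huv ht hy hty hut hvy hp hq hpu hqu hpq hpv (M := [g p])
          (by simp) (by simpa using ⟨hgK p hp, hgT p hp⟩)
          (by simp [hgA p hp, e ▸ (hgA q hq).symm]) (by simp; omega) (by simp; omega)
      · refine h.cyc_insert hu hv huv ht hy hty hut hvy hp hq hpu hqu hpq hpv (M := [g p, g q])
          (by simp [e.ne]) ?_ (by simp [hgA p hp, e, (hgA q hq).symm])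
          (by simp; omega) (by simp; omega)
        intro z hz
        simp at hz
        rcases hz with rfl | rfl
        exacts [⟨hgK p hp, hgT p hp⟩, ⟨hgK q hq, hgT q hq⟩]
    intro p hp q hq hpu hqu hpq
    by_cases hpv : p = v
    · obtain ⟨h1, h2⟩ := key q hq p hp hqu hpu hpq.symm (fun e => hpq (hpv.trans e.symm))
      exact ⟨h1.symm, fun e => h2 e.symm⟩
    · exact key p hp q hq hpu hqu hpq hpv
  refine ⟨(K.erase u).image g, ⟨?_, ?_, ?_, ?_, erase_subset u K, ?_⟩⟩
  · simp only [Finset.subset_iff, mem_image, mem_erase]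
    rintro _ ⟨p, ⟨-, hp⟩, rfl⟩
    exact hgS p hp
  · simp only [mem_image, mem_erase]
    rintro _ ⟨p, ⟨-, hp⟩, rfl⟩
    exact ⟨hgK p hp, hgT p hp, by simp⟩
  · rintro a ha b hb hab
    simp only [coe_image, Set.mem_image, mem_coe, mem_erase] at ha hb
    obtain ⟨p, ⟨hpu, hp⟩, rfl⟩ := ha
    obtain ⟨q, ⟨hqu, hq⟩, rfl⟩ := hb
    exact (hfar p hp q hq hpu hqu fun e => hab (e ▸ rfl)).2
  · simp only [mem_image]
    rintro _ ⟨p, hp, rfl⟩
    exact ⟨p, hp, hgA p (mem_erase.1 hp).2⟩
  · rw [card_image_of_injOn, card_erase_add_one hu]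
    intro p hp q hq e
    simp only [mem_coe, mem_erase] at hp hq
    by_contra hne
    exact (hfar p hp.2 q hq.2 hp.1 hq.1 hne).1 e

/-- Two disjoint edges between the cliques. -/
lemma Pair.case_two (h : Pair G S K T m) (hm : 9 ≤ m) (hnc : ¬ HasCyc G m)
    (hS : Crit G S (m - 1)) (ha : aNum G S + 1 ≤ m) (hcore : CoreSpec G m)
    (hflex : FlexSpec G m) {u v t y : V} (hu : u ∈ K) (hv : v ∈ K) (huv : u ≠ v) (ht : t ∈ T)
    (hy : y ∈ T) (hty : t ≠ y) (hut : G.Adj u t) (hvy : G.Adj v y) : False := by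
  classical
  have hbig := h.big
  have h2a : m = 2 * K.card + 1 := by
    by_contra hne
    exact hnc (h.cyc_two (M := []) (N := []) hu hv huv hy ht hty.symm List.nodup_nil
      List.nodup_nil (by simp) (by simp) (by simp) (by simpa using hvy) (by simpa using hut.symm)
      (by simp; omega) (by simp; omega))
  obtain ⟨IA, hA⟩ := h.exists_groups hm hnc hS.minDeg h2a hu hv huv ht hy hty hut hvy
  obtain ⟨IB, hB⟩ := h.symm.exists_groups hm hnc hS.minDeg (h.card_eq ▸ h2a) ht hy hty hu hv huv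
    hut.symm hvy.symm
  have hNC : NoConn G K T ∅ (K.erase u) (T.erase t) := by
    intro p hp x hx M hne hlen hnd hout hch
    exact hnc (h.cyc_two (N := []) hu (mem_erase.1 hp).2 (mem_erase.1 hp).1.symm
      (mem_erase.1 hx).2 ht (mem_erase.1 hx).1 hnd List.nodup_nil (by simp)
      (fun z hz => ⟨(hout z hz).1, (hout z hz).2.1⟩) (by simp) hch (by simpa using hut.symm)
      (by simp; omega) (by
        have := List.length_pos_of_ne_nil hne
        simp; omega))
  refine h.count hm hnc hS ha hcore hflex hNC hA hB ?_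
  have e1 : (hit G (K ∪ T ∪ ∅) IA).card ≤ K.card + 1 := by
    refine le_trans (hit_card_le (X := K ∪ {t}) fun z hz => ?_) card_union_single_le
    obtain ⟨hzW, i, hi, hiz⟩ := mem_hit hz
    simp at hzW ⊢
    rcases hzW with hz | hz
    · exact Or.inr hz
    · exact Or.inl (by_contra fun hne => hNC.not_hit hA (mem_erase.2 ⟨hne, hz⟩) hi hiz)
  have e2 : (hit G (K ∪ T ∪ ∅) IB).card ≤ K.card + 1 := by
    refine le_trans (hit_card_le (X := T ∪ {u}) fun z hz => ?_)
      (h.card_eq ▸ card_union_single_le)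
    obtain ⟨hzW, i, hi, hiz⟩ := mem_hit hz
    simp at hzW ⊢
    rcases hzW with hz | hz
    · exact Or.inl (by_contra fun hne => hNC.symm.not_hit hB (mem_erase.2 ⟨hne, hz⟩) hi hiz)
    · exact Or.inr hz
  omega

/-- No edge between the cliques, one common neighbour. -/
lemma Pair.case_none (h : Pair G S K T m) (hm : 9 ≤ m) (hnc : ¬ HasCyc G m)
    (hS : Crit G S (m - 1)) (ha : aNum G S + 1 ≤ m) (hcore : CoreSpec G m)
    (hflex : FlexSpec G m) (hexit : ExitSpec G m) (havoid : AvoidSpec G m)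
    (hno : ∀ v ∈ K, ∀ x ∈ T, ¬ G.Adj v x) {u y j : V} (hu : u ∈ K) (hy : y ∈ T)
    (hjK : j ∉ K) (hjT : j ∉ T) (huj : G.Adj u j) (hyj : G.Adj y j) : False := by
  classical
  have hbig := h.big
  obtain ⟨KA, IA, hA, hKA, hfA⟩ := exists_side (T := T) hnc hexit havoid hS.minDeg h.subK
    h.cliqueK h.big hu huj (fun v hv x hx hvx => absurd hvx (hno v hv x hx))
  obtain ⟨TB, IB, hB, hTB, hfB⟩ := exists_side (T := K) hnc hexit havoid hS.minDeg h.subT
    h.cliqueT h.symm.big hy hyj (fun x hx v hv hxv => absurd hxv.symm (hno v hv x hx))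
  have hNC : NoConn G K T {j} KA TB := by
    intro v hv x hx M hne hlen hnd hout hch
    obtain ⟨u', hu', huv, hu'j⟩ := hfA v hv
    obtain ⟨y', hy', hyx, hy'j⟩ := hfB x hx
    exact hnc (h.cyc_two (N := [j]) hu' (hA.subKA hv) huv (hB.subKA hx) hy' hyx.symm hnd
      (by simp) (fun z hz => by simpa using (hout z hz).2.2)
      (fun z hz => ⟨(hout z hz).1, (hout z hz).2.1⟩) (by simpa using ⟨hjK, hjT⟩) hch
      (by simp [hy'j, hu'j.symm]) (by simp; omega) (by
        have := List.length_pos_of_ne_nil hne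
        simp; omega))
  refine h.count hm hnc hS ha hcore hflex hNC hA hB ?_
  -- the possible vertices of the opposite clique next to the exits
  have kA : ∀ z ∈ T, ∀ i ∈ IA, G.Adj i z → z = y ∧ y ∉ TB := by
    intro z hz i hi hiz
    have hzB : z ∉ TB := fun h' => hNC.not_hit hA h' hi hiz
    have e : z = y := by simpa using hTB (mem_sdiff.2 ⟨hz, hzB⟩)
    exact ⟨e, e ▸ hzB⟩
  have kB : ∀ z ∈ K, ∀ i ∈ IB, G.Adj i z → z = u ∧ u ∉ KA := by
    intro z hz i hi hiz
    have hzA : z ∉ KA := fun h' => hNC.symm.not_hit hB h' hi hiz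
    have e : z = u := by simpa using hKA (mem_sdiff.2 ⟨hz, hzA⟩)
    exact ⟨e, e ▸ hzA⟩
  have hone : (∀ i ∈ IA, ¬ G.Adj i y) ∨ (∀ i ∈ IB, ¬ G.Adj i u) := by
    by_contra hboth
    push Not at hboth
    obtain ⟨⟨i, hi, hiy⟩, i', hi', hiu⟩ := hboth
    obtain ⟨v, hv, hvi⟩ := hA.root i hi
    obtain ⟨x, hx, hxi⟩ := hB.root i' hi'
    have hvu : u ≠ v := fun e => (kB u hu i' hi' hiu).2 (e ▸ hv)
    have hxy : y ≠ x := fun e => (kA y hy i hi hiy).2 (e ▸ hx)
    have hii : i ≠ i' := fun e => hNC.side_disjoint hA hB hi (e ▸ hi')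
    exact hnc (h.cyc_two (M := [i]) (N := [i']) hu (hA.subKA hv) hvu hy (hB.subKA hx) hxy
      (by simp) (by simp) (by simpa using hii)
      (by simpa using ⟨(hA.out i hi).1, (hA.out i hi).2.1⟩)
      (by simpa using ⟨(hB.out i' hi').2.1, (hB.out i' hi').1⟩) (by simp [hvi, hiy])
      (by simp [hxi, hiu]) (by simp; omega) (by simp; omega))
  rcases hone with hone | hone
  · have e1 : (hit G (K ∪ T ∪ {j}) IA).card ≤ K.card + 1 := by
      refine le_trans (hit_card_le (X := K ∪ {j}) fun z hz => ?_) card_union_single_le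
      obtain ⟨hzW, i, hi, hiz⟩ := mem_hit hz
      simp only [mem_union, mem_singleton, or_assoc] at hzW ⊢
      rcases hzW with hz | hz | hz
      · exact Or.inl hz
      · obtain ⟨rfl, -⟩ := kA z hz i hi hiz
        exact absurd hiz (hone i hi)
      · exact Or.inr hz
    have e2 : (hit G (K ∪ T ∪ {j}) IB).card ≤ K.card + 2 := by
      refine le_trans (hit_card_le (X := T ∪ {u} ∪ {j}) fun z hz => ?_)
        (card_union_single_le.trans (Nat.add_le_add_right (h.card_eq ▸ card_union_single_le) 1))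
      obtain ⟨hzW, i, hi, hiz⟩ := mem_hit hz
      simp only [mem_union, mem_singleton, or_assoc] at hzW ⊢
      rcases hzW with hz | hz | hz
      · exact Or.inr (Or.inl (kB z hz i hi hiz).1)
      · exact Or.inl hz
      · exact Or.inr (Or.inr hz)
    omega
  · have e1 : (hit G (K ∪ T ∪ {j}) IA).card ≤ K.card + 2 := by
      refine le_trans (hit_card_le (X := K ∪ {y} ∪ {j}) fun z hz => ?_)
        (card_union_single_le.trans (Nat.add_le_add_right card_union_single_le 1))
      obtain ⟨hzW, i, hi, hiz⟩ := mem_hit hz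
      simp only [mem_union, mem_singleton, or_assoc] at hzW ⊢
      rcases hzW with hz | hz | hz
      · exact Or.inl hz
      · exact Or.inr (Or.inl (kA z hz i hi hiz).1)
      · exact Or.inr (Or.inr hz)
    have e2 : (hit G (K ∪ T ∪ {j}) IB).card ≤ K.card + 1 := by
      refine le_trans (hit_card_le (X := T ∪ {j}) fun z hz => ?_)
        (h.card_eq ▸ card_union_single_le)
      obtain ⟨hzW, i, hi, hiz⟩ := mem_hit hz
      simp only [mem_union, mem_singleton, or_assoc] at hzW ⊢
      rcases hzW with hz | hz | hz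
      · obtain ⟨rfl, -⟩ := kB z hz i hi hiz
        exact absurd hiz (hone i hi)
      · exact Or.inl hz
      · exact Or.inr hz
    omega

/-- `TwinSpec`. -/
theorem twinSpec (hm : 9 ≤ m) (hcore : CoreSpec G m) (hflex : FlexSpec G m)
    (hexit : ExitSpec G m) (havoid : AvoidSpec G m) : TwinSpec G m := by
  classical
  intro hnc S K J W T hS ha hT hbig hmax hTc hTK
  have hle := hmax T hT.subT hTc
  have hdT := hT.disjT
  have h : Pair G S K T m :=
    ⟨hT.subK, hT.subT, hT.clique, hTc,
      disjoint_left.2 fun z hz hz' => disjoint_left.1 hdT hz'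
        (mem_union_left _ (mem_union_left _ hz)), by omega, hbig, hmax⟩
  -- a label in `J`
  obtain ⟨y, hy, j, hj, hjy⟩ : ∃ y ∈ T, ∃ j ∈ J, G.Adj j y := by
    by_contra hno
    push Not at hno
    obtain ⟨y₀, hy₀⟩ : T.Nonempty := card_pos.1 (by omega)
    obtain ⟨w, hw, -⟩ := (hT.cover y₀ hy₀).resolve_left (fun ⟨j, hj, hjy⟩ => hno y₀ hy₀ j hj hjy)
    have hwT : w ∉ T := fun h' => disjoint_left.1 hdT h' (mem_union_right _ hw)
    have hcl : G.IsClique ((insert w T : Finset V) : Set V) := by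
      rw [coe_insert, SimpleGraph.isClique_insert]
      refine ⟨hTc, fun z hz _ => ?_⟩
      obtain ⟨w', hw', hadj⟩ :=
        (hT.cover z (by exact_mod_cast hz)).resolve_left
          (fun ⟨j, hj, hjy⟩ => hno z (by exact_mod_cast hz) j hj hjy)
      obtain rfl : w' = w := card_le_one.1 hT.single w' hw' w hw
      exact hadj
    have := hmax (insert w T) (insert_subset (hT.subW hw) hT.subT) hcl
    rw [card_insert_of_notMem hwT] at this
    omega
  obtain ⟨u₁, hu₁, hu₁j⟩ := hT.root j hj
  have hjK : j ∉ K := fun h' => disjoint_left.1 hT.disjKJ h' hj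
  have hjT : j ∉ T := fun h' =>
    disjoint_left.1 hdT h' (mem_union_left _ (mem_union_right _ hj))
  by_cases hedge : ∃ v ∈ K, ∃ x ∈ T, G.Adj v x
  swap
  · push Not at hedge
    exact h.case_none hm hnc hS ha hcore hflex hexit havoid hedge hu₁ hy hjK hjT hu₁j hjy.symm
  obtain ⟨u, hu, t, ht, hut⟩ := hedge
  by_cases hall : ∀ v ∈ K, ∀ x ∈ T, G.Adj v x → v = u
  · exact h.case_star hm hnc hS ha hcore hflex hexit havoid hu ht hut hall
  push Not at hall
  obtain ⟨v, hv, x, hx, hvx, hne⟩ := hall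
  by_cases hxt : t = x
  swap
  · exact h.case_two hm hnc hS ha hcore hflex hu hv hne.symm ht hx hxt hut hvx
  subst hxt
  by_cases hall' : ∀ z ∈ T, ∀ p ∈ K, G.Adj z p → z = t
  · exact h.symm.case_star hm hnc hS ha hcore hflex hexit havoid ht hu hut.symm hall'
  push Not at hall'
  obtain ⟨z, hz, p, hp, hzp, hzt⟩ := hall'
  by_cases hpu : p = u
  · subst hpu
    exact h.case_two hm hnc hS ha hcore hflex hv hu hne ht hz hzt.symm hvx hzp.symm
  · exact h.case_two hm hnc hS ha hcore hflex hu hp (Ne.symm hpu) ht hz hzt.symm hut hzp.symm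

end Vale.Agent.P048.Full
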