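import Vale.Agent.P048.Full.TwinEight
import Vale.Agent.P048.Full.Avoid
import Vale.Agent.P048.Full.Main

/-!
Twin cliques are impossible for every cycle length from eight on.
-/

namespace Vale.Agent.P048.Full

variable {V : Type*} [DecidableEq V] {G : SimpleGraph V}

/-- `TwinSpec` for every `8 ≤ m`. -/
theorem twinSpec_general {m : ℕ} (hm : 8 ≤ m) : TwinSpec G m := by
  rcases Nat.lt_or_ge m 9 with h | h
  · obtain rfl : m = 8 := by omega
    exact twinSpec_eight (coreSpec (by omega)) (flexSpec_general le_rfl) (exitSpec le_rfl)
      (avoidSpec (by omega))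
  · exact twinSpec h (coreSpec (by omega)) (flexSpec_general (by omega)) (exitSpec (by omega))
      (avoidSpec (by omega))

end Vale.Agent.P048.Full
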