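import Vale.Agent.P048.Full.Twin

/-!
Twin cliques for cycles of length eight.

An edge between two maximum cliques is impossible by the count of the neighbourhoods of their
exits. Without edges, two links are shared at both ends, and then either the exits give eight
independent vertices, or they leave three further vertices that form, with a link, a maximum
clique joined by an edge to the first one.
-/

namespace Vale.Agent.P048.Full

open Finset

variable {V : Type*} [DecidableEq V] {G : SimpleGraph V} {S K T g KA TB IA IB : Finset V}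

/-- Everything assumed on the graph. -/
structure EightData (G : SimpleGraph V) (S : Finset V) : Prop where
  nc : ¬ HasCyc G 8
  crit : Crit G S 7
  alpha : aNum G S ≤ 7
  core : CoreSpec G 8
  flex : FlexSpec G 8
  exit : ExitSpec G 8
  avoid : AvoidSpec G 8

omit [DecidableEq V] in
lemma mem_exits {R : Finset V} {v : V} :
    v ∈ nbrOut G S K R ↔ (v ∈ S ∧ v ∉ K) ∧ ∃ w ∈ R, G.Adj w v := by
  simp [nbrOut]

omit [DecidableEq V] in
lemma chain_rev {v x : V} {M : List V} (h : (v :: (M ++ [x])).IsChain G.Adj) :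
    (x :: (M.reverse ++ [v])).IsChain G.Adj := by
  have e : x :: (M.reverse ++ [v]) = (v :: (M ++ [x])).reverse := by simp
  rw [e, List.isChain_reverse]
  exact h.imp fun _ _ hab => hab.symm

/-! ### An edge between the cliques -/

/-- The sets beyond two separated sides add up. -/
lemma NoConn.beyond_add (hNC : NoConn G K T g KA TB) (hA : Side G S K T g KA IA)
    (hB : Side G S T K g TB IB) :
    aNum G (beyond G S (K ∪ T ∪ g) IA) + aNum G (beyond G S (K ∪ T ∪ g) IB) ≤ aNum G S := by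
  classical
  set W := K ∪ T ∪ g with hW
  have hout : ∀ z, z ∉ W → z ∉ K ∧ z ∉ T ∧ z ∉ g := fun z hz => by
    simp only [hW, mem_union, not_or] at hz
    exact ⟨hz.1.1, hz.1.2, hz.2⟩
  have hsum : W = T ∪ K ∪ g := by rw [hW, union_comm K T]
  refine aNum_add_le (fun z hz => (mem_beyond hz).1) (fun z hz => (mem_beyond hz).1) ?_ ?_
  · refine disjoint_left.2 fun y hy hy' => ?_
    obtain ⟨-, hy1, hyW, i, hi, hiy⟩ := mem_beyond hy
    obtain ⟨-, hy2, -, i', hi', hiy'⟩ := mem_beyond hy'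
    obtain ⟨v, hv, h1⟩ := hA.root i hi
    obtain ⟨x, hx, h2⟩ := hB.root i' hi'
    have hii : i ≠ i' := fun e => hNC.side_disjoint hA hB hi (e ▸ hi')
    refine hNC v hv x hx [i, y, i'] (by simp) (by simp)
      (by simp [hiy.ne, hii, hiy'.ne.symm]) ?_ (by simp [h1, hiy, hiy'.symm, h2.symm])
    intro z hz
    simp at hz
    rcases hz with rfl | rfl | rfl
    · exact hA.out z hi
    · exact hout z hyW
    · obtain ⟨p1, p2, p3⟩ := hB.out z hi'
      exact ⟨p2, p1, p3⟩
  · intro y hy y' hy' hyy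
    obtain ⟨-, hy1, hyW, i, hi, hiy⟩ := mem_beyond hy
    obtain ⟨-, hy2, hyW', i', hi', hiy'⟩ := mem_beyond hy'
    obtain ⟨v, hv, h1⟩ := hA.root i hi
    obtain ⟨x, hx, h2⟩ := hB.root i' hi'
    have hii : i ≠ i' := fun e => hNC.side_disjoint hA hB hi (e ▸ hi')
    have hyi' : y ≠ i' := fun e => hNC.beyond_side hA hB hy (e ▸ hi')
    have hy'' : y' ∈ beyond G S (T ∪ K ∪ g) IB := by rw [← hsum]; exact hy'
    have hiy2 : i ≠ y' := fun e => hNC.symm.beyond_side hB hA hy'' (e ▸ hi)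
    refine hNC v hv x hx [i, y, y', i'] (by simp) (by simp)
      (by simp [hiy.ne, hii, hiy2, hyy.ne, hyi', hiy'.ne.symm]) ?_
      (by simp [h1, hiy, hyy, hiy'.symm, h2.symm])
    intro z hz
    simp at hz
    rcases hz with rfl | rfl | rfl | rfl
    · exact hA.out z hi
    · exact hout z hyW
    · exact hout z hyW'
    · obtain ⟨p1, p2, p3⟩ := hB.out z hi'
      exact ⟨p2, p1, p3⟩

/-- All edges between the cliques pass through `u`. -/
lemma Pair.eight_star (h : Pair G S K T 8) (D : EightData G S) {u t : V}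
    (hu : u ∈ K) (ht : t ∈ T) (hut : G.Adj u t)
    (hall : ∀ v ∈ K, ∀ x ∈ T, G.Adj v x → v = u) : False := by
  classical
  have hbig := h.big
  have hcard := h.card_eq
  obtain ⟨TB, IB, hB₀, hTB, hflexB⟩ := exists_side (T := K) D.nc D.exit D.avoid D.crit.minDeg
    h.subT h.cliqueT h.symm.big ht hut.symm (fun x hx v hv hxv => hall v hv x hx hxv.symm)
  have hB : Side G S T K ∅ TB IB :=
    ⟨hB₀.sub, fun i hi => ⟨(hB₀.out i hi).1, (hB₀.out i hi).2.1, by simp⟩, hB₀.indep, hB₀.root,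
      hB₀.subKA, hB₀.card⟩
  obtain ⟨I, hI, hIi, hIc⟩ := exists_max_indep (G := G) (nbrOut G S K (K.erase u))
  have hmem := fun i (hi : i ∈ I) => mem_exits.1 (hI hi)
  have hA : Side G S K T ∅ (K.erase u) I := by
    refine ⟨fun i hi => (hmem i hi).1.1, fun i hi => ⟨(hmem i hi).1.2, ?_, by simp⟩, hIi,
      fun i hi => (hmem i hi).2, erase_subset u K, ?_⟩
    · intro hT
      obtain ⟨v, hv, hvi⟩ := (hmem i hi).2
      exact (mem_erase.1 hv).1 (hall v (mem_erase.1 hv).2 i hT hvi)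
    · have h1 := D.avoid D.nc S K D.crit.minDeg h.subK h.cliqueK h.big u hu
      omega
  have hNC : NoConn G K T ∅ (K.erase u) TB := by
    intro v hv x hx M hne hlen hnd hout hch
    obtain ⟨y, hy, hyx, hyu⟩ := hflexB x hx
    exact D.nc (h.cyc_two (N := []) hu (mem_erase.1 hv).2 (mem_erase.1 hv).1.symm
      (hB.subKA hx) hy hyx.symm hnd List.nodup_nil (by simp)
      (fun z hz => ⟨(hout z hz).1, (hout z hz).2.1⟩) (by simp) hch (by simpa using hyu)
      (by simp; omega) (by simp; omega))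
  have e1 : (hit G (K ∪ T ∪ ∅) I).card ≤ K.card + 1 := by
    refine le_trans (hit_card_le (X := K ∪ {t}) fun z hz => ?_) card_union_single_le
    obtain ⟨hzW, i, hi, hiz⟩ := mem_hit hz
    simp at hzW ⊢
    rcases hzW with hz | hz
    · exact Or.inr hz
    · refine Or.inl (by_contra fun hne => hNC.not_hit hA ?_ hi hiz)
      by_contra hzB
      have := hTB (mem_sdiff.2 ⟨hz, hzB⟩)
      simp at this
      exact hne this
  have e2 : (hit G (K ∪ T ∪ ∅) IB).card ≤ K.card + 1 := by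
    refine le_trans (hit_card_le (X := T ∪ {u}) fun z hz => ?_)
      (h.card_eq ▸ card_union_single_le)
    obtain ⟨hzW, i, hi, hiz⟩ := mem_hit hz
    simp at hzW ⊢
    rcases hzW with hz | hz
    · exact Or.inl (by_contra fun hne =>
        hNC.symm.not_hit hB (mem_erase.2 ⟨hne, hz⟩) hi hiz)
    · exact Or.inr hz
  have hsum : T ∪ K ∪ ∅ = K ∪ T ∪ ∅ := by rw [union_comm K T]
  have hA1 := beyond_le D.nc (by omega) D.core D.flex h.subK h.cliqueK h.big h.max hA
  have hB1 := beyond_le D.nc (by omega) D.core D.flex h.subT h.cliqueT h.symm.big h.symm.max hB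
  rw [hsum, hcard] at hB1
  have hcA := hA.card
  have hcB := hB.card
  rw [hcard] at hcB
  have hA2 := beyond_card (m := 8) (W := K ∪ T ∪ ∅) D.crit hA.sub hA.indep (card_pos.1 (by omega))
  have hB2 := beyond_card (m := 8) (W := K ∪ T ∪ ∅) D.crit hB.sub hB.indep (card_pos.1 (by omega))
  have hadd := hNC.beyond_add hA hB
  have hα := D.alpha
  have h3A : 3 < aNum G (beyond G S (K ∪ T ∪ ∅) I) := by
    by_contra hle
    have := Nat.mul_le_mul_left K.card (not_lt.1 hle)
    omega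
  have h3B : 3 < aNum G (beyond G S (K ∪ T ∪ ∅) IB) := by
    by_contra hle
    have := Nat.mul_le_mul_left K.card (not_lt.1 hle)
    omega
  omega

/-- Maximum cliques joined by an edge are impossible. -/
lemma Pair.eight_edge (h : Pair G S K T 8) (D : EightData G S) {u t : V}
    (hu : u ∈ K) (ht : t ∈ T) (hut : G.Adj u t) : False := by
  have hbig := h.big
  have htwo : ∀ p ∈ K, ∀ q ∈ K, ∀ x ∈ T, ∀ y ∈ T, p ≠ q → x ≠ y → G.Adj p x → G.Adj q y →
      False := by
    intro p hp q hq x hx y hy hpq hxy hpx hqy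
    exact D.nc (h.cyc_two (M := []) (N := []) hp hq hpq hy hx hxy.symm List.nodup_nil
      List.nodup_nil (by simp) (by simp) (by simp) (by simpa using hqy) (by simpa using hpx.symm)
      (by simp) (by simp; omega))
  by_cases hall : ∀ v ∈ K, ∀ x ∈ T, G.Adj v x → v = u
  · exact h.eight_star D hu ht hut hall
  push Not at hall
  obtain ⟨v, hv, x, hx, hvx, hne⟩ := hall
  by_cases hxt : x = t
  swap
  · exact htwo u hu v hv t ht x hx hne.symm (Ne.symm hxt) hut hvx
  subst hxt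
  refine h.symm.eight_star D ht hu hut.symm fun z hz p hp hzp => ?_
  by_contra hzt
  by_cases hpu : p = u
  · subst hpu
    exact htwo v hv p hp x ht z hz hne (Ne.symm hzt) hvx hzp.symm
  · exact htwo u hu p hp x ht z hz (Ne.symm hpu) (Ne.symm hzt) hut hzp.symm

/-! ### Cycles through a link -/

/-- A connection of two to four inner vertices next to a link closes a cycle of length eight. -/
lemma Pair.cyc_link (h : Pair G S K T 8) {u v x s j : V} (hu : u ∈ K) (hv : v ∈ K)
    (huv : u ≠ v) (hx : x ∈ T) (hs : s ∈ T) (huj : G.Adj u j) (hjs : G.Adj j s) (hjK : j ∉ K)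
    (hjT : j ∉ T) {M : List V} (hM : M.Nodup) (hout : ∀ z ∈ M, z ∉ K ∧ z ∉ T) (hjM : j ∉ M)
    (hch : (v :: (M ++ [x])).IsChain G.Adj) (h2 : 2 ≤ M.length)
    (h4 : M.length ≤ 3 ∨ (M.length ≤ 4 ∧ x = s)) : HasCyc G 8 := by
  have hbig := h.big
  by_cases hxs : x = s
  swap
  · refine h.cyc_two (N := [j]) hu hv huv hx hs hxs hM (List.nodup_singleton j)
      (fun z hz hz' => hjM (List.mem_singleton.1 hz' ▸ hz)) hout (by simp [hjK, hjT]) hch
      (by simp [hjs.symm, huj.symm]) ?_ ?_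
    · rcases h4 with h4 | ⟨-, h4⟩
      · simp; omega
      · exact absurd h4 hxs
    · simp; omega
  subst hxs
  have hlen : M.length ≤ 4 := by rcases h4 with h4 | ⟨h4, -⟩ <;> omega
  obtain ⟨hc, hl⟩ : (x :: M.reverse).IsChain G.Adj ∧
      ∀ b ∈ (x :: M.reverse).getLast?, G.Adj b v := by
    have := chain_rev hch
    rw [← List.cons_append, List.isChain_append] at this
    exact ⟨this.1, fun b hb => this.2.2 b hb v rfl⟩
  obtain ⟨b, hb⟩ : ∃ b, (x :: M.reverse).getLast? = some b :=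
    ⟨_, List.getLast?_eq_some_getLast (by simp)⟩
  refine cyc_closeT h.cliqueK (L := j :: x :: M.reverse) (a := j) (b := b) ?_
    (List.isChain_cons_cons.2 ⟨hjs, hc⟩) ?_ rfl (by rwa [List.getLast?_cons_cons]) hv hu huv.symm
    (hl b hb) huj (by simp; omega) (by simp; omega)
  · simp only [List.nodup_cons, List.mem_cons, List.mem_reverse, List.nodup_reverse, not_or]
    exact ⟨⟨fun e => hjT (e ▸ hs), hjM⟩, fun hh => (hout x hh).2 hs, hM⟩
  · intro z hz
    simp only [List.mem_cons, List.mem_reverse] at hz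
    rcases hz with rfl | rfl | hz
    · exact hjK
    · exact fun hh => disjoint_left.1 h.disj hh hs
    · exact (hout z hz).1

/-- The same, as soon as one of the two ends is not shared. -/
lemma Pair.link_ban (h : Pair G S K T 8) (D : EightData G S) {u v x s j : V} (hu : u ∈ K)
    (hv : v ∈ K) (hx : x ∈ T) (hs : s ∈ T) (huj : G.Adj u j) (hjs : G.Adj j s) (hjK : j ∉ K)
    (hjT : j ∉ T) {M : List V} (hM : M.Nodup) (hout : ∀ z ∈ M, z ∉ K ∧ z ∉ T) (hjM : j ∉ M)
    (hch : (v :: (M ++ [x])).IsChain G.Adj) (h2 : 2 ≤ M.length) (h3 : M.length ≤ 3)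
    (hne : u ≠ v ∨ s ≠ x) : False := by
  rcases hne with hne | hne
  · exact D.nc (h.cyc_link hu hv hne hx hs huj hjs hjK hjT hM hout hjM hch h2 (Or.inl h3))
  · exact D.nc (h.symm.cyc_link hs hx hne hv hu hjs.symm huj.symm hjT hjK
      (List.nodup_reverse.2 hM) (fun z hz => ⟨(hout z (List.mem_reverse.1 hz)).2,
        (hout z (List.mem_reverse.1 hz)).1⟩) (by simpa using hjM) (chain_rev hch)
      (by simpa using h2) (Or.inl (by simpa using h3)))

/-! ### No edge between the cliques -/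

/-- A common neighbour outside both cliques. -/
def Linked (G : SimpleGraph V) (K T : Finset V) (x : V) : Prop :=
  x ∉ K ∧ x ∉ T ∧ (∃ k ∈ K, G.Adj k x) ∧ ∃ t ∈ T, G.Adj t x

omit [DecidableEq V] in
lemma Linked.symm {x : V} (h : Linked G K T x) : Linked G T K x :=
  ⟨h.2.1, h.1, h.2.2.2, h.2.2.1⟩

/-- The cliques have no edge in between. -/
def Apart (G : SimpleGraph V) (K T : Finset V) : Prop :=
  ∀ v ∈ K, ∀ x ∈ T, ¬ G.Adj v x

omit [DecidableEq V] in
lemma Apart.symm (h : Apart G K T) : Apart G T K := fun x hx v hv e => h v hv x hx e.symm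

/-- Two links do not end in two different vertices. -/
lemma Pair.spread (h : Pair G S K T 8) (D : EightData G S) (hno : Apart G K T)
    (h4 : K.card = 4) {x x' t t' : V} (hx : Linked G K T x) (hx' : Linked G K T x')
    (hne : x ≠ x') (ht : t ∈ T) (ht' : t' ∈ T) (htx : G.Adj t x) (htx' : G.Adj t' x') :
    t = t' := by
  classical
  by_contra htt
  obtain ⟨hxK, hxT, ⟨u, hu, hux⟩, -⟩ := hx
  obtain ⟨hx'K, hx'T, ⟨u', hu', hux'⟩, -⟩ := hx'
  have hbig := h.big
  have hroots : ∀ k ∈ K, ∀ k' ∈ K, G.Adj k x → G.Adj k' x' → k = k' := by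
    intro k hk k' hk' h1 h2
    by_contra hkk
    exact D.nc (h.cyc_two (M := [x]) (N := [x']) hk' hk (Ne.symm hkk) ht ht' htt (by simp)
      (by simp) (by simpa using hne) (by simp [hxK, hxT]) (by simp [hx'K, hx'T])
      (by simp [h1, htx.symm]) (by simp [htx', h2.symm]) (by simp) (by simp; omega))
  obtain rfl : u' = u := (hroots u hu u' hu' hux hux').symm
  -- short connections from the other members of `K`
  have hban : ∀ k ∈ K, k ≠ u' → ∀ e ∈ T, ∀ M : List V, M.Nodup →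
      (∀ z ∈ M, z ∉ K ∧ z ∉ T) → (k :: (M ++ [e])).IsChain G.Adj → M.length ≤ 3 →
      ((x ∉ M ∧ e ≠ t) ∨ (x' ∉ M ∧ e ≠ t')) → False := by
    intro k hk hku e he M hM hout hch hlen hor
    rcases hor with ⟨hxM, het⟩ | ⟨hxM, het⟩
    · exact D.nc (h.cyc_two (N := [x]) hu hk hku.symm he ht het hM (by simp)
        (fun z hz hz' => hxM (List.mem_singleton.1 hz' ▸ hz)) hout (by simp [hxK, hxT]) hch
        (by simp [htx, hux.symm]) (by simp; omega) (by simp; omega))
    · exact D.nc (h.cyc_two (N := [x']) hu hk hku.symm he ht' het hM (by simp)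
        (fun z hz hz' => hxM (List.mem_singleton.1 hz' ▸ hz)) hout (by simp [hx'K, hx'T]) hch
        (by simp [htx', hux'.symm]) (by simp; omega) (by simp; omega))
  obtain ⟨A, hA, hAi, hAc⟩ := exists_max_indep (G := G) (nbrOut G S K (K.erase u'))
  have hmem := fun a (ha : a ∈ A) => mem_exits.1 (hA ha)
  have hAT : ∀ a ∈ A, a ∉ T := by
    intro a ha haT
    obtain ⟨k, hk, hka⟩ := (hmem a ha).2
    exact hno k (mem_erase.1 hk).2 a haT hka
  have hAne : ∀ a ∈ A, a ≠ x ∧ a ≠ x' := by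
    intro a ha
    obtain ⟨k, hk, hka⟩ := (hmem a ha).2
    obtain ⟨hku, hkK⟩ := mem_erase.1 hk
    exact ⟨fun e => hku (hroots k hkK u' hu (e ▸ hka) hux'),
      fun e => hku (hroots u' hu k hkK hux (e ▸ hka)).symm⟩
  have hAnT : ∀ a ∈ A, ∀ e ∈ T, ¬ G.Adj a e := by
    intro a ha e he hae
    obtain ⟨k, hk, hka⟩ := (hmem a ha).2
    obtain ⟨hku, hkK⟩ := mem_erase.1 hk
    refine hban k hkK hku e he [a] (by simp) (by simp [(hmem a ha).1.2, hAT a ha])
      (by simp [hka, hae]) (by simp) ?_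
    rcases eq_or_ne e t with rfl | het
    · exact Or.inr ⟨by simp [(hAne a ha).2.symm], htt⟩
    · exact Or.inl ⟨by simp [(hAne a ha).1.symm], het⟩
  have hAnx : ∀ a ∈ A, ¬ G.Adj a x ∧ ¬ G.Adj a x' := by
    intro a ha
    obtain ⟨k, hk, hka⟩ := (hmem a ha).2
    obtain ⟨hku, hkK⟩ := mem_erase.1 hk
    refine ⟨fun e => hban k hkK hku t ht [a, x] (by simp [e.ne]) ?_
      (by simp [hka, e, htx.symm]) (by simp) (Or.inr ⟨?_, htt⟩),
      fun e => hban k hkK hku t' ht' [a, x'] (by simp [e.ne]) ?_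
      (by simp [hka, e, htx'.symm]) (by simp) (Or.inl ⟨?_, Ne.symm htt⟩)⟩
    · simp [(hmem a ha).1.2, hAT a ha, hxK, hxT]
    · simp [(hAne a ha).2.symm, hne.symm]
    · simp [(hmem a ha).1.2, hAT a ha, hx'K, hx'T]
    · simp [(hAne a ha).1.symm, hne]
  have hAs : Side G S K T ∅ (K.erase u') A :=
    ⟨fun a ha => (hmem a ha).1.1, fun a ha => ⟨(hmem a ha).1.2, hAT a ha, by simp⟩, hAi,
      fun a ha => (hmem a ha).2, erase_subset _ _, by
        have := D.avoid D.nc S K D.crit.minDeg h.subK h.cliqueK h.big u' hu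
        omega⟩
  obtain ⟨I, hI, hIi, hIc⟩ := exists_max_indep (G := G) (nbrOut G S T T)
  have hIcard := D.exit D.nc S T D.crit.minDeg h.subT h.cliqueT h.symm.big
  set Y := beyond G S (K ∪ T ∪ ∅) A with hY
  have hhit : (hit G (K ∪ T ∪ ∅) A).card ≤ K.card := by
    refine hit_card_le fun z hz => ?_
    obtain ⟨hzW, a, ha, haz⟩ := mem_hit hz
    simp at hzW
    exact hzW.resolve_right fun hzT => hAnT a ha z hzT haz
  have h1 := beyond_le D.nc (by omega) D.core D.flex h.subK h.cliqueK h.big h.max hAs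
  rw [h4, ← hY] at h1
  have hAcard := hAs.card
  have h2 := beyond_card (m := 8) (W := K ∪ T ∪ ∅) D.crit hAs.sub hAi (card_pos.1 (by omega))
  rw [← hY] at h2
  -- the exits of `T` are separated from `Y`
  have hYmem : ∀ y ∈ Y, y ∉ K ∧ y ∉ T ∧ y ≠ x ∧ y ≠ x' ∧
      ∃ a ∈ A, ∃ k ∈ K, k ≠ u' ∧ G.Adj k a ∧ G.Adj a y := by
    intro y hy
    obtain ⟨-, -, hyW, a, ha, hay⟩ := mem_beyond hy
    simp at hyW
    obtain ⟨k, hk, hka⟩ := (hmem a ha).2
    obtain ⟨hku, hkK⟩ := mem_erase.1 hk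
    exact ⟨hyW.1, hyW.2, fun e => (hAnx a ha).1 (e ▸ hay), fun e => (hAnx a ha).2 (e ▸ hay),
      a, ha, k, hkK, hku, hka, hay⟩
  have hIout : ∀ i ∈ I, i ∉ K ∧ i ∉ T := by
    intro i hi
    obtain ⟨⟨-, hiT⟩, w, hw, hwi⟩ := mem_exits.1 (hI hi)
    exact ⟨fun hiK => hno i hiK w hw hwi.symm, hiT⟩
  have hadd := aNum_add_le (G := G) (S := S) (A := Y) (B := I) (fun y hy => (mem_beyond hy).1)
    (fun i hi => (mem_exits.1 (hI hi)).1.1) ?_ ?_
  · rw [aNum_of_indep hIi] at hadd
    have := D.alpha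
    have := h.card_eq
    omega
  · refine disjoint_left.2 fun y hy hyI => ?_
    obtain ⟨hyK, hyT, hyx, hyx', a, ha, k, hk, hku, hka, hay⟩ := hYmem y hy
    obtain ⟨-, e, he, hey⟩ := mem_exits.1 (hI hyI)
    refine hban k hk hku e he [a, y] (by simp [hay.ne])
      (by simp [(hmem a ha).1.2, hAT a ha, hyK, hyT]) (by simp [hka, hay, hey.symm]) (by simp) ?_
    rcases eq_or_ne e t with rfl | het
    · exact Or.inr ⟨by simp [(hAne a ha).2.symm, hyx'.symm], htt⟩
    · exact Or.inl ⟨by simp [(hAne a ha).1.symm, hyx.symm], het⟩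
  · intro y hy i hi hyi
    obtain ⟨hyK, hyT, hyx, hyx', a, ha, k, hk, hku, hka, hay⟩ := hYmem y hy
    obtain ⟨hiK, hiT⟩ := hIout i hi
    obtain ⟨-, e, he, hei⟩ := mem_exits.1 (hI hi)
    have hai : a ≠ i := fun e' => hAnT a ha e he (e' ▸ hei.symm)
    have hnd : [a, y, i].Nodup := by simp [hay.ne, hai, hyi.ne]
    have hout : ∀ z ∈ [a, y, i], z ∉ K ∧ z ∉ T := by
      simp [(hmem a ha).1.2, hAT a ha, hyK, hyT, hiK, hiT]
    by_cases hix : i = x
    · exact hban k hk hku t ht _ hnd hout (by simp [hka, hay, hyi, hix ▸ htx.symm]) (by simp)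
        (Or.inr ⟨by simp [(hAne a ha).2.symm, hyx'.symm, hix, hne.symm], htt⟩)
    by_cases hix' : i = x'
    · exact hban k hk hku t' ht' _ hnd hout (by simp [hka, hay, hyi, hix' ▸ htx'.symm]) (by simp)
        (Or.inl ⟨by simp [(hAne a ha).1.symm, hyx.symm, hix', hne], Ne.symm htt⟩)
    refine hban k hk hku e he _ hnd hout (by simp [hka, hay, hyi, hei.symm]) (by simp) ?_
    rcases eq_or_ne e t with rfl | het
    · exact Or.inr ⟨by simp [(hAne a ha).2.symm, hyx'.symm, Ne.symm hix'], htt⟩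
    · exact Or.inl ⟨by simp [(hAne a ha).1.symm, hyx.symm, Ne.symm hix], het⟩

/-- The exits that avoid a link, with another root of the link for each of their roots. -/
lemma Pair.link_side (h : Pair G S K T 8) (D : EightData G S) (hno : Apart G K T)
    (h4 : K.card = 4) {j : V} (hj : Linked G K T j) :
    ∃ KA IA, Side G S K T {j} KA IA ∧ (∀ v ∈ KA, ∃ u ∈ K, u ≠ v ∧ G.Adj u j) ∧
      ∀ a ∈ IA, ¬ Linked G K T a := by
  obtain ⟨u, hu, huj⟩ := hj.2.2.1
  obtain ⟨KA, IA, hA, -, hflex⟩ := exists_side (T := T) D.nc D.exit D.avoid D.crit.minDeg h.subK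
    h.cliqueK h.big hu huj (fun v hv x hx hvx => absurd hvx (hno v hv x hx))
  refine ⟨KA, IA, hA, hflex, fun a ha hl => ?_⟩
  obtain ⟨v, hv, hva⟩ := hA.root a ha
  obtain ⟨u', hu', hne, hu'j⟩ := hflex v hv
  exact hne (h.symm.spread D hno.symm (h.card_eq.trans h4) hj.symm hl.symm
    (fun e => (hA.out a ha).2.2 (by simp [e])) hu' (hA.subKA hv) hu'j hva)

/-- Four independent exits of `T` include a link. -/
lemma Pair.exits_linked (h : Pair G S K T 8) (D : EightData G S) (hno : Apart G K T)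
    (h4 : K.card = 4) {j : V} (hj : Linked G K T j) {I : Finset V} (hI : I ⊆ nbrOut G S T T)
    (hIi : G.IsIndepSet (I : Set V)) (hIc : 4 ≤ I.card) : ∃ i ∈ I, Linked G K T i := by
  classical
  by_contra hnone
  push Not at hnone
  have h4T : T.card = 4 := h.card_eq.trans h4
  obtain ⟨KA, IA, hA, hflex, hAl⟩ := h.link_side D hno h4 hj
  obtain ⟨hjK, hjT, hjroot, s, hs, hsj⟩ := hj
  have hIout : ∀ i ∈ I, i ∈ S ∧ i ∉ T ∧ i ∉ K ∧ i ≠ j ∧ ∃ w ∈ T, G.Adj w i := by
    intro i hi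
    obtain ⟨⟨h1, h2⟩, w, hw, hwi⟩ := mem_exits.1 (hI hi)
    exact ⟨h1, h2, fun hiK => hno i hiK w hw hwi.symm,
      fun e => hnone i hi (e ▸ ⟨hjK, hjT, hjroot, s, hs, hsj⟩), w, hw, hwi⟩
  have hB : Side G S T K {j} T I :=
    ⟨fun i hi => (hIout i hi).1, fun i hi => ⟨(hIout i hi).2.1, (hIout i hi).2.2.1,
      by simpa using (hIout i hi).2.2.2.1⟩, hIi, fun i hi => (hIout i hi).2.2.2.2, subset_rfl,
      by omega⟩
  set Y := beyond G S (T ∪ K ∪ {j}) I with hY
  have hhit : (hit G (T ∪ K ∪ {j}) I).card ≤ T.card + 1 := by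
    refine le_trans (hit_card_le (X := T ∪ {j}) fun z hz => ?_) card_union_single_le
    obtain ⟨hzW, i, hi, hiz⟩ := mem_hit hz
    simp only [mem_union, mem_singleton] at hzW ⊢
    rcases hzW with (hz | hz) | hz
    · exact Or.inl hz
    · exact absurd ⟨(hIout i hi).2.2.1, (hIout i hi).2.1, ⟨z, hz, hiz.symm⟩,
        (hIout i hi).2.2.2.2⟩ (hnone i hi)
    · exact Or.inr hz
  have h1 := beyond_le D.nc (by omega) D.core D.flex h.subT h.cliqueT h.symm.big h.symm.max hB
  rw [h4T, ← hY] at h1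
  have h2 := beyond_card (m := 8) (W := T ∪ K ∪ {j}) D.crit hB.sub hIi (card_pos.1 (by omega))
  rw [← hY] at h2
  have hAout : ∀ a ∈ IA, a ∉ K ∧ a ∉ T ∧ a ≠ j := fun a ha =>
    ⟨(hA.out a ha).1, (hA.out a ha).2.1, by simpa using (hA.out a ha).2.2⟩
  -- an exit of `K` next to an exit of `T`
  have hnext : ∀ a ∈ IA, ∀ M : List V, M.Nodup → (∀ z ∈ M, z ∉ K ∧ z ∉ T ∧ z ≠ j) →
      ∀ i ∈ I, (a :: (M ++ [i])).IsChain G.Adj → a ∉ M → i ∉ M → M.length ≤ 1 → False := by
    intro a ha M hM hout i hi hch haM hiM hlen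
    obtain ⟨v, hv, hva⟩ := hA.root a ha
    obtain ⟨u, hu, huv, huj⟩ := hflex v hv
    obtain ⟨-, hiT, hiK, hij, w, hw, hwi⟩ := hIout i hi
    obtain ⟨haK, haT, haj⟩ := hAout a ha
    have hai : a ≠ i := fun e =>
      hAl a ha ⟨haK, haT, ⟨v, hA.subKA hv, hva⟩, w, hw, e ▸ hwi⟩
    refine h.link_ban D hu (hA.subKA hv) hw hs huj hsj.symm hjK hjT (M := a :: (M ++ [i]))
      ?_ ?_ ?_ ?_ (by simp) (by simp; omega) (Or.inl huv)
    · rw [List.nodup_cons, List.nodup_append]
      refine ⟨by simp [haM, hai], hM, by simp, ?_⟩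
      intro p hp q hq e
      simp at hq
      exact hiM (hq ▸ e ▸ hp)
    · intro z hz
      simp at hz
      rcases hz with rfl | hz | rfl
      exacts [⟨haK, haT⟩, ⟨(hout z hz).1, (hout z hz).2.1⟩, ⟨hiK, hiT⟩]
    · simp only [List.mem_cons, List.mem_append, List.not_mem_nil, or_false, not_or]
      exact ⟨haj.symm, fun hh => (hout j hh).2.2 rfl, hij.symm⟩
    · refine List.isChain_cons.2 ⟨by simpa using hva, ?_⟩
      refine List.isChain_append.2 ⟨hch, by simp, fun p hp q hq => ?_⟩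
      rw [← List.cons_append, List.getLast?_concat] at hp
      simp at hp hq
      subst hp hq
      exact hwi.symm
  have hadd := aNum_add_le (G := G) (S := S) (A := IA) (B := Y) hA.sub
    (fun y hy => (mem_beyond hy).1) ?_ ?_
  · rw [aNum_of_indep hA.indep] at hadd
    have := hA.card
    have := D.alpha
    omega
  · refine disjoint_left.2 fun a ha hay => ?_
    obtain ⟨-, -, -, i, hi, hia⟩ := mem_beyond hay
    exact hnext a ha [] List.nodup_nil (by simp) i hi (by simp [hia.symm]) (by simp) (by simp)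
      (by simp)
  · intro a ha y hy hay
    obtain ⟨-, hyI, hyW, i, hi, hiy⟩ := mem_beyond hy
    simp only [mem_union, mem_singleton, not_or] at hyW
    exact hnext a ha [y] (by simp) (by simp [hyW.1.1, hyW.1.2, hyW.2]) i hi
      (by simp [hay, hiy.symm]) (by simp [hay.ne]) (by simp [hiy.ne]) (by simp)

/-- An independent set of exits of `K` has at most one link. -/
lemma Pair.linked_once (h : Pair G S K T 8) (D : EightData G S) (hno : Apart G K T)
    (h4 : K.card = 4) {I : Finset V} (hI : I ⊆ nbrOut G S K K)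
    (hIi : G.IsIndepSet (I : Set V)) (hIc : 4 ≤ I.card) {x₁ x₂ : V} (hx₁ : x₁ ∈ I)
    (hx₂ : x₂ ∈ I) (hl₁ : Linked G K T x₁) (hl₂ : Linked G K T x₂) : x₁ = x₂ := by
  classical
  by_contra hne
  have h4T : T.card = 4 := h.card_eq.trans h4
  obtain ⟨TB, B, hB₀, hflex, hBl⟩ := h.symm.link_side D hno.symm h4T hl₁.symm
  have hB : Side G S T K ∅ TB B :=
    ⟨hB₀.sub, fun i hi => ⟨(hB₀.out i hi).1, (hB₀.out i hi).2.1, by simp⟩, hB₀.indep, hB₀.root,
      hB₀.subKA, hB₀.card⟩
  set Y := beyond G S (T ∪ K ∪ ∅) B with hY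
  have hBnK : ∀ b ∈ B, ∀ k ∈ K, ¬ G.Adj b k := by
    intro b hb k hk hbk
    obtain ⟨w, hw, hwb⟩ := hB.root b hb
    exact hBl b hb ⟨(hB.out b hb).1, (hB.out b hb).2.1, ⟨w, hB.subKA hw, hwb⟩, k, hk, hbk.symm⟩
  have hhit : (hit G (T ∪ K ∪ ∅) B).card ≤ T.card := by
    refine hit_card_le fun z hz => ?_
    obtain ⟨hzW, b, hb, hbz⟩ := mem_hit hz
    simp at hzW
    exact hzW.resolve_right fun hzK => hBnK b hb z hzK hbz
  have h1 := beyond_le D.nc (by omega) D.core D.flex h.subT h.cliqueT h.symm.big h.symm.max hB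
  rw [h4T, ← hY] at h1
  have hBc := hB.card
  have h2 := beyond_card (m := 8) (W := T ∪ K ∪ ∅) D.crit hB.sub hB.indep (card_pos.1 (by omega))
  rw [← hY] at h2
  have hIout : ∀ a ∈ I, a ∈ S ∧ a ∉ K ∧ a ∉ T ∧ ∃ k ∈ K, G.Adj k a := by
    intro a ha
    obtain ⟨⟨h1, h2⟩, w, hw, hwa⟩ := mem_exits.1 (hI ha)
    exact ⟨h1, h2, fun haT => hno w hw a haT hwa, w, hw, hwa⟩
  -- a connection that leaves one of the two links free
  have hnext : ∀ a ∈ I, ∀ M : List V, M.Nodup → (∀ z ∈ M, z ∉ K ∧ z ∉ T) →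
      ∀ b ∈ B, (a :: (M ++ [b])).IsChain G.Adj → a ∉ M → b ∉ M → M.length ≤ 1 →
      (∀ z ∈ M, a ≠ z ∧ G.Adj a z) → False := by
    intro a ha M hM hout b hb hch haM hbM hlen hadj
    obtain ⟨-, haK, haT, k, hk, hka⟩ := hIout a ha
    obtain ⟨w, hw, hwb⟩ := hB.root b hb
    obtain ⟨s, hs, hsw, hsx₁⟩ := hflex w hw
    have hsx₂ : G.Adj s x₂ := by
      obtain ⟨-, -, -, s', hs', hs'x⟩ := id hl₂
      rwa [h.spread D hno h4 hl₁ hl₂ hne hs hs' hsx₁ hs'x]
    have hab : a ≠ b := fun e => hBnK b hb k hk (e ▸ hka.symm)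
    obtain ⟨p, hp, hps, hpa, hpM⟩ : ∃ p, Linked G K T p ∧ G.Adj s p ∧ p ≠ a ∧ p ∉ M := by
      have hcase : ∀ p q, Linked G K T p → G.Adj s p → Linked G K T q → G.Adj s q → p ≠ q →
          p ∈ I → q ∈ I → a = q → ∃ p', Linked G K T p' ∧ G.Adj s p' ∧ p' ≠ a ∧ p' ∉ M := by
        intro p q hp hsp hq hsq hpq hpI hqI e
        refine ⟨p, hp, hsp, e ▸ hpq, fun hpM => ?_⟩
        exact hIi (by exact_mod_cast ha) (by exact_mod_cast hpI) (hadj p hpM).1 (hadj p hpM).2
      by_cases e₂ : a = x₂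
      · exact hcase x₁ x₂ hl₁ hsx₁ hl₂ hsx₂ hne hx₁ hx₂ e₂
      by_cases e₁ : a = x₁
      · exact hcase x₂ x₁ hl₂ hsx₂ hl₁ hsx₁ (Ne.symm hne) hx₂ hx₁ e₁
      by_cases hm : x₁ ∈ M
      · refine ⟨x₂, hl₂, hsx₂, Ne.symm e₂, fun hm' => hne ?_⟩
        obtain ⟨c, rfl⟩ := List.length_eq_one_iff.1
          (le_antisymm hlen (List.length_pos_of_mem hm))
        exact (List.mem_singleton.1 hm).trans (List.mem_singleton.1 hm').symm
      · exact ⟨x₁, hl₁, hsx₁, Ne.symm e₁, hm⟩
    obtain ⟨hpK, hpT, ⟨u, hu, hup⟩, -⟩ := hp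
    have hpb : p ≠ b := fun e => hBnK b hb u hu (e ▸ hup.symm)
    refine h.link_ban D hu hk (hB.subKA hw) hs hup hps.symm hpK hpT (M := a :: (M ++ [b]))
      ?_ ?_ ?_ ?_ (by simp) (by simp; omega) (Or.inr hsw)
    · rw [List.nodup_cons, List.nodup_append]
      refine ⟨by simp [haM, hab], hM, by simp, ?_⟩
      intro p hp q hq e
      simp at hq
      exact hbM (hq ▸ e ▸ hp)
    · intro z hz
      simp at hz
      rcases hz with rfl | hz | rfl
      exacts [⟨haK, haT⟩, hout z hz, ⟨(hB.out z hb).2.1, (hB.out z hb).1⟩]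
    · simp [hpa, hpM, hpb]
    · refine List.isChain_cons.2 ⟨by simpa using hka, ?_⟩
      refine List.isChain_append.2 ⟨hch, by simp, fun p hp q hq => ?_⟩
      rw [← List.cons_append, List.getLast?_concat] at hp
      simp at hp hq
      subst hp hq
      exact hwb.symm
  have hadd := aNum_add_le (G := G) (S := S) (A := I) (B := Y) (fun a ha => (hIout a ha).1)
    (fun y hy => (mem_beyond hy).1) ?_ ?_
  · rw [aNum_of_indep hIi] at hadd
    have := D.alpha
    omega
  · refine disjoint_left.2 fun a ha hay => ?_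
    obtain ⟨-, -, -, b, hb, hba⟩ := mem_beyond hay
    exact hnext a ha [] List.nodup_nil (by simp) b hb (by simp [hba.symm]) (by simp) (by simp)
      (by simp) (by simp)
  · intro a ha y hy hay
    obtain ⟨-, -, hyW, b, hb, hby⟩ := mem_beyond hy
    simp at hyW
    exact hnext a ha [y] (by simp) (by simp [hyW.1, hyW.2]) b hb
      (by simp [hay, hby.symm]) (by simp [hay.ne]) (by simp [hby.ne]) (by simp)
      (by simp [hay.ne, hay])

/-- Seven independent vertices around a link leave a clique with an edge to `K`. -/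
lemma Pair.seven (h : Pair G S K T 8) (D : EightData G S) (h4 : K.card = 4) {j u : V}
    (hu : u ∈ K) (huj : G.Adj u j) (hjS : j ∈ S) (hjK : j ∉ K)
    (hA : Side G S K T {j} K IA) (hB : Side G S T K {j} T IB)
    (hAB : ∀ a ∈ IA, ∀ b ∈ IB, a ≠ b ∧ ¬ G.Adj a b)
    (hAj : ∀ a ∈ IA, ¬ G.Adj a j) (hBj : ∀ b ∈ IB, ¬ G.Adj b j)
    (hcom : ∀ a ∈ IA, ∀ b ∈ IB, ∀ y, y ∉ K → y ∉ T → y ≠ j → G.Adj a y → G.Adj b y → False) :
    False := by
  classical
  have h4T : T.card = 4 := h.card_eq.trans h4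
  have hAne : ∀ a ∈ IA, a ≠ j := fun a ha => by simpa using (hA.out a ha).2.2
  have hBne : ∀ b ∈ IB, b ≠ j := fun b hb => by simpa using (hB.out b hb).2.2
  have hABd : Disjoint IA IB := disjoint_left.2 fun a ha hb => (hAB a ha a hb).1 rfl
  have hABi : G.IsIndepSet ((IA ∪ IB : Finset V) : Set V) :=
    indep_union hA.indep hB.indep fun a ha b hb => (hAB a ha b hb).2
  set W := K ∪ T ∪ {j} with hW
  have hWs : T ∪ K ∪ {j} = W := by rw [hW, union_comm K T]
  set YA := beyond G S W IA with hYA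
  set YB := beyond G S W IB with hYB
  have h1 := beyond_le D.nc (by omega) D.core D.flex h.subK h.cliqueK h.big h.max hA
  rw [h4, ← hW, ← hYA] at h1
  have h2 := beyond_le D.nc (by omega) D.core D.flex h.subT h.cliqueT h.symm.big h.symm.max hB
  rw [h4T, hWs, ← hYB] at h2
  have hout : ∀ {I : Finset V} {y : V}, y ∈ beyond G S W I → y ∉ K ∧ y ∉ T ∧ y ≠ j := by
    intro I y hy
    have := (mem_beyond hy).2.2.1
    simp only [hW, mem_union, mem_singleton, not_or] at this
    exact ⟨this.1.1, this.1.2, this.2⟩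
  have hA1 : aNum G YA + IB.card ≤ 7 := by
    rw [← aNum_of_indep hB.indep]
    refine le_trans (aNum_add_le (fun y hy => (mem_beyond hy).1) hB.sub ?_ ?_) D.alpha
    · refine disjoint_left.2 fun y hy hyB => ?_
      obtain ⟨-, -, -, a, ha, hay⟩ := mem_beyond hy
      exact (hAB a ha y hyB).2 hay
    · intro y hy b hb hyb
      obtain ⟨-, -, -, a, ha, hay⟩ := mem_beyond hy
      exact hcom a ha b hb y (hout hy).1 (hout hy).2.1 (hout hy).2.2 hay hyb.symm
  have hB1 : aNum G YB + IA.card ≤ 7 := by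
    rw [← aNum_of_indep hA.indep]
    refine le_trans (aNum_add_le (fun y hy => (mem_beyond hy).1) hA.sub ?_ ?_) D.alpha
    · refine disjoint_left.2 fun y hy hyA => ?_
      obtain ⟨-, -, -, b, hb, hby⟩ := mem_beyond hy
      exact (hAB y hyA b hb).2 hby.symm
    · intro y hy a ha hya
      obtain ⟨-, -, -, b, hb, hby⟩ := mem_beyond hy
      exact hcom a ha b hb y (hout hy).1 (hout hy).2.1 (hout hy).2.2 hya.symm hby
  have hcA := hA.card
  have hcB := hB.card
  have hIc : (IA ∪ IB).card = IA.card + IB.card := card_union_of_disjoint hABd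
  set I := insert j (IA ∪ IB) with hI
  have hjI : j ∉ IA ∪ IB := by
    simp only [mem_union, not_or]
    exact ⟨fun hh => hAne j hh rfl, fun hh => hBne j hh rfl⟩
  have hIS : I ⊆ S := insert_subset hjS (union_subset hA.sub hB.sub)
  have hIi : G.IsIndepSet (I : Set V) := by
    rw [hI, coe_insert, SimpleGraph.isIndepSet_iff, Set.pairwise_insert]
    refine ⟨hABi, fun b hb _ => ?_⟩
    rcases mem_union.1 (mem_coe.1 hb) with hb | hb
    · exact ⟨fun e => hAj b hb e.symm, hAj b hb⟩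
    · exact ⟨fun e => hBj b hb e.symm, hBj b hb⟩
  have hI7 : I.card ≤ 7 := (card_le_aNum hIS hIi).trans D.alpha
  rw [hI, card_insert_of_notMem hjI] at hI7
  have hS50 := (D.crit.closedNbr_card_indep hIS hIi (insert_nonempty _ _)).trans
    (card_le_card fun v hv => (mem_closedNbr.1 hv).1)
  rw [hI, card_insert_of_notMem hjI] at hS50
  set R := S \ ((K ∪ T ∪ I) ∪ (YA ∪ YB)) with hR
  have hRc : 3 ≤ R.card := by
    have e1 := card_le_card_sdiff_add_card (s := S) (t := (K ∪ T ∪ I) ∪ (YA ∪ YB))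
    have e2 := card_union_le (K ∪ T ∪ I) (YA ∪ YB)
    have e3 := card_union_le (K ∪ T) I
    have e4 := card_union_le K T
    have e5 := card_union_le YA YB
    have e6 : I.card = IA.card + IB.card + 1 := by rw [hI, card_insert_of_notMem hjI, hIc]
    rw [← hR] at e1
    omega
  have hRmem : ∀ r ∈ R, r ∈ S ∧ r ∉ K ∧ r ∉ IA ∪ IB ∧ r ≠ j ∧
      ∀ i ∈ IA ∪ IB, ¬ G.Adj i r := by
    intro r hr
    simp only [hR, hI, hW, hYA, hYB, mem_sdiff, mem_union, mem_insert, not_or] at hr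
    obtain ⟨hrS, ⟨⟨hrK, hrT⟩, hrj, hrA, hrB⟩, hyA, hyB⟩ := hr
    refine ⟨hrS, hrK, by simp [hrA, hrB], hrj, fun i hi hir => ?_⟩
    rcases mem_union.1 hi with hi | hi
    · exact hyA (by simp [beyond, mem_closedNbr, hrS, hrK, hrT, hrj, hrA]; exact ⟨i, hi, hir⟩)
    · exact hyB (by simp [beyond, mem_closedNbr, hrS, hrK, hrT, hrj, hrB]; exact ⟨i, hi, hir⟩)
  -- no eighth independent vertex
  have hno8 : ∀ p ∈ S, ∀ q ∈ S, p ≠ q → p ∉ IA ∪ IB → q ∉ IA ∪ IB → ¬ G.Adj p q →
      (∀ i ∈ IA ∪ IB, ¬ G.Adj i p) → (∀ i ∈ IA ∪ IB, ¬ G.Adj i q) → False := by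
    intro p hp q hq hpq hpn hqn hadj hip hiq
    have hi2 : G.IsIndepSet ((insert p (insert q (IA ∪ IB)) : Finset V) : Set V) := by
      rw [coe_insert, coe_insert, SimpleGraph.isIndepSet_iff, Set.pairwise_insert,
        Set.pairwise_insert]
      refine ⟨⟨hABi, fun b hb _ => ?_⟩, fun b hb _ => ?_⟩
      · exact ⟨fun e => hiq b (mem_coe.1 hb) e.symm, hiq b (mem_coe.1 hb)⟩
      · rcases hb with rfl | hb
        · exact ⟨hadj, fun e => hadj e.symm⟩
        · exact ⟨fun e => hip b (mem_coe.1 hb) e.symm, hip b (mem_coe.1 hb)⟩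
    have := (card_le_aNum (insert_subset hp (insert_subset hq
      (union_subset hA.sub hB.sub))) hi2).trans D.alpha
    rw [card_insert_of_notMem (by simp only [mem_insert, not_or]; exact ⟨hpq, hpn⟩),
      card_insert_of_notMem hqn] at this
    omega
  obtain ⟨R', hR', hR'c⟩ := exists_subset_card_eq hRc
  have hjR : j ∉ R' := fun hh => (hRmem j (hR' hh)).2.2.2.1 rfl
  have hM : Pair G S K (insert j R') 8 := by
    refine ⟨h.subK, insert_subset hjS fun r hr => (hRmem r (hR' hr)).1, h.cliqueK, ?_, ?_, ?_,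
      h.big, h.max⟩
    · rw [coe_insert, SimpleGraph.isClique_insert]
      refine ⟨fun r hr r' hr' hne => ?_, fun r hr hne => ?_⟩
      · by_contra hadj
        obtain ⟨q1, -, q2, -, q3⟩ := hRmem r (hR' hr)
        obtain ⟨p1, -, p2, -, p3⟩ := hRmem r' (hR' hr')
        exact hno8 r q1 r' p1 hne q2 p2 hadj q3 p3
      · by_contra hadj
        obtain ⟨q1, -, q2, q4, q3⟩ := hRmem r (hR' hr)
        refine hno8 r q1 j hjS q4 q2 hjI (fun e => hadj e.symm) q3 fun i hi => ?_
        rcases mem_union.1 hi with hi | hi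
        exacts [hAj i hi, hBj i hi]
    · refine disjoint_left.2 fun z hz hz' => ?_
      rcases mem_insert.1 hz' with rfl | hz'
      exacts [hjK hz, (hRmem z (hR' hz')).2.1 hz]
    · rw [card_insert_of_notMem hjR, hR'c, h4]
  exact hM.eight_edge D hu (mem_insert_self j R') huj

/-- Four independent exits. -/
lemma Pair.four_exits (h : Pair G S K T 8) (D : EightData G S) (h4 : K.card = 4) :
    ∃ I : Finset V, I ⊆ nbrOut G S K K ∧ G.IsIndepSet (I : Set V) ∧ I.card = 4 := by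
  obtain ⟨I, hI, hIi, hIc⟩ := exists_max_indep (G := G) (nbrOut G S K K)
  have := D.exit D.nc S K D.crit.minDeg h.subK h.cliqueK h.big
  obtain ⟨I', hI', hI'c⟩ := exists_subset_card_eq (show 4 ≤ I.card by omega)
  exact ⟨I', hI'.trans hI, hIi.mono (by exact_mod_cast hI'), hI'c⟩

/-- The exits other than a link. -/
lemma Side.of_exits {I : Finset V} {j : V} (hno : Apart G K T)
    (hI : I ⊆ nbrOut G S K K) (hIi : G.IsIndepSet (I : Set V))
    (hc : K.card ≤ (I.erase j).card + 1) : Side G S K T {j} K (I.erase j) := by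
  have hmem := fun i (hi : i ∈ I.erase j) => mem_exits.1 (hI (mem_erase.1 hi).2)
  refine ⟨fun i hi => (hmem i hi).1.1, fun i hi => ⟨(hmem i hi).1.2, fun hiT => ?_,
    by simpa using (mem_erase.1 hi).1⟩, hIi.mono (by exact_mod_cast erase_subset j I),
    fun i hi => (hmem i hi).2, subset_rfl, hc⟩
  obtain ⟨w, hw, hwi⟩ := (hmem i hi).2
  exact hno w hw i hiT hwi

/-- No edge between two cliques of size four. -/
lemma Pair.eight_four (h : Pair G S K T 8) (D : EightData G S) (hno : Apart G K T)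
    (h4 : K.card = 4) {j₀ : V} (hj₀ : Linked G K T j₀) : False := by
  classical
  have h4T : T.card = 4 := h.card_eq.trans h4
  obtain ⟨IK, hK, hKi, hKc⟩ := h.four_exits D h4
  obtain ⟨IT, hT, hTi, hTc⟩ := h.symm.four_exits D h4T
  obtain ⟨j, hjI, hjl⟩ := h.symm.exits_linked D hno.symm h4T hj₀.symm hK hKi hKc.ge
  replace hjl : Linked G K T j := hjl.symm
  obtain ⟨⟨hjS, hjK⟩, u, hu, huj⟩ := mem_exits.1 (hK hjI)
  obtain ⟨-, hjT, -, s, hs, hsj⟩ := hjl
  have hjl : Linked G K T j := ⟨hjK, hjT, ⟨u, hu, huj⟩, s, hs, hsj⟩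
  have hAc : (IK.erase j).card = 3 := by rw [card_erase_of_mem hjI, hKc]
  have hA : Side G S K T {j} K (IK.erase j) := Side.of_exits hno hK hKi (by omega)
  have hAl : ∀ a ∈ IK.erase j, ¬ Linked G K T a := fun a ha hl =>
    (mem_erase.1 ha).1 (h.linked_once D hno h4 hK hKi hKc.ge (mem_erase.1 ha).2 hjI hl hjl)
  have hAj : ∀ a ∈ IK.erase j, ¬ G.Adj a j := fun a ha =>
    hKi (by exact_mod_cast (mem_erase.1 ha).2) (by exact_mod_cast hjI) (mem_erase.1 ha).1
  have hne_exit : ∀ a ∈ IK.erase j, ∀ b : V, (∃ x ∈ T, G.Adj x b) → a ≠ b := by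
    rintro a ha b hb rfl
    obtain ⟨v, hv, hva⟩ := hA.root a ha
    exact hAl a ha ⟨(hA.out a ha).1, (hA.out a ha).2.1, ⟨v, hv, hva⟩, hb⟩
  by_cases hsecond : ∃ j', Linked G K T j' ∧ j' ≠ j
  · obtain ⟨j', hj', hne⟩ := hsecond
    obtain ⟨hj'K, hj'T, ⟨u', hu', hu'j⟩, s', hs', hs'j⟩ := hj'
    have hj' : Linked G K T j' := ⟨hj'K, hj'T, ⟨u', hu', hu'j⟩, s', hs', hs'j⟩
    obtain rfl : u = u' := h.symm.spread D hno.symm h4T hjl.symm hj'.symm hne.symm hu hu' huj hu'j
    obtain ⟨TB, B, hB₀, hflex, hBl⟩ := h.symm.link_side D hno.symm h4T hjl.symm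
    have hB : Side G S T K {j} T B :=
      ⟨hB₀.sub, hB₀.out, hB₀.indep, fun i hi => by
        obtain ⟨w, hw, hwi⟩ := hB₀.root i hi
        exact ⟨w, hB₀.subKA hw, hwi⟩, subset_rfl, hB₀.card⟩
    -- ends of connections into `B`
    have hend : ∀ b ∈ B, ∃ x ∈ T, G.Adj x b ∧ s' ≠ x ∧ ∃ s'' ∈ T, G.Adj s'' j ∧ s'' ≠ x := by
      intro b hb
      obtain ⟨w, hw, hwb⟩ := hB₀.root b hb
      obtain ⟨s'', hs'', hsw, hs''j⟩ := hflex w hw
      refine ⟨w, hB₀.subKA hw, hwb, ?_, s'', hs'', hs''j, hsw⟩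
      rw [← h.spread D hno h4 hjl hj' hne.symm hs'' hs' hs''j hs'j]
      exact hsw
    have hBj : ∀ b ∈ B, ¬ G.Adj b j := by
      intro b hb hbj
      obtain ⟨x, hx, hxb, hsx, -⟩ := hend b hb
      obtain ⟨hbT, hbK, -⟩ := hB.out b hb
      have hbj' : b ≠ j' := fun e => hBl b hb (e ▸ hj'.symm)
      refine D.nc (cyc_closeT h.cliqueT (L := [b, j, u, j']) (a := b) (b := j') ?_ ?_ ?_ rfl rfl
        hs' hx hsx hs'j.symm hxb (by simp) (by simp; omega))
      · simp only [List.nodup_cons, List.mem_cons, List.not_mem_nil, or_false, not_or,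
          List.nodup_nil, and_true, not_false_eq_true]
        exact ⟨⟨hbj.ne, fun e => hbK (e ▸ hu), hbj'⟩, ⟨fun e => hjK (e ▸ hu), hne.symm⟩,
          fun e => hj'K (e ▸ hu)⟩
      · simp [hbj, huj.symm, hu'j]
      · simp [hbT, hjT, disjoint_left.1 h.disj hu, hj'T]
    refine h.seven D h4 hu huj hjS hjK hA hB ?_ hAj hBj ?_
    · intro a ha b hb
      obtain ⟨x, hx, hxb, -, s'', hs'', hs''j, hsx⟩ := hend b hb
      obtain ⟨v, hv, hva⟩ := hA.root a ha
      obtain ⟨hbT, hbK, hbj⟩ := hB.out b hb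
      obtain ⟨haK, haT, haj⟩ := hA.out a ha
      simp only [mem_singleton] at haj hbj
      refine ⟨hne_exit a ha b ⟨x, hx, hxb⟩, fun hab => ?_⟩
      exact h.link_ban D hu hv hx hs'' huj hs''j.symm hjK hjT (M := [a, b]) (by simp [hab.ne])
        (by simp [haK, haT, hbK, hbT]) (by simp [Ne.symm haj, Ne.symm hbj])
        (by simp [hva, hab, hxb.symm]) (by simp) (by simp) (Or.inr hsx)
    · intro a ha b hb y hyK hyT hyj hay hby
      obtain ⟨x, hx, hxb, -, s'', hs'', hs''j, hsx⟩ := hend b hb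
      obtain ⟨v, hv, hva⟩ := hA.root a ha
      obtain ⟨hbT, hbK, hbj⟩ := hB.out b hb
      obtain ⟨haK, haT, haj⟩ := hA.out a ha
      simp only [mem_singleton] at haj hbj
      exact h.link_ban D hu hv hx hs'' huj hs''j.symm hjK hjT (M := [a, y, b])
        (by simp [hay.ne, hby.ne.symm, hne_exit a ha b ⟨x, hx, hxb⟩])
        (by simp [haK, haT, hyK, hyT, hbK, hbT]) (by simp [Ne.symm haj, Ne.symm hyj, Ne.symm hbj])
        (by simp [hva, hay, hby.symm, hxb.symm]) (by simp) (by simp) (Or.inr hsx)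
  -- a single link
  push Not at hsecond
  obtain ⟨j₁, hj₁I, hj₁l⟩ := h.exits_linked D hno h4 hjl hT hTi hTc.ge
  obtain rfl := hsecond j₁ hj₁l
  have hBc : (IT.erase j₁).card = 3 := by rw [card_erase_of_mem hj₁I, hTc]
  have hB : Side G S T K {j₁} T (IT.erase j₁) := Side.of_exits hno.symm hT hTi (by omega)
  have hBj : ∀ b ∈ IT.erase j₁, ¬ G.Adj b j₁ := fun b hb =>
    hTi (by exact_mod_cast (mem_erase.1 hb).2) (by exact_mod_cast hj₁I) (mem_erase.1 hb).1
  -- either the link has a free end, or the exit has a neighbour with another root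
  have hpair : ∀ a ∈ IK.erase j₁, ∀ b ∈ IT.erase j₁,
      (∃ v ∈ K, ∃ x ∈ T, ∃ u' ∈ K, ∃ s' ∈ T, G.Adj v a ∧ G.Adj x b ∧ G.Adj u' j₁ ∧
        G.Adj j₁ s' ∧ (u' ≠ v ∨ s' ≠ x)) ∨
      ∃ c v, v ∈ K ∧ u ≠ v ∧ c ∉ K ∧ c ∉ T ∧ c ≠ j₁ ∧ c ≠ b ∧ G.Adj v c ∧ G.Adj c a ∧
        G.Adj s b := by
    intro a ha b hb
    refine or_iff_not_imp_left.2 fun hnot => ?_
    push Not at hnot
    obtain ⟨x, hx, hxb⟩ := hB.root b hb
    obtain ⟨v, hv, hva⟩ := hA.root a ha
    have hroot : ∀ w ∈ K, G.Adj w a → ∀ u' ∈ K, G.Adj u' j₁ → u' = w := fun w hw hwa u' hu' hu'j =>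
      (hnot w hw x hx u' hu' s hs hwa hxb hu'j hsj.symm).1
    have hxs : s = x := (hnot v hv x hx u hu s hs hva hxb huj hsj.symm).2
    obtain ⟨KA, IA, hIA, hflex, hIAl⟩ := h.link_side D hno h4 hjl
    have hKAu : ∀ w ∈ KA, u ≠ w := by
      intro w hw e
      obtain ⟨u', hu', hne, hu'j⟩ := hflex w hw
      refine hne ?_
      rw [← e, hroot v hv hva u' hu' hu'j, hroot v hv hva u hu huj]
    obtain ⟨haK, haT, haj⟩ := hA.out a ha
    by_cases hadj : ∃ c ∈ IA, G.Adj c a
    · obtain ⟨c, hc, hca⟩ := hadj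
      obtain ⟨w, hw, hwc⟩ := hIA.root c hc
      obtain ⟨hcK, hcT, hcj⟩ := hIA.out c hc
      refine ⟨c, w, hIA.subKA hw, hKAu w hw, hcK, hcT, by simpa using hcj, ?_, hwc, hca,
        hxs ▸ hxb⟩
      rintro rfl
      exact hIAl c hc ⟨hcK, hcT, ⟨w, hIA.subKA hw, hwc⟩, x, hx, hxb⟩
    · push Not at hadj
      exfalso
      have haI : a ∉ IA := by
        intro haI
        obtain ⟨w, hw, hwa⟩ := hIA.root a haI
        exact hKAu w hw (hroot w (hIA.subKA hw) hwa u hu huj)
      obtain ⟨i, hi, hil⟩ := h.symm.exits_linked D hno.symm h4T hjl.symm (I := insert a IA)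
        (insert_subset (hK (mem_erase.1 ha).2) fun c hc => mem_exits.2
          ⟨⟨hIA.sub hc, (hIA.out c hc).1⟩, by
            obtain ⟨w, hw, hwc⟩ := hIA.root c hc
            exact ⟨w, hIA.subKA hw, hwc⟩⟩)
        (by
          rw [coe_insert, SimpleGraph.isIndepSet_iff, Set.pairwise_insert]
          exact ⟨hIA.indep, fun c hc _ =>
            ⟨fun e => hadj c (mem_coe.1 hc) e.symm, hadj c (mem_coe.1 hc)⟩⟩)
        (by
          rw [card_insert_of_notMem haI]
          have := hIA.card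
          omega)
      rcases mem_insert.1 hi with rfl | hi
      · exact hAl i ha hil.symm
      · exact hIAl i hi hil.symm
  refine h.seven D h4 hu huj hjS hjK hA hB ?_ hAj hBj ?_
  · intro a ha b hb
    obtain ⟨hbT, hbK, hbj⟩ := hB.out b hb
    obtain ⟨haK, haT, haj⟩ := hA.out a ha
    simp only [mem_singleton] at haj hbj
    have hab := hne_exit a ha b (hB.root b hb)
    refine ⟨hab, fun hadj => ?_⟩
    rcases hpair a ha b hb with ⟨v, hv, x, hx, u', hu', s', hs', hva, hxb, hu'j, hjs', hor⟩ |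
      ⟨c, v, hv, huv, hcK, hcT, hcj, hcb, hvc, hca, hsb⟩
    · exact h.link_ban D hu' hv hx hs' hu'j hjs' hjK hjT (M := [a, b]) (by simp [hab])
        (by simp [haK, haT, hbK, hbT]) (by simp [Ne.symm haj, Ne.symm hbj])
        (by simp [hva, hadj, hxb.symm]) (by simp) (by simp) hor
    · exact D.nc (h.cyc_link hu hv huv hs hs huj hsj.symm hjK hjT (M := [c, a, b])
        (by simp [hca.ne, hcb, hab]) (by simp [hcK, hcT, haK, haT, hbK, hbT])
        (by simp [Ne.symm hcj, Ne.symm haj, Ne.symm hbj])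
        (by simp [hvc, hca, hadj, hsb.symm]) (by simp) (Or.inl (by simp)))
  · intro a ha b hb y hyK hyT hyj hay hby
    obtain ⟨hbT, hbK, hbj⟩ := hB.out b hb
    obtain ⟨haK, haT, haj⟩ := hA.out a ha
    simp only [mem_singleton] at haj hbj
    have hab := hne_exit a ha b (hB.root b hb)
    rcases hpair a ha b hb with ⟨v, hv, x, hx, u', hu', s', hs', hva, hxb, hu'j, hjs', hor⟩ |
      ⟨c, v, hv, huv, hcK, hcT, hcj, hcb, hvc, hca, hsb⟩
    · exact h.link_ban D hu' hv hx hs' hu'j hjs' hjK hjT (M := [a, y, b])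
        (by simp [hay.ne, hby.ne.symm, hab]) (by simp [haK, haT, hyK, hyT, hbK, hbT])
        (by simp [Ne.symm haj, Ne.symm hyj, Ne.symm hbj])
        (by simp [hva, hay, hby.symm, hxb.symm]) (by simp) (by simp) hor
    by_cases hcy : c = y
    · subst hcy
      exact D.nc (h.cyc_link hu hv huv hs hs huj hsj.symm hjK hjT (M := [c, b])
        (by simp [hcb]) (by simp [hcK, hcT, hbK, hbT]) (by simp [Ne.symm hcj, Ne.symm hbj])
        (by simp [hvc, hby.symm, hsb.symm]) (by simp) (Or.inl (by simp)))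
    · exact D.nc (h.cyc_link hu hv huv hs hs huj hsj.symm hjK hjT (M := [c, a, y, b])
        (by simp [hca.ne, hcy, hcb, hay.ne, hby.ne.symm, hab])
        (by simp [hcK, hcT, haK, haT, hyK, hyT, hbK, hbT])
        (by simp [Ne.symm hcj, Ne.symm haj, Ne.symm hyj, Ne.symm hbj])
        (by simp [hvc, hca, hay, hby.symm, hsb.symm]) (by simp) (Or.inr ⟨by simp, rfl⟩))

/-- No edge between two cliques of size at least five. -/
lemma Pair.eight_wide (h : Pair G S K T 8) (D : EightData G S) (hno : Apart G K T)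
    (h5 : 5 ≤ K.card) {j : V} (hj : Linked G K T j) : False := by
  classical
  obtain ⟨hjK, hjT, ⟨u, hu, huj⟩, s, hs, hsj⟩ := hj
  obtain ⟨KA, IA, hA, -, hfA⟩ := exists_side (T := T) D.nc D.exit D.avoid D.crit.minDeg h.subK
    h.cliqueK h.big hu huj (fun v hv x hx hvx => absurd hvx (hno v hv x hx))
  obtain ⟨TB, IB, hB, -, hfB⟩ := exists_side (T := K) D.nc D.exit D.avoid D.crit.minDeg h.subT
    h.cliqueT h.symm.big hs hsj (fun x hx v hv hxv => absurd hxv.symm (hno v hv x hx))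
  have hban : ∀ a ∈ IA, ∀ b ∈ IB, ∀ M : List V, M.Nodup → (∀ z ∈ M, z = a ∨ z = b) →
      M.head? = some a → M.getLast? = some b → M.IsChain G.Adj → M.length ≤ 3 → False := by
    intro a ha b hb M hnd hmem hhd hlast hch hlen
    obtain ⟨v, hv, hva⟩ := hA.root a ha
    obtain ⟨x, hx, hxb⟩ := hB.root b hb
    obtain ⟨u', hu', hu'v, hu'j⟩ := hfA v hv
    obtain ⟨s', hs', hs'x, hs'j⟩ := hfB x hx
    obtain ⟨haK, haT, haj⟩ := hA.out a ha
    obtain ⟨hbT, hbK, hbj⟩ := hB.out b hb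
    simp only [mem_singleton] at haj hbj
    have hpos := List.length_pos_of_mem (List.mem_of_mem_head? hhd)
    refine D.nc (h.cyc_two (N := [j]) hu' (hA.subKA hv) hu'v (hB.subKA hx) hs' hs'x.symm hnd
      (by simp) ?_ ?_ (by simp [hjK, hjT]) ?_ (by simp [hs'j, hu'j.symm]) (by simp; omega)
      (by simp; omega))
    · intro z hz hz'
      simp at hz'
      rcases hmem z hz with rfl | rfl
      exacts [haj hz', hbj hz']
    · intro z hz
      rcases hmem z hz with rfl | rfl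
      exacts [⟨haK, haT⟩, ⟨hbK, hbT⟩]
    · refine List.isChain_cons.2 ⟨?_, List.isChain_append.2 ⟨hch, by simp, ?_⟩⟩
      · intro p hp
        rw [List.head?_append, hhd] at hp
        simp at hp
        exact hp ▸ hva
      · intro p hp q hq
        rw [hlast] at hp
        simp at hp hq
        subst hp hq
        exact hxb.symm
  have hd : Disjoint IA IB := disjoint_left.2 fun a ha hb =>
    hban a ha a hb [a] (by simp) (by simp) rfl rfl (by simp) (by simp)
  have hac : AntiCompl G IA IB := fun a ha b hb hab =>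
    hban a ha b hb [a, b] (by simp [hab.ne]) (by simp) rfl rfl (by simp [hab]) (by simp)
  have := aNum_add_le hA.sub hB.sub hd hac
  rw [aNum_of_indep hA.indep, aNum_of_indep hB.indep] at this
  have := hA.card
  have := hB.card
  have := h.card_eq
  have := D.alpha
  omega

/-- `TwinSpec` for cycles of length eight. -/
theorem twinSpec_eight (hcore : CoreSpec G 8) (hflex : FlexSpec G 8) (hexit : ExitSpec G 8)
    (havoid : AvoidSpec G 8) : TwinSpec G 8 := by
  classical
  intro hnc S K J W T hS ha hT hbig hmax hTc hTK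
  have D : EightData G S := ⟨hnc, hS, by omega, hcore, hflex, hexit, havoid⟩
  have hle := hmax T hT.subT hTc
  have hdT := hT.disjT
  have h : Pair G S K T 8 :=
    ⟨hT.subK, hT.subT, hT.clique, hTc,
      disjoint_left.2 fun z hz hz' => disjoint_left.1 hdT hz'
        (mem_union_left _ (mem_union_left _ hz)), by omega, hbig, hmax⟩
  obtain ⟨y, hy, j, hj, hjy⟩ : ∃ y ∈ T, ∃ j ∈ J, G.Adj j y := by
    by_contra hnone
    push Not at hnone
    obtain ⟨y₀, hy₀⟩ : T.Nonempty := card_pos.1 (by omega)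
    obtain ⟨w, hw, -⟩ :=
      (hT.cover y₀ hy₀).resolve_left (fun ⟨j, hj, hjy⟩ => hnone y₀ hy₀ j hj hjy)
    have hwT : w ∉ T := fun h' => disjoint_left.1 hdT h' (mem_union_right _ hw)
    have hcl : G.IsClique ((insert w T : Finset V) : Set V) := by
      rw [coe_insert, SimpleGraph.isClique_insert]
      refine ⟨hTc, fun z hz _ => ?_⟩
      obtain ⟨w', hw', hadj⟩ :=
        (hT.cover z (by exact_mod_cast hz)).resolve_left
          (fun ⟨j, hj, hjy⟩ => hnone z (by exact_mod_cast hz) j hj hjy)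
      obtain rfl : w' = w := card_le_one.1 hT.single w' hw' w hw
      exact hadj
    have := hmax (insert w T) (insert_subset (hT.subW hw) hT.subT) hcl
    rw [card_insert_of_notMem hwT] at this
    omega
  by_cases hedge : ∃ v ∈ K, ∃ x ∈ T, G.Adj v x
  · obtain ⟨v, hv, x, hx, hvx⟩ := hedge
    exact h.eight_edge D hv hx hvx
  push Not at hedge
  obtain ⟨u, hu, huj⟩ := hT.root j hj
  have hlink : Linked G K T j :=
    ⟨fun h' => disjoint_left.1 hT.disjKJ h' hj,
      fun h' => disjoint_left.1 hdT h' (mem_union_left _ (mem_union_right _ hj)),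
      ⟨u, hu, huj⟩, y, hy, hjy.symm⟩
  rcases Nat.lt_or_ge K.card 5 with h5 | h5
  · exact h.eight_four D hedge (by omega) hlink
  · exact h.eight_wide D hedge h5 hlink

end Vale.Agent.P048.Full
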