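import Vale.Agent.P048.Full.KCount

/-!
A clique on at least `m / 2` vertices has many independent neighbours.
-/

namespace Vale.Agent.P048

open Finset

variable {V : Type*} [DecidableEq V] {G : SimpleGraph V} {S K : Finset V} {L : List V} {m : ℕ}
  {u v w p q : V}

/-- A longest list through `K` with fewer than `m` vertices, with as few changes as possible. -/
structure Ext (G : SimpleGraph V) (S K : Finset V) (m : ℕ) (L : List V) : Prop where
  kl : KList G S K L
  cov : ∀ k ∈ K, k ∈ L
  lt : L.length < m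
  max : ∀ L', KList G S K L' → (∀ k ∈ K, k ∈ L') → L'.length < m → L'.length ≤ L.length
  tr_min : ∀ L', KList G S K L' → (∀ k ∈ K, k ∈ L') → L'.length = L.length → tr K L ≤ tr K L'

open scoped Classical in
/-- The neighbours of `u` in `S` outside `L`. -/
noncomputable def outN (G : SimpleGraph V) (S : Finset V) (L : List V) (u : V) : Finset V :=
  S.filter (fun y => G.Adj u y ∧ y ∉ L)

lemma mem_outN {y : V} : y ∈ outN G S L u ↔ y ∈ S ∧ G.Adj u y ∧ y ∉ L := by
  classical
  simp [outN]

omit [DecidableEq V] in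
lemma clique_klist (hKS : K ⊆ S) (hK : G.IsClique (K : Set V)) : KList G S K K.toList where
  nodup := K.nodup_toList
  chain := List.Pairwise.isChain (K.nodup_toList.imp_of_mem fun {a b} ha hb hne =>
    hK (Finset.mem_coe.2 (Finset.mem_toList.1 ha)) (Finset.mem_coe.2 (Finset.mem_toList.1 hb)) hne)
  head := fun x hx => Finset.mem_toList.1 (List.mem_of_mem_head? hx)
  last := fun x hx => Finset.mem_toList.1 (List.mem_of_mem_getLast? hx)
  mem := fun x hx => hKS (Finset.mem_toList.1 hx)

lemma clique_card_lt (hKS : K ⊆ S) (hK : G.IsClique (K : Set V)) (hm : 3 ≤ m)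
    (hnc : ¬ HasCyc G m) : K.card < m := by
  by_contra h
  push Not at h
  obtain ⟨K', hK', hc⟩ := Finset.exists_subset_card_eq h
  have hcl : G.IsClique (K' : Set V) := hK.subset (by exact_mod_cast hK')
  exact (clique_klist (hK'.trans hKS) hcl).length_ne hcl hm hnc (by simp [hc])

lemma exists_ext_of_lt (hKS : K ⊆ S) (hK : G.IsClique (K : Set V))
    (hlt : K.card < m) : ∃ L, Ext G S K m L := by
  classical
  let P : ℕ → Prop := fun l => ∃ L, KList G S K L ∧ (∀ k ∈ K, k ∈ L) ∧ L.length = l
  have hP : P K.card := ⟨K.toList, clique_klist hKS hK, fun k hk => Finset.mem_toList.2 hk, by simp⟩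
  have hn : P (Nat.findGreatest P (m - 1)) := Nat.findGreatest_spec (by omega) hP
  set n := Nat.findGreatest P (m - 1) with hn'
  let Q : ℕ → Prop := fun t => ∃ L, KList G S K L ∧ (∀ k ∈ K, k ∈ L) ∧ L.length = n ∧ tr K L = t
  have hQ : ∃ t, Q t := by
    obtain ⟨L, h1, h2, h3⟩ := hn
    exact ⟨_, L, h1, h2, h3, rfl⟩
  obtain ⟨L, h1, h2, h3, h4⟩ := Nat.find_spec hQ
  have hle : n ≤ m - 1 := Nat.findGreatest_le _
  refine ⟨L, h1, h2, by omega, fun L' g1 g2 g3 => ?_, fun L' g1 g2 g3 => ?_⟩
  · rw [h3]; exact Nat.le_findGreatest (by omega) ⟨L', g1, g2, rfl⟩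
  · rw [h4]; exact Nat.find_le ⟨L', g1, g2, g3.trans h3, rfl⟩

lemma exists_ext (hKS : K ⊆ S) (hK : G.IsClique (K : Set V)) (hm : 3 ≤ m)
    (hnc : ¬ HasCyc G m) : ∃ L, Ext G S K m L :=
  exists_ext_of_lt hKS hK (clique_card_lt hKS hK hm hnc)

variable (hK : G.IsClique (K : Set V)) (hm : 3 ≤ m) (hnc : ¬ HasCyc G m)
include hK hm hnc

/-- An outside vertex sees at most one stop. -/
lemma Ext.one_stop (h : Ext G S K m L) {y : V} (hy : y ∈ S) (hyL : y ∉ L) (hp : Stop K L p)
    (hq : Stop K L q) (hne : p ≠ q) (h1 : G.Adj y p) (h2 : G.Adj y q) : False := by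
  obtain ⟨L', g1, g2, -⟩ := h.kl.splice (Y := [y]) hK hp hq hne (by simp) (by simpa using hyL)
    (by simpa using hy) (by simp [h1.symm, h2])
  have hl : L'.length = L.length + 1 := by rw [g2.length_eq]; simp
  have hlt := h.lt
  have hne' := g1.length_ne hK hm hnc
  have := h.max L' g1 (fun k hk => g2.symm.subset (List.mem_append_left _ (h.cov k hk))) (by omega)
  omega

omit hm hnc in
/-- Representatives are independent. -/
lemma Ext.reps_indep (h : Ext G S K m L) : G.IsIndepSet (repsF K L : Set V) := by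
  intro x hx y hy hne hxy
  simp only [Finset.mem_coe, mem_repsF] at hx hy
  obtain ⟨L', g1, g2, g3⟩ := h.kl.splice (Y := []) hK hx.1 hy.1 hne (by simp) (by simp) (by simp)
    (by simp [hxy])
  have := h.tr_min L' g1
    (fun k hk => g2.symm.subset (List.mem_append_left _ (h.cov k hk))) (by rw [g2.length_eq]; simp)
  simp [tr, bd, hx.2, hy.2] at g3
  omega

omit hm hnc in
/-- A shorter list through the same two stops, using only vertices of `L`. -/
lemma Ext.skip_short (h : Ext G S K m L) {A D C : List V} (e : L = A ++ D ++ C)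
    (hA : ∀ y ∈ A.getLast?, y ∈ K) (hC : ∀ y ∈ C.head?, y ∈ K) (hu : Stop K L u) (huD : u ∉ D)
    (hv : Stop K L v) (hvD : v ∉ D) :
    ∃ L1, KList G S K L1 ∧ (∀ x ∈ L1, x ∈ L) ∧ L1.length + D.length = L.length ∧
      Stop K L1 u ∧ Stop K L1 v := by
  subst e
  refine ⟨A ++ C, h.kl.skip hK hA hC, ?_, by simp; omega,
    hu.skip h.kl.nodup huD hC, hv.skip h.kl.nodup hvD hC⟩
  intro x hx
  simp at hx ⊢
  tauto

omit hK hm hnc in
/-- The outside neighbourhood of a vertex of the list is large. -/
lemma out_card (h : KList G S K L) (hdeg : MinDeg G S (m - 1)) (hu : u ∈ L) (E : Finset V)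
    (hE : ∀ x ∈ E, x ∈ L ∧ x ≠ u ∧ ¬ G.Adj u x) :
    m + E.card ≤ (outN G S L u).card + L.length := by
  classical
  obtain ⟨N, hNS, hNc, hN⟩ := hdeg u (h.mem u hu)
  have hsub : N ⊆ outN G S L u ∪ ((L.toFinset.erase u) \ E) := by
    intro x hx
    rw [Finset.mem_union, mem_outN, Finset.mem_sdiff, Finset.mem_erase, List.mem_toFinset]
    by_cases hxL : x ∈ L
    · exact Or.inr ⟨⟨(hN x hx).ne', hxL⟩, fun hxE => (hE x hxE).2.2 (hN x hx)⟩
    · exact Or.inl ⟨hNS hx, hN x hx, hxL⟩
  have h1 := Finset.card_le_card hsub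
  have h2 := Finset.card_union_le (outN G S L u) ((L.toFinset.erase u) \ E)
  have hEsub : E ⊆ L.toFinset.erase u := fun x hx =>
    Finset.mem_erase.2 ⟨(hE x hx).2.1, List.mem_toFinset.2 (hE x hx).1⟩
  have h3 := Finset.card_sdiff_add_card_eq_card hEsub
  rw [Finset.card_erase_of_mem (List.mem_toFinset.2 hu), List.toFinset_card_of_nodup h.nodup] at h3
  have h4 : 1 ≤ L.length := List.length_pos_of_mem hu
  omega

/-- An isolated member with a cross edge sees no penultimate vertex. -/
lemma not_adj_penult (h : KList G S K L) (hl : L.length + 1 = m) (hu : Iso K L u)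
    (hv : Stop K L v) (hvK : v ∈ K) (hne : u ≠ v) {y z : V} (hy : y ∈ outN G S L u)
    (hz : z ∈ outN G S L v) (hyz : G.Adj y z) (hw : Penult K L w) : ¬ G.Adj u w := by
  intro huw
  obtain ⟨hwK, A2, x, a, C2, e, hxK, haK⟩ := hw
  obtain ⟨huK, A1, C1, e1, hA1, hC1⟩ := hu
  have hnd1 : (A1 ++ [u] ++ C1).Nodup := by simpa [e1] using h.nodup
  have h' : KList G S K (A1 ++ [u] ++ C1) := by simpa [e1] using h
  have k1 := h'.skip hK hA1 hC1
  have s1 : Stop K (A1 ++ C1) v :=
    (show Stop K (A1 ++ [u] ++ C1) v by simpa [e1] using hv).skip hnd1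
      (by simpa using Ne.symm hne) hC1
  have hnd := h.nodup
  have eer : L.erase u = A1 ++ C1 := by
    have hu1 : u ∉ A1 := fun hh => by
      have := (List.nodup_append.1 (e1 ▸ hnd)).2.2 u hh u (by simp)
      exact this rfl
    rw [e1, List.erase_append_right _ hu1]; simp
  obtain ⟨A3, C3, e3⟩ : ∃ A3 C3, A1 ++ C1 = A3 ++ w :: x :: a :: C3 := by
    rw [← eer, e]
    have huw' : u ≠ w := huw.ne
    have hux : u ≠ x := fun hh => hxK (hh ▸ huK)
    have hua : u ≠ a := by
      intro hh; subst hh
      obtain ⟨hA, -⟩ := append_cons_inj_of_nodup (A := A2 ++ [w, x]) (v := u) (C := C2)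
        (by simpa [e] using hnd) (A' := A1) (C' := C1) (by simpa [e] using e1)
      exact hxK (hA1 x (by simp [← hA]))
    by_cases h2 : u ∈ A2
    · exact ⟨A2.erase u, C2, List.erase_append_left _ h2⟩
    · refine ⟨A2, C2.erase u, ?_⟩
      rw [List.erase_append_right _ h2]
      simp [huw'.symm, hux.symm, hua.symm]
  rw [e3] at k1 s1
  have hnd3 := k1.nodup
  have hvnw : v ≠ w := fun hh => hwK (hh ▸ hvK)
  have hvnx : v ≠ x := fun hh => hxK (hh ▸ hvK)
  have humem : u ∉ A1 ++ C1 := by
    rw [← eer]; exact hnd.not_mem_erase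
  have humem3 : u ∉ A3 ++ w :: x :: a :: C3 := e3 ▸ humem
  have k2 : KList G S K (A3 ++ w :: u :: a :: C3) := by
    refine ⟨?_, ?_, ?_, ?_, ?_⟩
    · have hperm : (u :: (A3 ++ w :: a :: C3)).Perm (A3 ++ w :: u :: a :: C3) := by
        rw [List.perm_iff_count]; intro t; simp [List.count_append, List.count_cons]; omega
      refine hperm.nodup_iff.1 (List.nodup_cons.2 ⟨?_, hnd3.sublist ?_⟩)
      · intro hh; apply humem3; simp at hh ⊢; tauto
      · exact (List.Sublist.cons_cons w (List.sublist_cons_self x _)).append_left A3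
    · obtain ⟨c1, c2, c3⟩ := List.isChain_append.1 k1.chain
      refine List.isChain_append.2 ⟨c1, ?_, by simpa using c3⟩
      refine (c2.tail.tail.cons_cons ?_).cons_cons huw.symm
      exact hK (by exact_mod_cast huK) (by exact_mod_cast haK)
        (fun hh => humem3 (by simp [hh]))
    · have := k1.head
      cases A3 <;> simpa using this
    · have := k1.last
      simpa [List.getLast?_append, List.getLast?_cons_cons] using this
    · intro t ht
      simp at ht
      rcases ht with ht | rfl | rfl | rfl | ht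
      · exact k1.mem t (by simp [ht])
      · exact k1.mem t (by simp)
      · exact h.mem t (by simp [e1])
      · exact k1.mem t (by simp)
      · exact k1.mem t (by simp [ht])
  have su : Stop K (A3 ++ w :: u :: a :: C3) u :=
    ⟨A3 ++ [w], a :: C3, by simp, by simp [haK]⟩
  have sv : Stop K (A3 ++ w :: u :: a :: C3) v := by
    have hm' := s1.mem
    simp [hvnw, hvnx] at hm'
    rcases hm' with hm' | hm' | hm'
    · exact stop_append_left (B' := w :: u :: a :: C3) s1 hm' hnd3 (by simp)
    all_goals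
      have s2 : Stop K (a :: C3) v := stop_append_right (A := A3 ++ [w, x]) (by simpa using s1)
        (by simp [hm']) (by simpa using hnd3)
      simpa using s2.append (A3 ++ [w, u])
  have hnL : ∀ t ∈ [y, z], t ∉ A3 ++ w :: u :: a :: C3 := by
    have hall : ∀ t ∈ A3 ++ w :: u :: a :: C3, t ∈ L := by
      intro t ht
      have hsub : ∀ t ∈ A3 ++ w :: x :: a :: C3, t ∈ L := fun t ht => by
        rw [← e3, ← eer] at ht; exact List.mem_of_mem_erase ht
      simp at ht
      rcases ht with ht | rfl | rfl | rfl | ht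
      · exact hsub t (by simp [ht])
      · exact hsub t (by simp)
      · simp [e1]
      · exact hsub t (by simp)
      · exact hsub t (by simp [ht])
    intro t ht hh
    simp at ht
    rcases ht with rfl | rfl
    · exact (mem_outN.1 hy).2.2 (hall _ hh)
    · exact (mem_outN.1 hz).2.2 (hall _ hh)
  refine k2.no_link hK hm hnc su sv hne (Y := [y, z]) (by simp [hyz.ne]) hnL
    (by simp [(mem_outN.1 hy).1, (mem_outN.1 hz).1])
    (by simp [(mem_outN.1 hy).2.1, hyz, (mem_outN.1 hz).2.1.symm]) ?_
  have e4 := congrArg List.length e3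
  have e5 := congrArg List.length e1
  simp at e4 e5 ⊢
  omega

end Vale.Agent.P048
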